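import Crest.Agent.R086.M.Zero
import Crest.Agent.R086.P.Bd

/-! # Row 86, part M-a: symbol class used in `Decay` -/

set_option autoImplicit false

open MeasureTheory Set Filter Topology
open scoped ContDiff ComplexConjugate

namespace Crest.Agent.R086.M

noncomputable section

/-- symbols of order `-s` with `I` derivatives on `r ≥ 1` -/
def Sb (s : ℝ) (I : ℕ) (f : ℝ → ℂ) : Prop :=
  ∃ C K : ℝ, 0 ≤ K ∧ ∀ r : ℝ, 1 ≤ r → P.Bd I f r (C * r ^ (-s)) (K / r)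

variable {s t : ℝ} {I : ℕ} {f g : ℝ → ℂ}

theorem Sb.of_bound (hf : ∀ r : ℝ, 1 ≤ r → ContDiffAt ℝ I f r)
    (h : ∃ C : ℝ, ∀ i : ℕ, i ≤ I → ∀ r : ℝ, 1 ≤ r → ‖iteratedDeriv i f r‖ ≤ C * r ^ (-s - i)) :
    Sb s I f := by
  obtain ⟨C, hC⟩ := h
  refine ⟨C, 1, zero_le_one, fun r hr => ⟨hf r hr, fun i hi => (hC i hi r hr).trans_eq ?_⟩⟩
  have hr0 : 0 < r := zero_lt_one.trans_le hr
  rw [Real.rpow_sub hr0, Real.rpow_natCast, one_div, inv_pow]
  ring

theorem Sb.of_bounds (hf : ∀ r : ℝ, 1 ≤ r → ContDiffAt ℝ I f r)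
    (h : ∀ i : ℕ, i ≤ I → ∃ C : ℝ, ∀ r : ℝ, 1 ≤ r → ‖iteratedDeriv i f r‖ ≤ C * r ^ (-s - i)) :
    Sb s I f := by
  choose! C hC using h
  refine Sb.of_bound hf ⟨∑ i ∈ Finset.range (I + 1), |C i|, fun i hi r hr => (hC i hi r hr).trans ?_⟩
  refine mul_le_mul_of_nonneg_right ((le_abs_self _).trans ?_) (by positivity)
  exact Finset.single_le_sum (f := fun i => |C i|) (fun _ _ => abs_nonneg _)
    (Finset.mem_range.2 (by omega))

theorem Sb.bound (h : Sb s I f) :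
    ∃ C : ℝ, ∀ i : ℕ, i ≤ I → ∀ r : ℝ, 1 ≤ r → ‖iteratedDeriv i f r‖ ≤ C * r ^ (-s - i) := by
  obtain ⟨C, K, hK, h⟩ := h
  refine ⟨C * (1 + K) ^ I, fun i hi r hr => ((h r hr).2 i hi).trans ?_⟩
  have hr0 : 0 < r := zero_lt_one.trans_le hr
  have h0 := (h r hr).nonneg
  have h1 : K ^ i ≤ (1 + K) ^ I :=
    (pow_le_pow_left₀ hK (by linarith) i).trans (pow_le_pow_right₀ (by linarith) hi)
  rw [Real.rpow_sub hr0, Real.rpow_natCast, div_pow]
  calc C * r ^ (-s) * (K ^ i / r ^ i) ≤ C * r ^ (-s) * ((1 + K) ^ I / r ^ i) := by gcongr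
    _ = _ := by ring

theorem Sb.of_le {J : ℕ} (h : Sb s I f) (hJ : J ≤ I) : Sb s J f := by
  obtain ⟨C, K, hK, h⟩ := h
  exact ⟨C, K, hK, fun r hr => (h r hr).of_le hJ⟩

theorem Sb.mono (h : Sb s I f) (ht : t ≤ s) : Sb t I f := by
  obtain ⟨C, K, hK, h⟩ := h
  have hC : 0 ≤ C := by simpa using (h 1 le_rfl).nonneg
  refine ⟨C, K, hK, fun r hr => (h r hr).mono (by positivity) ?_ le_rfl⟩
  exact mul_le_mul_of_nonneg_left (Real.rpow_le_rpow_of_exponent_le hr (by linarith)) hC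

theorem Sb.add (h : Sb s I f) (h' : Sb s I g) : Sb s I (fun r => f r + g r) := by
  obtain ⟨C, K, hK, h⟩ := h
  obtain ⟨C', K', hK', h'⟩ := h'
  refine ⟨C + C', K + K', by positivity, fun r hr => ?_⟩
  have hr0 : 0 < r := zero_lt_one.trans_le hr
  rw [add_mul]
  refine P.Bd.add ((h r hr).mono (by positivity) le_rfl ?_) ((h' r hr).mono (by positivity) le_rfl ?_)
  · gcongr; linarith
  · gcongr; linarith

theorem Sb.const_mul (c : ℂ) (h : Sb s I f) : Sb s I (fun r => c * f r) := by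
  obtain ⟨C, K, hK, h⟩ := h
  refine ⟨‖c‖ * C, K, hK, fun r hr => ?_⟩
  rw [mul_assoc]
  exact (h r hr).const_mul c

theorem Sb.mul (h : Sb s I f) (h' : Sb t I g) : Sb (s + t) I (fun r => f r * g r) := by
  obtain ⟨C, K, hK, h⟩ := h
  obtain ⟨C', K', hK', h'⟩ := h'
  refine ⟨C * C', K + K', by positivity, fun r hr => ?_⟩
  have hr0 : 0 < r := zero_lt_one.trans_le hr
  have := (h r hr).mul (h' r hr) (by positivity) (by positivity)
  convert this using 1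
  · rw [neg_add, Real.rpow_add hr0]; ring
  · ring

theorem Sb.conj (h : Sb s I f) : Sb s I (fun r => conj (f r)) := by
  obtain ⟨C, K, hK, h⟩ := h
  exact ⟨C, K, hK, fun r hr => (h r hr).conj⟩

theorem Sb.deriv (h : Sb s (I + 1) f) : Sb (s + 1) I (deriv f) := by
  obtain ⟨C, K, hK, h⟩ := h
  refine ⟨C * K, K, hK, fun r hr => ?_⟩
  have hr0 : 0 < r := zero_lt_one.trans_le hr
  convert (h r hr).deriv using 1
  rw [neg_add, Real.rpow_add hr0, Real.rpow_neg_one]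
  ring

theorem Sb.inv (I : ℕ) : Sb 1 I (fun r => (r : ℂ)⁻¹) := by
  refine ⟨1, I, by positivity, fun r hr => ?_⟩
  rw [Real.rpow_neg_one, one_mul]
  exact P.Bd.inv I (zero_lt_one.trans_le hr)

theorem Sb.congr (h : Sb s I f) (he : ∀ r : ℝ, 0 < r → f r = g r) : Sb s I g := by
  obtain ⟨C, K, hK, h⟩ := h
  refine ⟨C, K, hK, fun r hr => (h r hr).congr ?_⟩
  filter_upwards [Ioi_mem_nhds (zero_lt_one.trans_le hr)] with x hx using he x hx

theorem Sb.DD (m : ℕ) (h : Sb s (I + 2) f) : Sb (s + 2) I (DD m f) := by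
  have h1 : Sb (s + 2) I (_root_.deriv (_root_.deriv f)) := h.deriv.deriv.mono (by linarith)
  have h2 : Sb (s + 2) I (fun r => (r : ℂ)⁻¹ * _root_.deriv f r) :=
    ((Sb.inv I).mul (h.deriv.of_le (by omega))).mono (by linarith)
  have h3 : Sb (s + 2) I (fun r => (r : ℂ)⁻¹ * ((r : ℂ)⁻¹ * f r)) :=
    ((Sb.inv I).mul ((Sb.inv I).mul (h.of_le (by omega)))).mono (by linarith)
  refine ((h1.add (h2.const_mul 11)).add (h3.const_mul (-((m : ℂ) * (m + 10))))).congr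
    fun r _ => ?_
  unfold Crest.Agent.R086.DD
  ring

theorem one_add_rpow_le {C r e : ℝ} (hr : 1 ≤ r) (he : e ≤ 0) :
    C * (1 + r) ^ e ≤ |C| * r ^ e :=
  mul_le_mul (le_abs_self C) (Real.rpow_le_rpow_of_nonpos (by linarith) (by linarith) he)
    (by positivity) (abs_nonneg C)

variable {n : ℕ} {b : ℝ} {q : ℝ → ℂ}

theorem Sb.V1 (hP : Prof n b q) (I : ℕ) : Sb 2 I (fun s => V1 n (Qr q s)) := by
  have h0 : ContDiff ℝ I (Qr q) := (contDiff_Qr hP).of_le (by exact_mod_cast le_top)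
  have h1 : ContDiff ℝ I (fun s => conj (Qr q s)) := Complex.conjCLE.contDiff.comp h0
  refine Sb.of_bounds (fun r _ => ?_) (fun i _ => ?_)
  · exact (contDiff_const.mul ((h0.pow n).mul (h1.pow n))).contDiffAt
  · obtain ⟨C, hC⟩ := V_symb hP i
    refine ⟨|C|, fun r hr => (hC r (by linarith)).1.trans (one_add_rpow_le hr ?_)⟩
    have : (0 : ℝ) ≤ i := by positivity
    linarith

theorem Sb.V2 (hP : Prof n b q) (I : ℕ) : Sb 2 I (fun s => V2 n (Qr q s)) := by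
  have h0 : ContDiff ℝ I (Qr q) := (contDiff_Qr hP).of_le (by exact_mod_cast le_top)
  have h1 : ContDiff ℝ I (fun s => conj (Qr q s)) := Complex.conjCLE.contDiff.comp h0
  refine Sb.of_bounds (fun r _ => ?_) (fun i _ => ?_)
  · exact (contDiff_const.mul ((h0.pow (n + 1)).mul (h1.pow (n - 1)))).contDiffAt
  · obtain ⟨C, hC⟩ := V_symb hP i
    refine ⟨|C|, fun r hr => (hC r (by linarith)).2.trans (one_add_rpow_le hr ?_)⟩
    have : (0 : ℝ) ≤ i := by positivity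
    linarith

end

end Crest.Agent.R086.M
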