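import Crest.Agent.R086.M.Zero
import Crest.Agent.R086.M.DecayAux49

/-! # Row 86, part M-a: improved decay of eigenfunctions with large Re λ (task) -/

open MeasureTheory Set Filter Topology
open scoped ContDiff ComplexConjugate

namespace Crest.Agent.R086.M

noncomputable section

/-- (r/2)u' + βu = S, |S| ≤ K r^{-t} on r ≥ 1, t < 2 Re β ⇒ |u| ≤ C r^{-t}:  (r^{2β}u)' = 2r^{2β-1}S -/
theorem decay_scalar {u S : ℝ → ℂ} {β : ℂ} {t K : ℝ} (ht : t < 2 * β.re)
    (hu : ∀ r : ℝ, 1 ≤ r → DifferentiableAt ℝ u r)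
    (he : ∀ r : ℝ, 1 ≤ r → (r : ℂ) / 2 * deriv u r + β * u r = S r)
    (hS : ∀ r : ℝ, 1 ≤ r → ‖S r‖ ≤ K * r ^ (-t)) :
    ∃ C : ℝ, ∀ r : ℝ, 1 ≤ r → ‖u r‖ ≤ C * r ^ (-t) := by
  have hK : 0 ≤ K := by simpa using (norm_nonneg _).trans (hS 1 le_rfl)
  obtain ⟨γ, hγd⟩ : ∃ γ, γ = 2 * β.re - t := ⟨_, rfl⟩
  have hγ : 0 < γ := by linarith
  have hw : ∀ r : ℝ, 1 ≤ r → HasDerivAt (fun x : ℝ => (x : ℂ) ^ (2 * β) * u x)
      (2 * (r : ℂ) ^ (2 * β - 1) * S r) r := by
    intro r hr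
    have hr0 : 0 < r := zero_lt_one.trans_le hr
    have h1 : HasDerivAt (fun x : ℝ => (x : ℂ) ^ (2 * β)) (2 * β * (r : ℂ) ^ (2 * β - 1)) r :=
      (Complex.hasStrictDerivAt_cpow_const (c := 2 * β)
        (Complex.ofReal_mem_slitPlane.2 hr0)).hasDerivAt.comp_ofReal
    have h2 : (r : ℂ) ^ (2 * β) = (r : ℂ) ^ (2 * β - 1) * r := by
      have hr' : (r : ℂ) ≠ 0 := by exact_mod_cast hr0.ne'
      rw [Complex.cpow_sub _ _ hr', Complex.cpow_one]
      field_simp
    refine (h1.mul (hu r hr).hasDerivAt).congr_deriv ?_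
    rw [← he r hr, h2]
    ring
  have hB : ∀ r : ℝ, 1 ≤ r → HasDerivAt (fun x : ℝ => ‖u 1‖ + 2 * K / γ * x ^ γ)
      (2 * K * r ^ (γ - 1)) r := by
    intro r hr
    have hr0 : 0 < r := zero_lt_one.trans_le hr
    refine (((Real.hasDerivAt_rpow_const (p := γ) (Or.inl hr0.ne')).const_mul
      (2 * K / γ)).const_add ‖u 1‖).congr_deriv ?_
    field_simp
  refine ⟨‖u 1‖ + 2 * K / γ, fun r hr => ?_⟩
  have hr0 : 0 < r := zero_lt_one.trans_le hr
  have key := image_norm_le_of_norm_deriv_right_le_deriv_boundary' (a := 1) (b := r)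
    (f := fun x : ℝ => (x : ℂ) ^ (2 * β) * u x) (f' := fun x => 2 * (x : ℂ) ^ (2 * β - 1) * S x)
    (fun x hx => (hw x hx.1).continuousAt.continuousWithinAt)
    (fun x hx => (hw x hx.1).hasDerivWithinAt)
    (B := fun x : ℝ => ‖u 1‖ + 2 * K / γ * x ^ γ) (B' := fun x => 2 * K * x ^ (γ - 1))
    (by simp only [Complex.ofReal_one, Complex.one_cpow, one_mul, Real.one_rpow, mul_one]
        exact le_add_of_nonneg_right (by positivity))
    (fun x hx => (hB x hx.1).continuousAt.continuousWithinAt)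
    (fun x hx => (hB x hx.1).hasDerivWithinAt)
    (fun x hx => by
      have hx0 : 0 < x := zero_lt_one.trans_le hx.1
      rw [norm_mul, norm_mul, Complex.norm_two, Complex.norm_cpow_eq_rpow_re_of_pos hx0]
      calc 2 * x ^ (2 * β - 1).re * ‖S x‖ ≤ 2 * x ^ (2 * β - 1).re * (K * x ^ (-t)) :=
            mul_le_mul_of_nonneg_left (hS x hx.1) (by positivity)
        _ = 2 * K * (x ^ (2 * β - 1).re * x ^ (-t)) := by ring
        _ = 2 * K * x ^ (γ - 1) := by
            rw [← Real.rpow_add hx0, hγd]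
            congr 2
            simp
            ring) (right_mem_Icc.2 hr)
  rw [norm_mul, Complex.norm_cpow_eq_rpow_re_of_pos hr0] at key
  have e1 : (2 * β).re = γ + t := by rw [hγd]; simp
  rw [e1, Real.rpow_add hr0] at key
  have h1 : 1 ≤ r ^ γ := Real.one_le_rpow hr hγ.le
  have h2 : 0 < r ^ t := Real.rpow_pos_of_pos hr0 t
  rw [Real.rpow_neg hr0.le, ← div_eq_mul_inv, le_div_iff₀ h2]
  have h3 : r ^ γ * (‖u r‖ * r ^ t) ≤ r ^ γ * (‖u 1‖ + 2 * K / γ) := by
    nlinarith [norm_nonneg (u 1)]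
  exact le_of_mul_le_mul_left h3 (by linarith)

/-- decay of order s with I derivatives -/
def Dec (s : ℝ) (I : ℕ) (f : ℝ → ℂ) : Prop :=
  ∃ C : ℝ, ∀ i : ℕ, i ≤ I → ∀ r : ℝ, 1 ≤ r → ‖iteratedDeriv i f r‖ ≤ C * r ^ (-s - i)

/-- differentiate the first order equation i times on r > 0: (r/2)u^{(i+1)} + (β+i/2)u^{(i)} = S^{(i)} -/
theorem decay_step1 {u S : ℝ → ℂ} {β : ℂ} {t : ℝ} {I : ℕ} (ht : t < 2 * β.re)
    (hu : ContDiff ℝ (I + 1 : ℕ) u) (hS : ContDiffOn ℝ I S (Ioi 0))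
    (he : ∀ r : ℝ, 0 < r → (r : ℂ) / 2 * deriv u r + β * u r = S r) (hd : Dec t I S) : Dec t I u := by
  have hdiff : ∀ i ≤ I, Differentiable ℝ (iteratedDeriv i u) := fun i hi =>
    hu.differentiable_iteratedDeriv i (by exact_mod_cast Nat.lt_succ_of_le hi)
  have heq : ∀ i ≤ I, ∀ r : ℝ, 0 < r → (r : ℂ) / 2 * deriv (iteratedDeriv i u) r
      + (β + i / 2) * iteratedDeriv i u r = iteratedDeriv i S r := by
    intro i
    induction i with
    | zero => intro _ r hr; simpa using he r hr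
    | succ i ih =>
      intro hi r hr
      have h1 : (fun x : ℝ => (x : ℂ) / 2 * iteratedDeriv (i + 1) u x
          + (β + i / 2) * iteratedDeriv i u x) =ᶠ[𝓝 r] iteratedDeriv i S := by
        filter_upwards [Ioi_mem_nhds hr] with x hx
        rw [iteratedDeriv_succ]
        exact ih (by omega) x hx
      have h2 : HasDerivAt (fun x : ℝ => (x : ℂ) / 2) (1 / 2) r := by
        simpa using (Complex.ofRealCLM.hasDerivAt (x := r)).div_const 2
      have h3 := (h2.mul (hdiff (i + 1) hi r).hasDerivAt).add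
        ((hdiff i (by omega) r).hasDerivAt.const_mul (β + i / 2))
      rw [iteratedDeriv_succ (f := S), ← h1.deriv_eq]
      refine Eq.trans ?_ h3.deriv.symm
      rw [← iteratedDeriv_succ (n := i)]
      push_cast
      ring
  obtain ⟨K, hK⟩ := hd
  refine (Sb.of_bounds (fun r _ => (hu.of_le (by exact_mod_cast Nat.le_succ I)).contDiffAt)
    (fun i hi => ?_)).bound
  obtain ⟨C, hC⟩ := decay_scalar (u := iteratedDeriv i u) (S := iteratedDeriv i S)
    (β := β + i / 2) (t := t + i) (K := K) (by simp; linarith) (fun r _ => hdiff i hi r)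
    (fun r hr => heq i hi r (by linarith)) (fun r hr => by rw [neg_add']; exact hK i hi r hr)
  exact ⟨C, fun r hr => by rw [← neg_add']; exact hC r hr⟩

theorem decay_step2 {u S : ℝ → ℂ} {β : ℂ} {t : ℝ} {I : ℕ} (ht : t < 2 * β.re)
    (hu : ContDiff ℝ (I + 1 : ℕ) u)
    (he : ∀ r : ℝ, 0 < r → (r : ℂ) / 2 * deriv u r + β * u r = S r) (hd : Sb t I S) :
    Dec t I u := by
  have h1 : ContDiff ℝ I (deriv u) := (contDiff_succ_iff_deriv.1 (by exact_mod_cast hu)).2.2
  have h2 : ContDiff ℝ I u := hu.of_le (by exact_mod_cast Nat.le_succ I)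
  have h3 : ContDiff ℝ I (fun r : ℝ => (r : ℂ) / 2) := Complex.ofRealCLM.contDiff.div_const 2
  refine decay_step1 (S := fun r : ℝ => (r : ℂ) / 2 * deriv u r + β * u r) ht hu
    ((h3.mul h1).add (contDiff_const.mul h2)).contDiffOn (fun _ _ => rfl) ?_
  exact (hd.congr fun r hr => (he r hr).symm).bound

/-- one step for the system: S₁ = i𝒟f - i(V₁f+V₂g), S₂ = -i𝒟g + i(V₁g+V̄₂f) have decay s+2 with I derivatives (Leibniz; r⁻¹, r⁻², V₁, V₂ are
symbols: `V_symb`; the class `Crest.Agent.R086.P.Bd` of R086/P/Bd.lean may be used) -/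
theorem decay_step {n : ℕ} {b : ℝ} {q : ℝ → ℂ} {m : ℕ} {lam : ℂ} {f g : ℝ → ℂ} (hP : Prof n b q)
    (hf : RadAdm f) (hg : RadAdm g) (h : Eqn n b q m lam 0 0 0 f g) {s s' : ℝ} {I : ℕ} (hI : I + 2 ≤ 24)
    (hs : s' ≤ s + 2) (hs' : s' < 2 * lam.re) (h1 : Dec s (I + 2) f) (h2 : Dec s (I + 2) g) :
    Dec s' I f ∧ Dec s' I g := by
  have hf' : Sb s (I + 2) f :=
    Sb.of_bound (fun r _ => (hf.smooth.of_le (by exact_mod_cast hI)).contDiffAt) h1
  have hg' : Sb s (I + 2) g :=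
    Sb.of_bound (fun r _ => (hg.smooth.of_le (by exact_mod_cast hI)).contDiffAt) h2
  have hf0 : Sb s I f := hf'.of_le (by omega)
  have hg0 : Sb s I g := hg'.of_le (by omega)
  have ha : 0 ≤ aa n := by unfold aa; positivity
  have hI1 : ((I + 1 : ℕ) : WithTop ℕ∞) ≤ 24 := by exact_mod_cast (by omega : I + 1 ≤ 24)
  constructor
  · refine decay_step2 (β := (aa n : ℂ) - Complex.I * b + lam) (by simp; linarith)
      (hf.smooth.of_le hI1) ?_
      ((((hf'.DD m).mono hs).const_mul Complex.I).add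
        ((((((Sb.V1 hP I).mul hf0).add ((Sb.V2 hP I).mul hg0)).mono
          (by linarith))).const_mul (-Complex.I)))
    intro r hr
    have e := (h r hr).1
    simp only [L1, phc, zero_mul, add_zero] at e
    linear_combination -e
  · refine decay_step2 (β := (aa n : ℂ) + Complex.I * b + lam) (by simp; linarith)
      (hg.smooth.of_le hI1) ?_
      ((((hg'.DD m).mono hs).const_mul (-Complex.I)).add
        ((((((Sb.V1 hP I).mul hg0).add ((Sb.V2 hP I).conj.mul hf0)).mono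
          (by linarith))).const_mul Complex.I))
    intro r hr
    have e := (h r hr).2
    simp only [L2, phc, map_zero, zero_mul, add_zero] at e
    linear_combination -e

theorem dec_zero {f : ℝ → ℂ} (hf : RadAdm f) : Dec 0 9 f := by
  obtain ⟨C, hC⟩ := hf.decay
  refine ⟨|C|, fun i hi r hr => (hC i (by omega) r (by linarith)).trans ?_⟩
  rw [neg_zero, zero_sub]
  exact one_add_rpow_le hr (by simp)

/-- s = 0, 2, 4, 6, 13/2 -/
theorem decay_big {n : ℕ} {b : ℝ} {q : ℝ → ℂ} {m : ℕ} {lam : ℂ} {f g : ℝ → ℂ} (hP : Prof n b q)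
    (hf : RadAdm f) (hg : RadAdm g) (h : Eqn n b q m lam 0 0 0 f g) (hs : 33 / 10 ≤ lam.re) :
    Dec (13 / 2) 1 f ∧ Dec (13 / 2) 1 g := by
  obtain ⟨a1, b1⟩ := decay_step (s' := 2) (I := 7) hP hf hg h (by norm_num) (by norm_num)
    (by linarith) (dec_zero hf) (dec_zero hg)
  obtain ⟨a2, b2⟩ := decay_step (s' := 4) (I := 5) hP hf hg h (by norm_num) (by norm_num)
    (by linarith) a1 b1
  obtain ⟨a3, b3⟩ := decay_step (s' := 6) (I := 3) hP hf hg h (by norm_num) (by norm_num)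
    (by linarith) a2 b2
  exact decay_step (s' := 13 / 2) (I := 1) hP hf hg h (by norm_num) (by norm_num)
    (by linarith) a3 b3

end

end Crest.Agent.R086.M
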