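import Crest.Agent.R086.M.MI

/-! # Row 86, part M-a: consequences of the energy identity; the inner boundary condition; large Re λ (task) -/

open MeasureTheory Set Filter Topology
open scoped ContDiff ComplexConjugate

namespace Crest.Agent.R086.M.HD

noncomputable section

section aux
variable {D : HD} {C₀ nn R R' Φ : ℝ}

private theorem EI_norm_le {f f' : ℝ → ℂ} {ψ ψ' : ℝ → ℝ} {s t : ℝ} (hst : s ≤ t)
    (hf : ContinuousOn f (Icc s t)) (hψ : ContinuousOn ψ (Icc s t))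
    (df : ∀ r ∈ Ioo s t, HasDerivAt f (f' r) r) (dψ : ∀ r ∈ Ioo s t, HasDerivAt ψ (ψ' r) r)
    (hle : ∀ r ∈ Ioo s t, ‖f' r‖ ≤ ψ' r) : ‖f t - f s‖ ≤ ψ t - ψ s := by
  obtain ⟨g, hg1, hg2⟩ := exists_dual_vector'' ℝ (f t - f s)
  have := le_of_deriv_le (φ := fun r => g (f r)) (φ' := fun r => g (f' r)) hst
    (g.continuous.comp_continuousOn hf) hψ
    (fun r hr => g.hasFDerivAt.comp_hasDerivAt r (df r hr)) dψ fun r hr =>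
      (le_abs_self _).trans (((g.le_opNorm _).trans
        (mul_le_of_le_one_left (norm_nonneg _) hg1)).trans (hle r hr))
  rw [← map_sub, hg2] at this
  exact this

private theorem EI_inner (a b : ℂ) (p : ℝ) : |2 * p * inner ℝ a b| ≤ ‖a‖ ^ 2 + p ^ 2 * ‖b‖ ^ 2 := by
  have h := abs_real_inner_le_norm a b
  rw [abs_mul, abs_mul, abs_two, ← sq_abs p]
  nlinarith [mul_le_mul_of_nonneg_left h (abs_nonneg p), sq_nonneg (‖a‖ - |p| * ‖b‖)]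

private theorem EI_mu0 (h : D.Ok) {r : ℝ} (hr : 0 ≤ r) : 0 ≤ D.mu r :=
  mul_nonneg (pow_nonneg hr _) (h.Npos r).le

private theorem EI_lo (hC₀ : 0 < C₀) (hn : D.Near C₀ nn R R' Φ) {r : ℝ} (hr : r ∈ Icc R R')
    (k : ℕ) : 1 ≤ C₀ * (r ^ k * D.N r) := by
  have h1 : (1 : ℝ) ≤ r := by linarith [hn.hR, hr.1]
  have h2 := (hn.hN r ⟨by linarith, hr.2⟩).1
  rw [div_le_iff₀ hC₀] at h2
  have h3 : 1 ≤ r ^ k := one_le_pow₀ h1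
  nlinarith

private theorem EI_hi (hn : D.Near C₀ nn R R' Φ) (h : D.Ok) {r : ℝ} (hr : r ∈ Icc 0 R')
    (k : ℕ) : r ^ k * D.N r ≤ 4 ^ k * C₀ :=
  mul_le_mul (pow_le_pow_left₀ hr.1 (hr.2.trans hn.hR4) k) (hn.hN r hr).2 (h.Npos r).le
    (by positivity)

private theorem EI_den (hC₀ : 0 < C₀) (h : D.Ok) (hn : D.Near C₀ nn R R' Φ) {r : ℝ}
    (hr : r ∈ Icc R R') : ‖D.η' r‖ ^ 2 + ‖D.ϑ' r‖ ^ 2 ≤ C₀ * D.den r := by
  have h0 : 0 ≤ r := by linarith [hn.hR, hr.1]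
  have h1 : 1 ≤ C₀ * D.mu r := EI_lo hC₀ hn hr 11
  have h2 := EI_mu0 h h0
  have h3 := (hn.hW r ⟨h0, hr.2⟩).1
  have h4 := hn.M0
  have h5 := (h.Npos r).le
  have h6 : D.mu r * (‖D.η' r‖ ^ 2 + ‖D.ϑ' r‖ ^ 2) ≤ D.den r := by
    rw [den, add_assoc]
    exact le_add_of_nonneg_right (by positivity)
  have h7 : 0 ≤ ‖D.η' r‖ ^ 2 + ‖D.ϑ' r‖ ^ 2 := by positivity
  nlinarith [mul_le_mul_of_nonneg_left h6 hC₀.le]

private theorem EI_cEn (h : D.Ok) : Continuous D.En :=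
  continuous_iff_continuousAt.2 fun r => (h.hasDerivAt_En r).continuousAt

private theorem EI_cη (h : D.Ok) : Continuous D.η :=
  continuous_iff_continuousAt.2 fun r => (h.dη r).continuousAt

private theorem EI_cϑ (h : D.Ok) : Continuous D.ϑ :=
  continuous_iff_continuousAt.2 fun r => (h.dϑ r).continuousAt

private theorem EI_dJ (h : D.Ok) (hn : D.Near C₀ nn R R' Φ) (m : ℕ) {Λ : ℝ} (hΛ : ‖D.lam‖ ≤ Λ)
    {r : ℝ} (hr : r ∈ Icc 0 R') : ‖D.dJ m r‖ ≤ r ^ (m + 10) * D.N r *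
      (r * (‖D.F₁ r‖ + (6 + |Λ|) * ‖D.η r‖) + m * (r * ‖D.η r‖ + 2 * |D.x r| * ‖D.ϑ r‖)) := by
  have h0 : 0 ≤ r ^ (m + 10) * D.N r := mul_nonneg (pow_nonneg hr.1 _) (h.Npos r).le
  have h1 : ‖(6 - 2 * D.a - D.lam : ℂ)‖ ≤ 6 + |Λ| := by
    refine (norm_sub_le _ _).trans (add_le_add ?_ (hΛ.trans (le_abs_self _)))
    have : (6 - 2 * D.a : ℂ) = ((6 - 2 * D.a : ℝ) : ℂ) := by push_cast; rfl
    rw [this, Complex.norm_real, Real.norm_eq_abs, abs_le]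
    constructor <;> linarith [hn.a0, hn.a1]
  have h2 := hn.hv r hr
  rw [dJ, norm_mul, Complex.norm_real, Real.norm_of_nonneg h0]
  refine mul_le_mul_of_nonneg_left ((norm_add_le _ _).trans (add_le_add ?_ ?_)) h0
  · rw [norm_mul, Complex.norm_real, Real.norm_of_nonneg hr.1]
    refine mul_le_mul_of_nonneg_left ((norm_add_le _ _).trans ?_) hr.1
    rw [norm_mul]
    gcongr
  · rw [norm_mul, Complex.norm_natCast]
    refine mul_le_mul_of_nonneg_left ((norm_sub_le _ _).trans ?_) (Nat.cast_nonneg m)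
    rw [norm_mul, norm_mul, norm_mul, Complex.norm_real, Complex.norm_real,
      Real.norm_of_nonneg h2.1, Real.norm_eq_abs, Complex.norm_ofNat]
    gcongr
    linarith [h2.2, hr.1]

end aux

/-- dE ≥ -5 den on (0,R'] ((11/r+2x)v ≤ 6.7, vW'/2 ≤ 0.12 W), so bE(R') ≥ -5 En(R'); the last term of bE has a sign; μ(R') ≥ 3¹¹/C₀ -/
theorem energy_flux (C₀ : ℝ) (hC₀ : 0 < C₀) : ∃ C : ℝ, 0 < C ∧
    ∀ (D : HD) (nn R R' Φ : ℝ), D.Ok → D.Near C₀ nn R R' Φ → (∀ r, D.F₁ r = 0) → (∀ r, D.F₂ r = 0) →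
      -(D.lam * (D.η R' * conj (D.η' R') + D.ϑ R' * conj (D.ϑ' R'))).re ≤ C * (D.En R' + D.eb R') := by
  refine ⟨5 * C₀ + 2, by positivity, fun D nn R R' Φ h hn h1 h2 => ?_⟩
  have hR0 : 0 ≤ R' := by linarith [hn.hR, hn.hRR]
  have M0 := hn.M0
  have key := le_of_deriv_le (φ := fun r => -5 * D.En r) (φ' := fun r => -5 * D.den r) hR0
    ((EI_cEn h).const_mul _).continuousOn h.cont_bE.continuousOn
    (fun r _ => (h.hasDerivAt_En r).const_mul _) (fun r hr => h.hasDerivAt_bE h1 h2 hr.1)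
    fun r hr => by
      have hr' : r ∈ Icc 0 R' := ⟨hr.1.le, hr.2.le⟩
      have hr0 := hr.1
      have hr4 : r ≤ 4 := hr.2.le.trans hn.hR4
      obtain ⟨v0, v1⟩ := hn.hv r hr'
      obtain ⟨W0, W1⟩ := hn.hW r hr'
      have x1 := (abs_le.1 (hn.hx r hr')).2
      have m0 := EI_mu0 h hr0.le
      have N0 := (h.Npos r).le
      have u0 : 0 ≤ D.v r / r := by positivity
      have u1 : D.v r / r ≤ 3 / 5 := by rwa [div_le_iff₀ hr0]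
      have e1 : (11 / r + 2 * D.x r) * D.v r ≤ 6.7 := by
        have : (11 / r + 2 * D.x r) * D.v r = 11 * (D.v r / r) + 2 * D.x r * D.v r := by ring
        nlinarith
      have e2 : D.v r * D.W' r ≤ D.W r := by
        have : D.v r * D.W' r = D.v r / r * (r * D.W' r) := by field_simp
        nlinarith [mul_le_mul_of_nonneg_left W1 u0]
      have s0 := hn.s0
      have a0 := hn.a0
      have a1 := hn.a1
      have f1 : 0 ≤ D.mu r * (D.lam.re + 8 - D.a - (11 / r + 2 * D.x r) * D.v r) *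
          (‖D.η' r‖ ^ 2 + ‖D.ϑ' r‖ ^ 2) :=
        mul_nonneg (mul_nonneg m0 (by linarith)) (by positivity)
      have f2 : 0 ≤ (D.lam.re + 2 + D.a + D.v r / r) * (D.M * r ^ 9 * D.N r) *
          (‖D.η r‖ ^ 2 + ‖D.ϑ r‖ ^ 2) := by positivity
      have f3 : 0 ≤ D.mu r * ((D.lam.re + 2 + D.a) * D.W r - D.v r * D.W' r / 2) * ‖D.η r‖ ^ 2 :=
        mul_nonneg (mul_nonneg m0 (by nlinarith [mul_nonneg s0 W0, mul_nonneg a0 W0]))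
          (by positivity)
      simp only [den, dE]
      linarith
  simp only [En_zero, bE_zero, mul_zero, sub_zero] at key
  rw [bE] at key
  have hr' : R' ∈ Icc 0 R' := ⟨hR0, le_rfl⟩
  obtain ⟨v0, v1⟩ := hn.hv R' hr'
  have W0 := (hn.hW R' hr').1
  have m0 := EI_mu0 h hR0
  have N0 := (h.Npos R').le
  have m1 : 1 ≤ C₀ * D.mu R' := EI_lo hC₀ hn ⟨hn.hRR, le_rfl⟩ 11
  have E0 := En_nonneg h hn hR0 le_rfl
  have f1 : 0 ≤ D.v R' * (D.M * R' ^ 9 * D.N R' * (‖D.η R'‖ ^ 2 + ‖D.ϑ R'‖ ^ 2) +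
    D.mu R' * D.W R' * ‖D.η R'‖ ^ 2) / 2 := by positivity
  have f2 : ‖D.η' R'‖ ^ 2 + ‖D.ϑ' R'‖ ^ 2 ≤ D.eb R' := by
    rw [eb, add_assoc]
    exact le_add_of_nonneg_left (by positivity)
  have f0 : 0 ≤ ‖D.η' R'‖ ^ 2 + ‖D.ϑ' R'‖ ^ 2 := by positivity
  set X := (D.lam * (D.η R' * conj (D.η' R') + D.ϑ R' * conj (D.ϑ' R'))).re
  set A := ‖D.η' R'‖ ^ 2 + ‖D.ϑ' R'‖ ^ 2
  have f3 : D.v R' * A / 2 ≤ 2 * D.eb R' := by nlinarith [hn.hR4]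
  have f4 : D.mu R' * (-X - D.v R' * A / 2) ≤ 5 * D.En R' := by linarith
  have f5 : -X - D.v R' * A / 2 ≤ 5 * C₀ * D.En R' := by
    rcases le_total (-X - D.v R' * A / 2) 0 with h0 | h0
    · exact h0.trans (by positivity)
    · nlinarith [mul_le_mul_of_nonneg_left f4 hC₀.le]
  nlinarith [mul_nonneg hC₀.le (f0.trans f2)]

/-- (|u|²)' ≥ -|u|² - |u'|² backwards from R' (multiply by e^{r}), μ ≥ 3¹¹/C₀ on [R,R'] -/
theorem sup_bound (C₀ : ℝ) (hC₀ : 0 < C₀) : ∃ C : ℝ, 0 < C ∧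
    ∀ (D : HD) (nn R R' Φ : ℝ), D.Ok → D.Near C₀ nn R R' Φ → ∀ r ∈ Icc R R',
      ‖D.η r‖ ^ 2 + ‖D.ϑ r‖ ^ 2 ≤ C * (D.En R' + ‖D.η R'‖ ^ 2 + ‖D.ϑ R'‖ ^ 2) := by
  refine ⟨4 * C₀ + 2, by positivity, fun D nn R R' Φ h hn r hr => ?_⟩
  have hR := hn.hR
  have hR4 := hn.hR4
  have key := le_of_deriv_le (φ := fun s => -(4 * C₀) * D.En s) (φ' := fun s => -(4 * C₀) * D.den s)
    (ψ := fun s => (s - 2) * (‖D.η s‖ ^ 2 + ‖D.ϑ s‖ ^ 2)) hr.2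
    ((EI_cEn h).const_mul _).continuousOn
    (by have := EI_cη h; have := EI_cϑ h; fun_prop)
    (fun r _ => (h.hasDerivAt_En r).const_mul _)
    (fun s _ => ((hasDerivAt_id s).sub_const 2).mul ((h.dη s).norm_sq.add (h.dϑ s).norm_sq))
    fun s hs => by
      have h1 := EI_den hC₀ h hn (r := s) ⟨hr.1.trans hs.1.le, hs.2.le⟩
      have h2 := (abs_le.1 (EI_inner (D.η s) (D.η' s) (s - 2))).1
      have h3 := (abs_le.1 (EI_inner (D.ϑ s) (D.ϑ' s) (s - 2))).1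
      have h4 : (s - 2) ^ 2 ≤ 4 := by nlinarith [hr.1, hs.1, hs.2]
      have h5 : 0 ≤ ‖D.η' s‖ ^ 2 + ‖D.ϑ' s‖ ^ 2 := by positivity
      simp only [id, Pi.add_apply]
      nlinarith [mul_le_mul_of_nonneg_right h4 h5]
  have h0 : 0 ≤ r := by linarith [hr.1]
  have E0 := En_nonneg h hn h0 hr.2
  have E1 := En_mono h hn h0 hr.2 le_rfl
  have B0 : 0 ≤ ‖D.η r‖ ^ 2 + ‖D.ϑ r‖ ^ 2 := by positivity
  have B1 : 0 ≤ ‖D.η R'‖ ^ 2 + ‖D.ϑ R'‖ ^ 2 := by positivity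
  nlinarith [mul_nonneg hC₀.le E0, mul_nonneg hC₀.le B1, mul_nonneg (sub_nonneg.2 (hR.trans hr.1)) B0,
    mul_nonneg (sub_nonneg.2 hR4) B1]

/-- |η(r)|² ≤ 2|η(R)|² + 2(r-R)∫_R^r|η'|² (or: (|η|²)' ≤ |η|²/ℓ + ℓ|η'|², ℓ = r-R), `trace` -/
theorem inner_eta (C₀ : ℝ) (hC₀ : 0 < C₀) : ∃ C : ℝ, 0 < C ∧
    ∀ (D : HD) (nn R R' Φ : ℝ), D.Ok → D.Near C₀ nn R R' Φ → 1 ≤ nn → ∀ r ∈ Icc R R',
      ‖D.η r‖ ^ 2 ≤ C * (1 / Real.sqrt nn + (r - R)) * D.En R' := by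
  refine ⟨60 * C₀, by positivity, fun D nn R R' Φ h hn h1 r hr => ?_⟩
  have hR := hn.hR
  have h0 : 0 ≤ R := by linarith
  have E0 := En_nonneg h hn h0 hn.hRR
  have E1 := En_mono h hn h0 hr.1 hr.2
  have E2 := En_mono h hn (h0.trans hr.1) hr.2 le_rfl
  have σ0 : 0 ≤ 1 / Real.sqrt nn := by positivity
  have t1 : ‖D.η R‖ ^ 2 ≤ 30 * C₀ * (1 / Real.sqrt nn) * D.En R' := by
    have h2 := (trace h hn h1).2
    have h3 : 1 ≤ C₀ * (R * D.mu R) := by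
      have := EI_lo hC₀ hn ⟨le_rfl, hn.hRR⟩ 12
      rwa [pow_succ', mul_assoc] at this
    have h4 : 30 * D.En R / Real.sqrt nn ≤ 30 * (1 / Real.sqrt nn) * D.En R' := by
      rw [div_eq_mul_one_div]
      nlinarith [mul_le_mul_of_nonneg_left (E1.trans E2) σ0]
    nlinarith [mul_le_mul_of_nonneg_left (h2.trans h4) hC₀.le, sq_nonneg ‖D.η R‖]
  have t0 : 0 ≤ C₀ * (1 / Real.sqrt nn) * D.En R' := by
    have := (E0.trans E1).trans E2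
    positivity
  rcases hr.1.eq_or_lt with rfl | hlt
  · nlinarith
  have key := le_of_deriv_le (ψ := fun s => 4 * (r - R) ^ 2 * C₀ * D.En s)
    (ψ' := fun s => 4 * (r - R) ^ 2 * C₀ * D.den s)
    (φ := fun s => (2 * r - R - s) * ‖D.η s‖ ^ 2) hr.1
    (by have := EI_cη h; fun_prop) ((EI_cEn h).const_mul _).continuousOn
    (fun s _ => ((hasDerivAt_id s).const_sub (2 * r - R)).mul (h.dη s).norm_sq)
    (fun r _ => (h.hasDerivAt_En r).const_mul _)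
    fun s hs => by
      have h1 := EI_den hC₀ h hn (r := s) ⟨hs.1.le, hs.2.le.trans hr.2⟩
      have h2 := (abs_le.1 (EI_inner (D.η s) (D.η' s) (2 * r - R - s))).2
      have h4 : (2 * r - R - s) ^ 2 ≤ 4 * (r - R) ^ 2 := by nlinarith [hs.1, hs.2]
      have h5 : ‖D.η' s‖ ^ 2 ≤ C₀ * D.den s := by nlinarith [sq_nonneg ‖D.ϑ' s‖]
      simp only [id]
      nlinarith [mul_le_mul h4 h5 (by positivity) (by positivity)]
  have hl : 0 < r - R := sub_pos.2 hlt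
  have t2 : ‖D.η r‖ ^ 2 ≤ 2 * ‖D.η R‖ ^ 2 + 4 * (r - R) * C₀ * D.En R' := by
    refine le_of_mul_le_mul_left ?_ hl
    have : 0 ≤ 4 * (r - R) ^ 2 * C₀ := by positivity
    nlinarith [mul_le_mul_of_nonneg_left E2 this, mul_nonneg this E0]
  have t3 : 0 ≤ (r - R) * C₀ * D.En R' := by
    have := (E0.trans E1).trans E2
    positivity
  nlinarith

section aux2
variable {D : HD} {C₀ nn R R' Φ : ℝ}

private theorem EI_q1 (h : D.Ok) (hn : D.Near C₀ nn R R' Φ) (m : ℕ) {Λ δ s : ℝ}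
    (hΛ : ‖D.lam‖ ≤ Λ) (hδ : 0 ≤ δ) (hs' : s ∈ Icc 0 R') (x1 : |D.x s| ≤ δ) (F1 : ‖D.F₁ s‖ ≤ δ) :
    ‖D.dJ m s‖ ≤ 4 ^ m * (7 + |Λ| + 2 * m) *
      (D.mu s * δ + D.mu s * ‖D.η s‖ + δ * (D.mu s * ‖D.ϑ s‖)) := by
  have s0 := hs'.1
  have s4 : s ≤ 4 := hs'.2.trans hn.hR4
  have m0 := EI_mu0 h hs'.1
  have N0 := (h.Npos s).le
  have p1 : s ^ (m + 10) * D.N s * s ≤ 4 ^ m * D.mu s := by
    rw [mu, show s ^ (m + 10) * D.N s * s = s ^ m * (s ^ 11 * D.N s) by ring]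
    gcongr
  have p2 : s ^ (m + 10) * D.N s * m ≤ 4 ^ m * D.mu s * m := by
    rcases m with _ | m
    · simp
    · rw [mu, show s ^ (m + 1 + 10) * D.N s = s ^ m * (s ^ 11 * D.N s) by ring]
      exact mul_le_mul_of_nonneg_right (mul_le_mul_of_nonneg_right
        ((pow_le_pow_left₀ s0 s4 m).trans (pow_le_pow_right₀ (by norm_num) m.le_succ)) m0)
        (Nat.cast_nonneg _)
  refine (EI_dJ h hn m hΛ hs').trans ?_
  calc _ = s ^ (m + 10) * D.N s * s * (‖D.F₁ s‖ + (6 + |Λ| + m) * ‖D.η s‖) +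
        s ^ (m + 10) * D.N s * m * (2 * |D.x s| * ‖D.ϑ s‖) := by ring
    _ ≤ 4 ^ m * D.mu s * (δ + (6 + |Λ| + m) * ‖D.η s‖) +
        4 ^ m * D.mu s * m * (2 * δ * ‖D.ϑ s‖) := by gcongr
    _ = 4 ^ m * (1 * (D.mu s * δ) + (6 + |Λ| + m) * (D.mu s * ‖D.η s‖) +
        (2 * m) * (δ * (D.mu s * ‖D.ϑ s‖))) := by ring
    _ ≤ 4 ^ m * ((7 + |Λ| + 2 * m) * (D.mu s * δ) + (7 + |Λ| + 2 * m) * (D.mu s * ‖D.η s‖) +
        (7 + |Λ| + 2 * m) * (δ * (D.mu s * ‖D.ϑ s‖))) := by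
      have := abs_nonneg Λ
      have : (0 : ℝ) ≤ m := Nat.cast_nonneg m
      gcongr <;> linarith
    _ = _ := by ring

private theorem EI_young {μ μm a t : ℝ} (m0 : 0 ≤ μ) (m1 : μ ≤ μm) (ha : 0 ≤ a) (ht : 0 < t) :
    μ * a ≤ t * μm + t⁻¹ * (μ * a ^ 2) := by
  have e1 : a ≤ t + t⁻¹ * a ^ 2 := by
    refine le_of_mul_le_mul_left ?_ ht
    rw [mul_add, mul_inv_cancel_left₀ ht.ne']
    nlinarith [sq_nonneg (t - a), mul_nonneg ht.le ha]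
  nlinarith [mul_le_mul_of_nonneg_left e1 m0, mul_le_mul_of_nonneg_left m1 ht.le]

private theorem EI_J1 (hC₀ : 0 < C₀) (h : D.Ok) (hn : D.Near C₀ nn R R' Φ) (m : ℕ) (hM : D.M = MM m)
    {Λ δ σ k c₁ : ℝ} (hΛ : ‖D.lam‖ ≤ Λ) (hδ : 0 ≤ δ)
    (hδ' : ∀ r ∈ Icc 0 R, |D.x r| ≤ δ ∧ ‖D.F₁ r‖ ≤ δ) (σ0 : 0 < σ) (hk1 : 1 ≤ k) (c10 : 0 ≤ c₁)
    (L1 : D.Lη R ≤ σ ^ 2 * k ^ 2) (L2 : D.Lϑ R ≤ c₁ * k ^ 2) :
    ‖D.bJ m R‖ ≤ 4 ^ m * (7 + |Λ| + 2 * m) * (8 * (4 ^ 11 * C₀) + 1 + c₁) * (δ + σ) * k := by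
  obtain ⟨μm, hμm⟩ : ∃ x : ℝ, x = 4 ^ 11 * C₀ := ⟨_, rfl⟩
  obtain ⟨c, hc⟩ : ∃ x : ℝ, x = 4 ^ m * (7 + |Λ| + 2 * m) := ⟨_, rfl⟩
  have μm0 : 0 < μm := by rw [hμm]; positivity
  have c0 : 0 < c := by rw [hc]; positivity
  rw [← hμm, ← hc]
  have hRR := hn.hRR
  have h0 : 0 ≤ R := by linarith [hn.hR]
  have k0 : 0 < k := by linarith
  have cL1 : Continuous D.Lη := continuous_iff_continuousAt.2 fun s =>
    (h.hasDerivAt_Lη s).continuousAt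
  have cL2 : Continuous D.Lϑ := continuous_iff_continuousAt.2 fun s =>
    (h.hasDerivAt_Lϑ s).continuousAt
  have J1 := EI_norm_le (f := D.bJ m) (f' := D.dJ m)
    (ψ := fun s => c * ((2 * δ + σ) * k * μm * s + (σ * k)⁻¹ * D.Lη s + δ * k⁻¹ * D.Lϑ s))
    (ψ' := fun s => c * ((2 * δ + σ) * k * μm * 1 + (σ * k)⁻¹ * (D.mu s * ‖D.η s‖ ^ 2) +
      δ * k⁻¹ * (D.mu s * ‖D.ϑ s‖ ^ 2))) h0 (h.cont_bJ m).continuousOn (by fun_prop)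
    (fun s hs => h.hasDerivAt_bJ m hM hs.1)
    (fun s _ => ((((hasDerivAt_id s).const_mul _).add ((h.hasDerivAt_Lη s).const_mul _)).add
      ((h.hasDerivAt_Lϑ s).const_mul _)).const_mul c)
    fun s hs => by
      have hs' : s ∈ Icc 0 R' := ⟨hs.1.le, hs.2.le.trans hRR⟩
      obtain ⟨x1, F1⟩ := hδ' s ⟨hs.1.le, hs.2.le⟩
      have m0 := EI_mu0 h hs'.1
      have m1 : D.mu s ≤ μm := hμm ▸ EI_hi hn h hs' 11
      have q1 := EI_q1 h hn m hΛ hδ hs' x1 F1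
      rw [← hc] at q1
      have y1 := EI_young m0 m1 (norm_nonneg (D.η s)) (mul_pos σ0 k0)
      have y2 := mul_le_mul_of_nonneg_left (EI_young m0 m1 (norm_nonneg (D.ϑ s)) k0) hδ
      have y3 : D.mu s * δ ≤ k * μm * δ :=
        mul_le_mul_of_nonneg_right (m1.trans (le_mul_of_one_le_left μm0.le hk1)) hδ
      refine q1.trans (mul_le_mul_of_nonneg_left ?_ c0.le)
      linarith
  have z1 : D.Lη 0 = 0 := intervalIntegral.integral_same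
  have z2 : D.Lϑ 0 = 0 := intervalIntegral.integral_same
  simp only [bJ_zero, sub_zero, z1, z2, mul_zero, add_zero] at J1
  have e1 : (σ * k)⁻¹ * D.Lη R ≤ σ * k := by
    rw [inv_mul_le_iff₀ (by positivity)]
    linarith
  have e2 : k⁻¹ * D.Lϑ R ≤ c₁ * k := by
    rw [inv_mul_le_iff₀ k0]
    linarith
  have e3 : (2 * δ + σ) * k * μm * R ≤ (2 * δ + σ) * k * μm * 4 :=
    mul_le_mul_of_nonneg_left (hRR.trans hn.hR4) (by positivity)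
  refine J1.trans ?_
  rw [mul_assoc c, mul_assoc c]
  refine mul_le_mul_of_nonneg_left ?_ c0.le
  have e4 := mul_le_mul_of_nonneg_left e2 hδ
  have e5 : 0 ≤ σ * k * μm := by positivity
  have e6 : 0 ≤ δ * k := by positivity
  have e7 : 0 ≤ σ * k * c₁ := by positivity
  linarith

private theorem EI_J2 (hC₀ : 0 < C₀) (h : D.Ok) (hn : D.Near C₀ nn R R' Φ) (m : ℕ) (hM : D.M = MM m)
    {Λ k c₃ r : ℝ} (hΛ : ‖D.lam‖ ≤ Λ) (hΦk : Φ ≤ k) (hr : r ∈ Icc R R')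
    (hs' : ∀ s ∈ Icc R R', ‖D.η s‖ ≤ c₃ * k ∧ ‖D.ϑ s‖ ≤ c₃ * k) :
    ‖D.bJ m r - D.bJ m R‖ ≤
      4 ^ (m + 10) * C₀ * (4 * (1 + (6 + |Λ|) * c₃) + m * (5 * c₃)) * k * (r - R) := by
  obtain ⟨c₄, hc₄⟩ : ∃ x : ℝ, x = 4 ^ (m + 10) * C₀ * (4 * (1 + (6 + |Λ|) * c₃) + m * (5 * c₃)) :=
    ⟨_, rfl⟩
  rw [← hc₄, mul_sub]
  have h0 : 0 < R := by linarith [hn.hR]
  refine EI_norm_le (f := D.bJ m) (f' := D.dJ m) (ψ := fun s => c₄ * k * s)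
    (ψ' := fun s => c₄ * k * 1) hr.1 (h.cont_bJ m).continuousOn (by fun_prop)
    (fun s hs => h.hasDerivAt_bJ m hM (h0.trans hs.1))
    (fun s _ => (hasDerivAt_id s).const_mul _) fun s hs0 => ?_
  have hs1 : s ∈ Icc R R' := ⟨hs0.1.le, hs0.2.le.trans hr.2⟩
  have hs2 : s ∈ Icc 0 R' := ⟨h0.le.trans hs1.1, hs1.2⟩
  have s0 := hs2.1
  have s4 : s ≤ 4 := hs2.2.trans hn.hR4
  obtain ⟨b1, b2⟩ := hs' s hs1
  have b3 : ‖D.F₁ s‖ ≤ k := (hn.hF s hs2).1.trans hΦk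
  have b4 : 2 * |D.x s| ≤ 1 := by linarith [hn.hx s hs2]
  have b5 := EI_hi hn h hs2 (m + 10)
  refine (EI_dJ h hn m hΛ hs2).trans ?_
  calc _ ≤ 4 ^ (m + 10) * C₀ * (4 * (k + (6 + |Λ|) * (c₃ * k)) +
        m * (4 * (c₃ * k) + 1 * (c₃ * k))) := by gcongr
    _ = _ := by rw [hc₄]; ring

private theorem EI_T3 (hC₀ : 0 < C₀) (h : D.Ok) (hn : D.Near C₀ nn R R' Φ) (m : ℕ) {r : ℝ}
    (hr : r ∈ Icc R R') :
    ‖D.ϑ' r - (m : ℂ) / r * D.ϑ r‖ ≤ C₀ * ‖D.bJ m r‖ + 4 * ‖D.η r‖ := by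
  have r0 : 0 < r := by linarith [hr.1, hn.hR]
  have hr2 : r ∈ Icc 0 R' := ⟨r0.le, hr.2⟩
  have N0 := h.Npos r
  have T1 : ‖D.ϑ' r - (m : ℂ) / r * D.ϑ r + D.v r * D.η r‖ ≤ C₀ * ‖D.bJ m r‖ := by
    have e1 : D.bJ m r = ((r ^ (m + 11) * D.N r : ℝ) : ℂ) *
        (D.ϑ' r - (m : ℂ) / r * D.ϑ r + D.v r * D.η r) := by
      have : (r : ℂ) ≠ 0 := by exact_mod_cast r0.ne'
      rw [bJ]
      push_cast
      field_simp
      ring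
    rw [e1, norm_mul, Complex.norm_real, Real.norm_of_nonneg (by positivity), ← mul_assoc]
    exact le_mul_of_one_le_left (norm_nonneg _) (EI_lo hC₀ hn hr _)
  have T2 : ‖(D.v r : ℂ) * D.η r‖ ≤ 4 * ‖D.η r‖ := by
    rw [norm_mul, Complex.norm_real, Real.norm_of_nonneg (hn.hv r hr2).1]
    gcongr
    linarith [(hn.hv r hr2).2, hr.2, hn.hR4]
  have e1 := norm_sub_le (D.ϑ' r - (m : ℂ) / r * D.ϑ r + D.v r * D.η r) (D.v r * D.η r)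
  rw [add_sub_cancel_right] at e1
  linarith

private theorem EI_fin {X e c Ce δ σ l k : ℝ} (hX : 0 ≤ X) (σ0 : 0 ≤ σ) (σ1 : σ ≤ 1) (l0 : 0 ≤ l)
    (l1 : l ≤ 1) (T3 : X ≤ c * (δ + σ + l) * k + 4 * e)
    (T4 : e ^ 2 ≤ Ce * (δ ^ 2 + σ + l) * k ^ 2) :
    X ^ 2 ≤ (6 * c ^ 2 + 32 * Ce) * (δ ^ 2 + σ + l) * k ^ 2 := by
  have T5 : (δ + σ + l) ^ 2 ≤ 3 * (δ ^ 2 + σ + l) := by
    nlinarith [sq_nonneg (δ - σ), sq_nonneg (δ - l), sq_nonneg (σ - l),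
      mul_le_mul_of_nonneg_left σ1 σ0, mul_le_mul_of_nonneg_left l1 l0]
  have T6 := mul_le_mul_of_nonneg_left T5 (show 0 ≤ c ^ 2 * k ^ 2 by positivity)
  refine (pow_le_pow_left₀ hX T3 2).trans ?_
  nlinarith [sq_nonneg (c * (δ + σ + l) * k - 4 * e)]

end aux2

/-- bJ(r) = ∫_0^r dJ.  On [0,R]: ‖dJ‖ ≤ C_m μ(δ + |η| + δ|ϑ|) (v ≤ r; the ϑ-term has the factor m, and r^{m+10} ≤ 4^m r¹¹ for m ≥ 1); μ|u| ≤ (tμ|u|² + μ/t)/2 with a suitable t; `trace`, `poincare`;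
on [R,r]: ‖dJ‖ ≤ C(Φ + |η| + |ϑ|) ≤ C√K by `sup_bound`.  Finally r ϑ' - mϑ = bJ/(r^{m+10}N) - r v η and `inner_eta`. -/
theorem inner_the (C₀ Λ : ℝ) (hC₀ : 0 < C₀) (m : ℕ) : ∃ C : ℝ, 0 < C ∧
    ∀ (D : HD) (nn R R' Φ δ K : ℝ), D.Ok → D.Near C₀ nn R R' Φ → 1 ≤ nn → D.M = MM m → ‖D.lam‖ ≤ Λ →
      0 ≤ δ → (∀ r ∈ Icc 0 R, |D.x r| ≤ δ ∧ ‖D.F₁ r‖ ≤ δ) → 1 ≤ K → D.En R' ≤ K →
      ‖D.η R'‖ ^ 2 ≤ K → ‖D.ϑ R'‖ ^ 2 ≤ K → Φ ^ 2 ≤ K → ∀ r ∈ Icc R R',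
      ‖D.ϑ' r - (m : ℂ) / r * D.ϑ r‖ ^ 2 ≤ C * (δ ^ 2 + 1 / Real.sqrt nn + (r - R)) * K := by
  obtain ⟨Cs, hCs, Hs⟩ := sup_bound C₀ hC₀
  obtain ⟨Ce, hCe, He⟩ := inner_eta C₀ hC₀
  obtain ⟨c₁, hc₁⟩ : ∃ x : ℝ, x = 12 * (4 ^ 11 * C₀) * Cs + 16 := ⟨_, rfl⟩
  obtain ⟨c₂, hc₂⟩ : ∃ x : ℝ, x = 4 ^ m * (7 + |Λ| + 2 * m) * (8 * (4 ^ 11 * C₀) + 1 + c₁) :=
    ⟨_, rfl⟩
  obtain ⟨c₃, hc₃⟩ : ∃ x : ℝ, x = 3 * Cs + 1 := ⟨_, rfl⟩
  obtain ⟨c₄, hc₄⟩ : ∃ x : ℝ, x = 4 ^ (m + 10) * C₀ * (4 * (1 + (6 + |Λ|) * c₃) + m * (5 * c₃)) :=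
    ⟨_, rfl⟩
  have c10 : 0 < c₁ := by rw [hc₁]; positivity
  have c20 : 0 < c₂ := by rw [hc₂]; positivity
  have c30 : 0 < c₃ := by rw [hc₃]; positivity
  have c40 : 0 < c₄ := by rw [hc₄]; positivity
  refine ⟨6 * (C₀ * (c₂ + c₄)) ^ 2 + 32 * Ce, by positivity,
    fun D nn R R' Φ δ K h hn h1 hM hΛ hδ hδ' hK hE hη hϑ hΦ r hr => ?_⟩
  have hR := hn.hR
  have hR4 := hn.hR4
  have hRR := hn.hRR
  have h0 : 0 ≤ R := by linarith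
  obtain ⟨k, hk1, rfl⟩ : ∃ k : ℝ, 1 ≤ k ∧ K = k ^ 2 :=
    ⟨√K, Real.one_le_sqrt.2 hK, (Real.sq_sqrt (by linarith)).symm⟩
  have k0 : 0 < k := by linarith
  have sq1 : 1 ≤ √nn := Real.one_le_sqrt.2 h1
  have T4 := He D nn R R' Φ h hn h1 r hr
  obtain ⟨σ, hσ⟩ : ∃ x : ℝ, x = 1 / √nn := ⟨_, rfl⟩
  have σ0 : 0 < σ := by rw [hσ]; positivity
  have σ1 : σ ≤ 1 := by rw [hσ]; exact div_le_one_of_le₀ sq1 (by positivity)
  have σ2 : σ ^ 2 = 1 / nn := by rw [hσ, div_pow, Real.sq_sqrt (by linarith), one_pow]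
  rw [← hσ] at T4 ⊢
  have hs : ∀ s ∈ Icc R R', ‖D.η s‖ ^ 2 + ‖D.ϑ s‖ ^ 2 ≤ Cs * (3 * k ^ 2) := fun s hs =>
    (Hs D nn R R' Φ h hn s hs).trans (mul_le_mul_of_nonneg_left (by linarith) hCs.le)
  clear Hs He
  have h3 : Cs * (3 * k ^ 2) ≤ (c₃ * k) ^ 2 := by
    rw [mul_pow, hc₃, ← mul_assoc]
    exact mul_le_mul_of_nonneg_right (by nlinarith only [hCs]) (by positivity)
  have hs' : ∀ s ∈ Icc R R', ‖D.η s‖ ≤ c₃ * k ∧ ‖D.ϑ s‖ ≤ c₃ * k := fun s hs0 => by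
    have h2 := hs s hs0
    exact ⟨abs_le_of_sq_le_sq' (by linarith [sq_nonneg ‖D.ϑ s‖]) (by positivity) |>.2,
      abs_le_of_sq_le_sq' (by linarith [sq_nonneg ‖D.η s‖]) (by positivity) |>.2⟩
  have hΦk : Φ ≤ k := (abs_le_of_sq_le_sq' hΦ k0.le).2
  have ER : D.En R ≤ k ^ 2 := (En_mono h hn h0 hRR le_rfl).trans hE
  have L1 : D.Lη R ≤ σ ^ 2 * k ^ 2 := by
    refine (trace h hn h1).1.trans ?_
    rw [σ2, one_div_mul_eq_div]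
    exact div_le_div_of_nonneg_right ER (by linarith)
  have L2 : D.Lϑ R ≤ c₁ * k ^ 2 := by
    have h2 := poincare h hn h0 hRR
    have h4 : ‖D.ϑ R‖ ^ 2 ≤ Cs * (3 * k ^ 2) := by
      linarith [hs R ⟨le_rfl, hRR⟩, sq_nonneg ‖D.η R‖]
    have h5 : R * D.mu R * ‖D.ϑ R‖ ^ 2 ≤ 4 * (4 ^ 11 * C₀) * (Cs * (3 * k ^ 2)) :=
      mul_le_mul (mul_le_mul (hRR.trans hR4) (EI_hi hn h ⟨h0, hRR⟩ 11) (EI_mu0 h h0) (by norm_num))
        h4 (by positivity) (by positivity)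
    have h6 : 0 ≤ c₁ * k ^ 2 := by positivity
    rw [hc₁] at h6 ⊢
    linarith only [h2, h5, h6, ER]
  have J1 := EI_J1 hC₀ h hn m hM hΛ hδ hδ' σ0 hk1 c10.le L1 L2
  have J2 := EI_J2 hC₀ h hn m hM hΛ hΦk hr hs'
  rw [← hc₂] at J1
  rw [← hc₄] at J2
  have l0 : 0 ≤ r - R := sub_nonneg.2 hr.1
  have l1 : r - R ≤ 1 := by linarith [hr.2]
  have J3 : ‖D.bJ m r‖ ≤ (c₂ + c₄) * (δ + σ + (r - R)) * k := by
    have e1 := norm_add_le (D.bJ m R) (D.bJ m r - D.bJ m R)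
    rw [add_sub_cancel] at e1
    have e2 : 0 ≤ c₂ * (r - R) * k := by positivity
    have e3 : 0 ≤ c₄ * (δ + σ) * k := by positivity
    linarith only [e1, e2, e3, J1, J2]
  refine EI_fin (e := ‖D.η r‖) (norm_nonneg _) σ0.le σ1 l0 l1 ((EI_T3 hC₀ h hn m hr).trans ?_)
    (T4.trans ?_)
  · linarith only [mul_le_mul_of_nonneg_left J3 hC₀.le]
  · exact mul_le_mul (mul_le_mul_of_nonneg_left (by linarith only [sq_nonneg δ]) hCe.le) hE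
      (En_nonneg h hn (h0.trans hRR) le_rfl) (by positivity)

/-- **No eigenvalue with Re λ > 3.3.**  Ψ = bE + (ε/4)·(μ/r)|η|² (μ/r = r¹⁰N, ε = 1/10) has
((μ/r)|η|²)' = (10+2rx)r⁹N|η|² + 2(μ/r)Re(η'η̄) ≥ 4r⁹N|η|² - μ|η'|²/4, hence Ψ' ≥ (1/100 - ε/16)μ(|η'|²+|ϑ'|²) ≥ 0 on (0,∞);
Ψ(0) = 0 and Ψ → 0 at ∞, so Ψ = 0, Ψ' = 0, η' = ϑ' = 0; η, ϑ are constant and tend to 0. -/
theorem big (D : HD) (h : D.Ok) (h1 : ∀ r, D.F₁ r = 0) (h2 : ∀ r, D.F₂ r = 0) (hM : 0 ≤ D.M)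
    (ha : 0 ≤ D.a) (ha' : D.a ≤ 1 / 100) (hs : 33 / 10 ≤ D.lam.re)
    (hflow : ∀ r, 0 < r → 0 ≤ D.v r ∧ |r * D.x r| ≤ 1 ∧ (11 / r + 2 * D.x r) * D.v r ≤ 6.28)
    (hW : ∀ r, 0 < r → 0 ≤ D.W r ∧ D.v r * D.W' r / 2 ≤ 3 / 10 * D.W r + 1 / 10 / r ^ 2)
    (hE : Tendsto D.bE atTop (𝓝 0))
    (hH : Tendsto (fun r => r ^ 10 * D.N r * ‖D.η r‖ ^ 2) atTop (𝓝 0))
    (hη : Tendsto D.η atTop (𝓝 0)) (hϑ : Tendsto D.ϑ atTop (𝓝 0)) :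
    ∀ r, 0 < r → D.η r = 0 ∧ D.ϑ r = 0 := by
  have dH : ∀ r, HasDerivAt (fun r => r ^ 10 * D.N r * ‖D.η r‖ ^ 2)
      ((10 * r ^ 9 * D.N r + r ^ 10 * (2 * D.x r * D.N r)) * ‖D.η r‖ ^ 2 +
        r ^ 10 * D.N r * (2 * inner ℝ (D.η r) (D.η' r))) r := fun r => by
    have := ((hasDerivAt_pow 10 r).mul (h.dN r)).mul (h.dη r).norm_sq
    exact this.congr_deriv (by norm_num)
  let Ψ : ℝ → ℝ := fun r => D.bE r + 1 / 40 * (r ^ 10 * D.N r * ‖D.η r‖ ^ 2)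
  let Ψ' : ℝ → ℝ := fun r => D.dE r + 1 / 40 *
    ((10 * r ^ 9 * D.N r + r ^ 10 * (2 * D.x r * D.N r)) * ‖D.η r‖ ^ 2 +
      r ^ 10 * D.N r * (2 * inner ℝ (D.η r) (D.η' r)))
  have dΨ : ∀ r, 0 < r → HasDerivAt Ψ (Ψ' r) r := fun r hr =>
    (h.hasDerivAt_bE h1 h2 hr).add ((dH r).const_mul _)
  have cΨ : Continuous Ψ := h.cont_bE.add
    ((continuous_iff_continuousAt.2 fun r => (dH r).continuousAt).const_mul _)
  have lo : ∀ r, 0 < r → 3 / 800 * (D.mu r * (‖D.η' r‖ ^ 2 + ‖D.ϑ' r‖ ^ 2)) ≤ Ψ' r := fun r hr => by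
    obtain ⟨v0, x1, v1⟩ := hflow r hr
    obtain ⟨W0, W1⟩ := hW r hr
    have m0 := EI_mu0 h hr.le
    have N0 := (h.Npos r).le
    have n0 : 0 ≤ r ^ 9 * D.N r := by positivity
    have f1 : 0 ≤ D.mu r * (D.lam.re + 3 - D.a - (11 / r + 2 * D.x r) * D.v r - 1 / 100) *
        (‖D.η' r‖ ^ 2 + ‖D.ϑ' r‖ ^ 2) := mul_nonneg (mul_nonneg m0 (by linarith)) (by positivity)
    have f2 : 0 ≤ (D.lam.re - 3 + D.a + D.v r / r) * (D.M * r ^ 9 * D.N r) *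
        (‖D.η r‖ ^ 2 + ‖D.ϑ r‖ ^ 2) := by
      have : 0 ≤ D.v r / r := by positivity
      exact mul_nonneg (mul_nonneg (by linarith) (by positivity)) (by positivity)
    have f3 : 0 ≤ D.mu r * ((D.lam.re - 3 + D.a) * D.W r - D.v r * D.W' r / 2 + 1 / 10 / r ^ 2) *
        ‖D.η r‖ ^ 2 := mul_nonneg (mul_nonneg m0 (by
          nlinarith [mul_nonneg (sub_nonneg.2 hs) W0, mul_nonneg ha W0])) (by positivity)
    have f4 : D.mu r * (1 / 10 / r ^ 2) = 1 / 10 * (r ^ 9 * D.N r) := by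
      rw [mu]; field_simp
    have f5 := mul_le_mul_of_nonneg_left (abs_le.1 (EI_inner (D.η r) (D.η' r) (r / 4))).1 n0
    have f6 : 0 ≤ r ^ 9 * D.N r * ‖D.η r‖ ^ 2 * (r * D.x r + 1) :=
      mul_nonneg (by positivity) (by linarith [(abs_le.1 x1).1])
    have f7 : 0 ≤ D.mu r * ‖D.ϑ' r‖ ^ 2 := by positivity
    have f8 : D.mu r * (1 / 10 / r ^ 2) * ‖D.η r‖ ^ 2 = 1 / 10 * (r ^ 9 * D.N r) * ‖D.η r‖ ^ 2 := by
      rw [f4]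
    simp only [Ψ', dE]
    simp only [mu] at *
    nlinarith
  have mono : ∀ s t, 0 ≤ s → s ≤ t → Ψ s ≤ Ψ t := fun s t hs hst => by
    have := le_of_deriv_le (φ := fun _ => 0) (φ' := fun _ => 0) hst continuousOn_const
      cΨ.continuousOn (fun r _ => hasDerivAt_const r 0) (fun r hr => dΨ r (hs.trans_lt hr.1))
      fun r hr => le_trans (by
        have := EI_mu0 h (hs.trans hr.1.le)
        positivity) (lo r (hs.trans_lt hr.1))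
    linarith
  have lim : Tendsto Ψ atTop (𝓝 0) := by simpa using hE.add (hH.const_mul (1 / 40))
  have zero : ∀ r, 0 ≤ r → Ψ r = 0 := fun r hr => le_antisymm
    (ge_of_tendsto lim ((eventually_ge_atTop r).mono fun t ht => mono r t hr ht))
    (by simpa [Ψ, bE_zero] using mono 0 r le_rfl hr)
  have d0 : ∀ r, 0 < r → D.η' r = 0 ∧ D.ϑ' r = 0 := fun r hr => by
    have e1 : Ψ' r = 0 := (dΨ r hr).unique ((hasDerivAt_const r (0 : ℝ)).congr_of_eventuallyEq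
      ((lt_mem_nhds hr).mono fun s hs => zero s hs.le))
    have e2 := lo r hr
    have m0 : 0 < D.mu r := mul_pos (pow_pos hr _) (h.Npos r)
    have e3 : ‖D.η' r‖ ^ 2 + ‖D.ϑ' r‖ ^ 2 ≤ 0 := by
      refine le_of_mul_le_mul_left ?_ m0
      linarith
    constructor
    · exact norm_eq_zero.1 (pow_eq_zero_iff two_ne_zero |>.1
        (le_antisymm (by nlinarith [sq_nonneg ‖D.ϑ' r‖]) (sq_nonneg _)))
    · exact norm_eq_zero.1 (pow_eq_zero_iff two_ne_zero |>.1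
        (le_antisymm (by nlinarith [sq_nonneg ‖D.η' r‖]) (sq_nonneg _)))
  have const : ∀ {u u' : ℝ → ℂ}, (∀ r, HasDerivAt u (u' r) r) → (∀ r, 0 < r → u' r = 0) →
      Tendsto u atTop (𝓝 0) → ∀ r, 0 < r → u r = 0 := fun {u u'} du h0 hu r hr => by
    refine tendsto_nhds_unique (tendsto_const_nhds.congr' ?_) hu
    filter_upwards [eventually_ge_atTop r] with t ht
    have := EI_norm_le (ψ := fun _ => 0) (ψ' := fun _ => 0) ht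
      (fun s _ => (du s).continuousAt.continuousWithinAt) continuousOn_const (fun s _ => du s)
      (fun s _ => hasDerivAt_const s 0) fun s hs => by rw [h0 s (hr.trans hs.1), norm_zero]
    rw [sub_self, norm_le_zero_iff, sub_eq_zero] at this
    exact this.symm
  exact fun r hr => ⟨const h.dη (fun r hr => (d0 r hr).1) hη r hr,
    const h.dϑ (fun r hr => (d0 r hr).2) hϑ r hr⟩

end

end Crest.Agent.R086.M.HD
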