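import Crest.Agent.R086.M.Hy
import Crest.Agent.R086.M.EI
import Crest.Agent.R086.M.Decay

/-! # Row 86, part M-a: no eigenvalue with Re λ ≥ 3.3 for large n (task) -/

open MeasureTheory Set Filter Topology
open scoped ContDiff ComplexConjugate

namespace Crest.Agent.R086.M

noncomputable section

theorem big_dec {f : ℝ → ℂ} (h : Dec (13 / 2) 1 f) : ∃ K : ℝ, ∀ r : ℝ, 1 ≤ r →
    r ^ 13 * ‖f r‖ ^ 2 ≤ K ∧ r ^ 13 * ‖deriv f r‖ ^ 2 ≤ K := by
  obtain ⟨C, hC⟩ := h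
  have key : ∀ i : ℕ, i ≤ 1 → ∀ r : ℝ, 1 ≤ r → r ^ 13 * ‖iteratedDeriv i f r‖ ^ 2 ≤ C ^ 2 := by
    intro i hi r hr
    have hr0 : 0 < r := by linarith
    have h1 : ‖iteratedDeriv i f r‖ ≤ |C| * r ^ (-(13 / 2) : ℝ) := (hC i hi r hr).trans
      (mul_le_mul (le_abs_self C) (Real.rpow_le_rpow_of_exponent_le hr (by simp)) (by positivity)
        (abs_nonneg C))
    have e : r ^ 13 * (r ^ (-(13 / 2) : ℝ)) ^ 2 = 1 := by
      rw [← Real.rpow_natCast, ← Real.rpow_natCast, ← Real.rpow_mul hr0.le, ← Real.rpow_add hr0]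
      norm_num
    have h2 := mul_le_mul_of_nonneg_left (pow_le_pow_left₀ (norm_nonneg _) h1 2)
      (pow_pos hr0 13).le
    rw [mul_pow, sq_abs, mul_left_comm, e, mul_one] at h2
    exact h2
  refine ⟨C ^ 2, fun r hr => ⟨?_, ?_⟩⟩
  · simpa using key 0 zero_le_one r hr
  · simpa using key 1 le_rfl r hr

theorem big_tends {E : Type*} [NormedAddCommGroup E] {u : ℝ → E} {K : ℝ}
    (h : ∀ r : ℝ, 1 ≤ r → r * ‖u r‖ ≤ K) : Tendsto u atTop (𝓝 0) := by
  refine squeeze_zero_norm' (a := fun r => K / r) ?_ (tendsto_const_nhds.div_atTop tendsto_id)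
  filter_upwards [eventually_ge_atTop 1] with r hr
  rw [le_div_iff₀' (by linarith)]
  exact h r hr

theorem big_lims (D : HD) {K c : ℝ} (hc : 0 < c) (hM : 0 ≤ D.M)
    (h : ∀ r : ℝ, 1 ≤ r → r ^ 13 * (D.N r * (‖D.η r‖ ^ 2 + ‖D.ϑ r‖ ^ 2)) ≤ K ∧
      r ^ 13 * (D.N r * (‖D.η' r‖ ^ 2 + ‖D.ϑ' r‖ ^ 2)) ≤ K ∧ c ^ 2 ≤ r ^ 2 * D.N r ∧
      0 ≤ D.v r ∧ D.v r ≤ r ∧ 0 ≤ D.W r ∧ D.W r ≤ K) :
    Tendsto D.bE atTop (𝓝 0) ∧ Tendsto (fun r => r ^ 10 * D.N r * ‖D.η r‖ ^ 2) atTop (𝓝 0) ∧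
      Tendsto D.η atTop (𝓝 0) ∧ Tendsto D.ϑ atTop (𝓝 0) := by
  have hN : ∀ r : ℝ, 1 ≤ r → 0 ≤ D.N r := fun r hr =>
    nonneg_of_mul_nonneg_right ((sq_nonneg c).trans (h r hr).2.2.1) (by positivity)
  have hK : 0 ≤ K := (h 1 le_rfl).2.2.2.2.2.1.trans (h 1 le_rfl).2.2.2.2.2.2
  have hp : ∀ (i : ℕ), i ≤ 13 → ∀ r : ℝ, 1 ≤ r → ∀ A : ℝ, 0 ≤ A → r ^ 13 * A ≤ K → r ^ i * A ≤ K :=
    fun i hi r hr A hA h1 => (mul_le_mul_of_nonneg_right (pow_le_pow_right₀ hr hi) hA).trans h1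
  have hu : ∀ u : ℝ → ℂ, (∀ r, ‖u r‖ ^ 2 ≤ ‖D.η r‖ ^ 2 + ‖D.ϑ r‖ ^ 2) → Tendsto u atTop (𝓝 0) := by
    intro u hu
    refine big_tends (K := Real.sqrt K / c) fun r hr => ?_
    rw [le_div_iff₀ hc]
    refine Real.le_sqrt_of_sq_le ?_
    have h1 := hp 4 (by norm_num) r hr _ (mul_nonneg (hN r hr) (by positivity)) (h r hr).1
    have h2 := mul_le_mul (h r hr).2.2.1 (hu r) (by positivity) (mul_nonneg (by positivity) (hN r hr))
    have h3 := mul_le_mul_of_nonneg_left h2 (sq_nonneg r)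
    calc (r * ‖u r‖ * c) ^ 2 = r ^ 2 * (c ^ 2 * ‖u r‖ ^ 2) := by ring
      _ ≤ _ := h3
      _ = r ^ 4 * (D.N r * (‖D.η r‖ ^ 2 + ‖D.ϑ r‖ ^ 2)) := by ring
      _ ≤ K := h1
  refine ⟨big_tends (K := ‖D.lam‖ * K + K + (D.M * K + K * K)) fun r hr => ?_,
    big_tends (K := K) fun r hr => ?_, hu _ fun r => le_add_of_nonneg_right (by positivity),
    hu _ fun r => le_add_of_nonneg_left (by positivity)⟩
  · obtain ⟨h1, h2, -, h4, h5, h6, h7⟩ := h r hr
    have hr0 : 0 < r := by linarith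
    have n0 := hN r hr
    have a0 : 0 ≤ D.N r * (‖D.η r‖ ^ 2 + ‖D.ϑ r‖ ^ 2) := by positivity
    have b0 : 0 ≤ D.N r * (‖D.η' r‖ ^ 2 + ‖D.ϑ' r‖ ^ 2) := by positivity
    have t1 : |(D.lam * (D.η r * conj (D.η' r) + D.ϑ r * conj (D.ϑ' r))).re| ≤
        ‖D.lam‖ * ((‖D.η r‖ ^ 2 + ‖D.ϑ r‖ ^ 2 + (‖D.η' r‖ ^ 2 + ‖D.ϑ' r‖ ^ 2)) / 2) := by
      refine (Complex.abs_re_le_norm _).trans ?_
      rw [norm_mul]
      refine mul_le_mul_of_nonneg_left ((norm_add_le _ _).trans ?_) (norm_nonneg _)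
      rw [norm_mul, norm_mul, Complex.norm_conj, Complex.norm_conj]
      nlinarith [sq_nonneg (‖D.η r‖ - ‖D.η' r‖), sq_nonneg (‖D.ϑ r‖ - ‖D.ϑ' r‖)]
    have s1 : r * |D.mu r * (D.lam * (D.η r * conj (D.η' r) + D.ϑ r * conj (D.ϑ' r))).re| ≤
        ‖D.lam‖ * K := by
      have k1 := hp 12 (by norm_num) r hr _ a0 h1
      have k2 := hp 12 (by norm_num) r hr _ b0 h2
      rw [abs_mul, HD.mu, abs_of_nonneg (by positivity)]
      refine (mul_le_mul_of_nonneg_left (mul_le_mul_of_nonneg_left t1 (by positivity)) hr0.le).trans ?_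
      have := mul_le_mul_of_nonneg_left (add_le_add k1 k2) (norm_nonneg D.lam)
      linarith
    have s2 : r * |D.mu r * D.v r * (‖D.η' r‖ ^ 2 + ‖D.ϑ' r‖ ^ 2) / 2| ≤ K := by
      rw [HD.mu, abs_of_nonneg (by positivity)]
      have := mul_le_mul_of_nonneg_left h5 (mul_nonneg (pow_pos hr0 12).le b0)
      linarith
    have s3 : r * |D.v r * (D.M * r ^ 9 * D.N r * (‖D.η r‖ ^ 2 + ‖D.ϑ r‖ ^ 2) +
        D.mu r * D.W r * ‖D.η r‖ ^ 2) / 2| ≤ D.M * K + K * K := by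
      rw [HD.mu, abs_of_nonneg (by positivity)]
      have k1 := mul_le_mul_of_nonneg_left (hp 11 (by norm_num) r hr _ a0 h1) hM
      have k2 : r ^ 13 * (D.N r * ‖D.η r‖ ^ 2) ≤ K := le_trans (by gcongr; exact le_add_of_nonneg_right (by positivity)) h1
      have k3 := mul_le_mul h7 k2 (by positivity) hK
      have k4 := mul_le_mul_of_nonneg_right h5 (by positivity : 0 ≤ r * (D.M * r ^ 9 * D.N r *
        (‖D.η r‖ ^ 2 + ‖D.ϑ r‖ ^ 2) + r ^ 11 * D.N r * D.W r * ‖D.η r‖ ^ 2))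
      have k5 := mul_nonneg hM hK
      have k6 := mul_nonneg hK hK
      linarith
    rw [Real.norm_eq_abs, HD.bE]
    refine (mul_le_mul_of_nonneg_left ((abs_sub _ _).trans (add_le_add (abs_add_le _ _) le_rfl))
      hr0.le).trans ?_
    linarith
  · have n0 := hN r hr
    have hr0 : 0 < r := by linarith
    have k1 := hp 11 (by norm_num) r hr _ (by positivity) (h r hr).1
    rw [Real.norm_of_nonneg (by positivity)]
    have : 0 ≤ r ^ 11 * (D.N r * ‖D.ϑ r‖ ^ 2) := by positivity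
    linarith

/-- |r x| ≤ 1 gives |Q(r)| ≥ |Q(1)|/r on r ≥ 1 ((r²|Q|²)' ≥ 0); with |Q'| ≤ C/r (`Qr_symb`) w = Q'/Q is bounded on r ≥ 1 -/
theorem lower_Q {n : ℕ} {b : ℝ} {q : ℝ → ℂ} (hP : Prof n b q) (hQ : ∀ r : ℝ, 0 ≤ r → Qr q r ≠ 0)
    (hx : ∀ r : ℝ, 0 < r → |r * xx q r| ≤ 1) :
    ∃ c C : ℝ, 0 < c ∧ ∀ r : ℝ, 1 ≤ r → c / r ≤ ‖Qr q r‖ ∧ ‖deriv (Qr q) r / Qr q r‖ ≤ C := by
  have hd : Differentiable ℝ (Qr q) := (contDiff_Qr hP).differentiable (by simp)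
  have key : ∀ r : ℝ, 0 < r → HasDerivAt (fun s => s ^ 2 * ‖Qr q s‖ ^ 2)
      (2 * r * ‖Qr q r‖ ^ 2 * (1 + r * xx q r)) r := fun r hr => by
    refine ((hasDerivAt_pow 2 r).fun_mul (hd r).hasDerivAt.norm_sq).congr_deriv ?_
    have e : inner ℝ (Qr q r) (deriv (Qr q) r) = xx q r * ‖Qr q r‖ ^ 2 := by
      rw [Complex.inner, xx, ← Complex.re_mul_ofReal, Complex.ofReal_pow, ← Complex.mul_conj',
        ← mul_assoc, div_mul_cancel₀ _ (hQ r hr.le)]
    rw [e]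
    push_cast
    ring
  obtain ⟨C, hC⟩ := Qr_symb hP 1
  have hc : 0 < ‖Qr q 1‖ := norm_pos_iff.2 (hQ 1 zero_le_one)
  have ha : 0 ≤ aa n := by unfold aa; positivity
  refine ⟨‖Qr q 1‖, |C| / ‖Qr q 1‖, hc, fun r hr => ?_⟩
  have hr0 : 0 < r := by linarith
  have h1 : ‖Qr q 1‖ / r ≤ ‖Qr q r‖ := by
    have h2 := HD.le_of_deriv_le (φ := fun _ => 0) (φ' := fun _ => 0) hr continuousOn_const
      (fun s hs => (key s (by linarith [hs.1])).continuousAt.continuousWithinAt)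
      (fun s _ => hasDerivAt_const s 0) (fun s hs => key s (by linarith [hs.1])) fun s hs => by
        have h3 : 0 < s := by linarith [hs.1]
        have h4 : 0 ≤ 1 + s * xx q s := by linarith [(abs_le.1 (hx s h3)).1]
        positivity
    rw [div_le_iff₀ hr0]
    refine le_of_sq_le_sq ?_ (by positivity)
    linarith
  refine ⟨h1, ?_⟩
  have h2 : ‖deriv (Qr q) r‖ ≤ |C| / r := by
    have h3 := (hC r hr0.le).trans (one_add_rpow_le hr (by push_cast; linarith))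
    rw [iteratedDeriv_one] at h3
    refine h3.trans ?_
    rw [div_eq_mul_inv, ← Real.rpow_neg_one]
    exact mul_le_mul_of_nonneg_left (Real.rpow_le_rpow_of_exponent_le hr (by push_cast; linarith))
      (abs_nonneg C)
  rw [norm_div]
  refine (div_le_div₀ (by positivity) h2 (by positivity) h1).trans (le_of_eq ?_)
  field_simp

/-- `HD.big` for `mkD`: hflow from `Fam.flow` (v = r(1/2+2y/r)); hW from `Fam.repul` on (0,R+r₂] (vW'/2 ≤ 0.3 r W' ≤ 0.12 W if W' ≥ 0, trivial otherwise) and from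
`Fam.tiny` (i = 1, η = r₂, ε = 1/10; W = (2n/(n+1)) V1, `V1_eq_norm`, |W'| ≤ 2ε r⁻³, v ≤ 0.6 r) beyond; the limits from `decay_big`, `lower_Q`, `norm_eta_the`,
`norm_deriv_eta_the`: N(|η|²+|ϑ|²) ≲ r⁻¹³, N(|η'|²+|ϑ'|²) ≲ r⁻¹³, 0 ≤ v ≤ r, W bounded (`Fam.tiny`, i = 0). -/
theorem big {b R : ℕ → ℝ} {q : ℕ → ℝ → ℂ} (hF : Fam b R q) : ∀ᶠ n in atTop,
    ∀ (m : ℕ) (lam : ℂ) (f g : ℝ → ℂ), 33 / 10 ≤ lam.re → RadAdm f → RadAdm g →
      Eqn n (b n) (q n) m lam 0 0 0 f g → ∀ r : ℝ, 0 < r → f r = 0 ∧ g r = 0 := by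
  obtain ⟨r₂, hr₂, hrep⟩ := hF.repul
  filter_upwards [hF.prof, hF.ne, hF.flow, hrep, hF.tiny r₂ hr₂ (1 / 10) (by norm_num),
    eventually_ge_atTop 50] with n hP hQ hfl hrep hti hn m lam f g hs hf hg hE
  have hn' : (50 : ℝ) ≤ n := by exact_mod_cast hn
  have hok := mk_ok hP hQ hf hg hE
  have hv : ∀ r : ℝ, 0 < r → r / 2 + 2 * yy (q n) r = r * (1 / 2 + 2 * yy (q n) r / r) :=
    fun r hr => by field_simp
  have hM : 0 ≤ MM m := by unfold MM; positivity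
  obtain ⟨c, C, hc, hlow⟩ := lower_Q hP hQ fun r hr => (hfl r hr).2.2.1
  obtain ⟨df, dg⟩ := decay_big hP hf hg hE hs
  obtain ⟨Kf, hKf⟩ := big_dec df
  obtain ⟨Kg, hKg⟩ := big_dec dg
  obtain ⟨B, hB⟩ := Qr_symb hP 0
  have ha : 0 ≤ aa n := by unfold aa; positivity
  have hKf0 : 0 ≤ Kf := le_trans (by positivity) (hKf 1 le_rfl).1
  have hKg0 : 0 ≤ Kg := le_trans (by positivity) (hKg 1 le_rfl).1
  obtain ⟨l1, l2, l3, l4⟩ := big_lims (mkD n (b n) (q n) m lam 0 0 0 f g)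
    (K := (1 + C ^ 2) * (Kf + Kg) + 2 * n * |B| ^ (2 * n)) hc hM fun r hr => by
      have hr0 : 0 < r := by linarith
      have hq := hQ r hr0.le
      have hq' : 0 < ‖Qr (q n) r‖ := norm_pos_iff.2 hq
      have k1 := hKf r hr
      have k2 := hKg r hr
      have k3 : 0 ≤ 2 * n * |B| ^ (2 * n) := by positivity
      have k4 : 0 ≤ C ^ 2 * (Kf + Kg) := by positivity
      simp only [mkD]
      refine ⟨?_, ?_, ?_, ?_, ?_, by positivity, ?_⟩
      · rw [norm_eta_the hq]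
        have e : r ^ 13 * (‖Qr (q n) r‖ ^ 2 * ((‖f r‖ ^ 2 + ‖g r‖ ^ 2) / (2 * ‖Qr (q n) r‖ ^ 2))) =
            (r ^ 13 * ‖f r‖ ^ 2 + r ^ 13 * ‖g r‖ ^ 2) / 2 := by field_simp
        rw [e]
        linarith [k1.1, k2.1]
      · have h1 := norm_deriv_eta_the hq ((contDiff_Qr hP).differentiable (by simp) r)
          (hf.smooth.differentiable (by simp) r) (hg.smooth.differentiable (by simp) r)
        rw [le_div_iff₀' (by positivity)] at h1
        refine (mul_le_mul_of_nonneg_left h1 (by positivity)).trans ?_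
        have h2 := mul_le_mul (pow_le_pow_left₀ (norm_nonneg _) (hlow r hr).2 2)
          (add_le_add k1.1 k2.1) (by positivity) (sq_nonneg C)
        linarith [k1.2, k2.2]
      · have h1 := (hlow r hr).1
        rw [div_le_iff₀' hr0] at h1
        rw [← mul_pow]
        exact pow_le_pow_left₀ hc.le h1 2
      · rw [hv r hr0]
        exact mul_nonneg hr0.le (by linarith [(hfl r hr0).1])
      · rw [hv r hr0]
        exact mul_le_of_le_one_right hr0.le (by linarith [(hfl r hr0).2.1])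
      · have h1 := (hB r hr0.le).trans (one_add_rpow_le hr (by push_cast; linarith))
        rw [iteratedDeriv_zero] at h1
        have h2 : ‖Qr (q n) r‖ ≤ |B| := h1.trans (mul_le_of_le_one_right (abs_nonneg B)
          (Real.rpow_le_one_of_one_le_of_nonpos hr (by push_cast; linarith)))
        have h3 := mul_le_mul_of_nonneg_left (pow_le_pow_left₀ (norm_nonneg _) h2 (2 * n))
          (by positivity : (0 : ℝ) ≤ 2 * n)
        linarith
  have key := HD.big _ hok (fun r => by simp [mkD]) (fun r => by simp [mkD]) hM ha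
    (by
      show aa n ≤ 1 / 100
      unfold aa
      exact one_div_le_one_div_of_le (by norm_num) (by linarith)) hs
    (fun r hr => by
      obtain ⟨h1, h2, h3, h4⟩ := hfl r hr
      simp only [mkD]
      rw [hv r hr]
      refine ⟨mul_nonneg hr.le (by linarith), h3, (le_of_eq ?_).trans h4⟩
      field_simp)
    (fun r hr => by
      obtain ⟨h1, h2, h3, h4⟩ := hfl r hr
      have hW := hok.dW r
      simp only [mkD] at hW ⊢
      rw [hv r hr]
      generalize 1 / 2 + 2 * yy (q n) r / r = u at h1 h2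
      have w0 : 0 ≤ 2 * n * ‖Qr (q n) r‖ ^ (2 * n) := by positivity
      refine ⟨w0, ?_⟩
      rcases le_total r (R n + r₂) with h5 | h5
      · have h6 := hrep r ⟨hr.le, h5⟩
        have h7 : u * (2 * n * r * xx (q n) r) ≤ 3 / 5 := by nlinarith
        have h8 := mul_le_mul_of_nonneg_right h7 w0
        have h9 : 0 ≤ 1 / 10 / r ^ 2 := by positivity
        linarith
      · have h6 := (hti 1 (by norm_num) r h5).1
        have e : (fun s => V1 n (Qr (q n) s)) =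
            fun s => ((((n : ℝ) + 1) / (2 * n) * (2 * n * ‖Qr (q n) s‖ ^ (2 * n)) : ℝ) : ℂ) := by
          funext s
          rw [V1_eq_norm]
          congr 1
          field_simp
        rw [iteratedDeriv_one, e, (hW.const_mul _).ofReal_comp.deriv, Complex.norm_real,
          Real.norm_eq_abs, abs_mul, abs_of_nonneg (by positivity)] at h6
        have e2 : r ^ (-(2 : ℝ) - ((1 : ℕ) : ℝ)) = 1 / r ^ 3 := by
          rw [one_div, ← Real.rpow_natCast, ← Real.rpow_neg hr.le]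
          norm_num
        rw [e2] at h6
        generalize 2 * n * xx (q n) r * (2 * n * ‖Qr (q n) r‖ ^ (2 * n)) = W' at h6 ⊢
        have h7 : 1 / 2 ≤ ((n : ℝ) + 1) / (2 * n) := by
          rw [div_le_div_iff₀ (by norm_num) (by positivity)]
          linarith
        have h8 := (mul_le_mul_of_nonneg_right h7 (abs_nonneg W')).trans h6
        have h9 : u * W' ≤ 3 / 5 * |W'| :=
          (mul_le_mul_of_nonneg_left (le_abs_self W') (by linarith)).trans
            (mul_le_mul_of_nonneg_right h2 (abs_nonneg _))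
        have h10 : u * W' ≤ 1 / 5 * (1 / r ^ 3) := by
          have : 0 ≤ 1 / r ^ 3 := by positivity
          linarith
        have h11 := mul_le_mul_of_nonneg_left h10 hr.le
        have e3 : r * (1 / 5 * (1 / r ^ 3)) = 2 * (1 / 10 / r ^ 2) := by
          field_simp
          norm_num
        linarith)
    l1 l2 l3 l4
  exact fun r hr => eq_zero_of_eta_the (hQ r hr.le) (key r hr).1 (key r hr).2

end

end Crest.Agent.R086.M
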