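import Crest.Agent.R086.M.Low
import Crest.Agent.R086.M.Big

/-! # Row 86, part M: assembly -/

open MeasureTheory Set Filter Topology
open scoped ContDiff ComplexConjugate

namespace Crest.Agent.R086.M

theorem modeStmt_of (hH : HighStmt) (hA : AdmStmt) (hL : LimitStmt) : ModeStmt := by
  intro b R q hF
  obtain ⟨β₀, hβ⟩ := hH b R q hF (h12 hF)
  by_contra hcon
  rw [Filter.not_frequently] at hcon
  refine low hL hA hF (max β₀ 13) ?_
  filter_upwards [hcon, hβ, big hF, hF.prof] with n hn hhigh hbig hP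
  unfold MS at hn
  push Not at hn
  obtain ⟨m, lam, f, g, h0, hf, hg, ⟨c₀, c₁, c₂, hc, hEq⟩, hE⟩ := hn
  have hEqn : Eqn n (b n) (q n) m lam c₀ c₁ c₂ f g := hEq
  by_cases hs : 33 / 10 ≤ lam.re
  · exfalso
    refine hE (inE_of_hom hP hf hg hc hEqn ?_ ?_ ?_ fun f' g' hf' hg' h' => hbig m lam f' g' hs hf' hg' h')
    · rintro - rfl; norm_num at hs
    · rintro - rfl; norm_num at hs
    · rintro - rfl; norm_num at hs
  · push Not at hs
    by_cases hb : bet m lam ≤ max β₀ 13
    · exact ⟨m, lam, c₀, c₁, c₂, f, g, h0, hs.le, hb, hf, hg, hc, hEqn, hE⟩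
    · exfalso
      push Not at hb
      have hb0 : β₀ ≤ bet m lam := (le_max_left _ _).trans hb.le
      have hb1 : 13 < bet m lam := (le_max_right _ _).trans_lt hb
      have key : lam.im = 0 → m ≠ 0 ∧ m ≠ 1 := by
        intro him
        unfold bet MM at hb1
        rw [him] at hb1
        constructor <;> rintro rfl <;> norm_num at hb1
      refine hE (inE_of_hom hP hf hg hc hEqn ?_ ?_ ?_ fun f' g' hf' hg' h' => ?_)
      · rintro hc0 rfl; exact hc0 (hc.1 (key (by simp)).1).1
      · rintro hc1 rfl; exact hc1 (hc.1 (key (by simp)).1).2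
      · rintro hc2 rfl; exact hc2 (hc.2 (key (by simp)).2)
      · obtain ⟨r, hr, h1, h2, h3, h4⟩ := hhigh m lam f' g' h0 hs.le hb0 hf' hg' h'
        exact h'.eq_zero hP hf' hg' hr (by simp [dat, h1, h2, h3, h4])

end Crest.Agent.R086.M
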