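import Crest.Agent.R086.M.Zero

/-! # Row 86, part M-a: the symmetry modes are eigenfunctions; removing the forcing; uniqueness (task) -/

open MeasureTheory Set Filter Topology
open scoped ContDiff ComplexConjugate

namespace Crest.Agent.R086.M

noncomputable section

variable {n : ℕ} {b : ℝ} {q : ℝ → ℂ} {m : ℕ} {lam c₀ c₁ c₂ d₀ d₁ d₂ : ℂ} {f g : ℝ → ℂ}

theorem Zero2_dconj (u : ℝ → ℂ) : deriv (fun r => conj (u r)) = fun r => conj (deriv u r) :=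
  deriv.star'

theorem Zero2_eqn {φ : ℝ → ℂ} (hl : conj lam = lam)
    (h : ∀ r, 0 < r → L1 n b q m φ (fun r => conj (φ r)) r = lam * φ r) :
    Eqn n b q m lam 0 0 0 φ (fun r => conj (φ r)) := fun r hr => by
  have h1 := congrArg conj (h r hr)
  have h2 : conj (V1 n (Qr q r)) = V1 n (Qr q r) := by rw [V1_eq_norm, Complex.conj_ofReal]
  refine ⟨by simp [h r hr, phc], ?_⟩
  simp only [L1, DD, map_sub, map_add, map_mul, map_div₀, map_pow, map_natCast, map_ofNat,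
    Complex.conj_ofReal, Complex.conj_I, Complex.conj_conj, h2, hl] at h1
  simp only [L2, DD, Zero2_dconj, phc, map_zero, zero_mul, add_zero]
  linear_combination h1

theorem Zero2_V (hP : Prof n b q) (u : ℂ) :
    V1 n u * u = (n + 1) * NL n u ∧ V2 n u * conj u = n * NL n u := by
  rw [V1_eq_norm, V2_mul_conj hP.npos, NL_eq_norm]
  push_cast
  exact ⟨by ring, by ring⟩

theorem Zero2_Q (hP : Prof n b q) (r : ℝ) : HasDerivAt (Qr q) (deriv (Qr q) r) r ∧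
    HasDerivAt (deriv (Qr q)) (deriv (deriv (Qr q)) r) r ∧
    HasDerivAt (deriv (deriv (Qr q))) (deriv (deriv (deriv (Qr q))) r) r := by
  have h0 := contDiff_Qr hP
  have h1 := (contDiff_infty_iff_deriv.1 h0).2
  have h2 := (contDiff_infty_iff_deriv.1 h1).2
  exact ⟨(h0.differentiable (by simp) r).hasDerivAt, (h1.differentiable (by simp) r).hasDerivAt,
    (h2.differentiable (by simp) r).hasDerivAt⟩

theorem Zero2_Q3 (hP : Prof n b q) {r : ℝ} (hr : 0 < r) : deriv (deriv (deriv (Qr q))) r =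
    (11 / (r : ℂ) ^ 2 - Complex.I / 2) * deriv (Qr q) r -
      (11 / (r : ℂ) + Complex.I * r / 2) * deriv (deriv (Qr q)) r -
      ((b : ℂ) + Complex.I * (aa n : ℂ)) * deriv (Qr q) r +
      (V1 n (Qr q r) * deriv (Qr q) r + V2 n (Qr q r) * conj (deriv (Qr q) r)) := by
  obtain ⟨d1, d2, -⟩ := Zero2_Q hP r
  have hr0 : (r : ℂ) ≠ 0 := by exact_mod_cast hr.ne'
  have d0 : HasDerivAt (fun s : ℝ => (s : ℂ)) 1 r := (hasDerivAt_id r).ofReal_comp
  have d3 : HasDerivAt (fun s => conj (Qr q s)) (conj (deriv (Qr q) r)) r := d1.star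
  have d4 := (((((hasDerivAt_const r (11 : ℂ)).fun_div d0 hr0).fun_add
    ((d0.const_mul Complex.I).div_const 2)).fun_neg.fun_mul d2).fun_sub
    (d1.const_mul ((b : ℂ) + Complex.I * (aa n : ℂ)))).fun_add
    ((d1.fun_pow (n + 1)).fun_mul (d3.fun_pow n))
  have e : deriv (deriv (Qr q)) =ᶠ[𝓝 r] _ :=
    (lt_mem_nhds hr).mono fun s hs => Qr_ode hP hs
  rw [e.deriv_eq]
  refine d4.deriv.trans ?_
  simp only [V1, V2, Nat.add_sub_cancel]
  push_cast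
  ring

theorem Zero2_d {u v : ℝ → ℂ} (hu : Differentiable ℝ u) (hv : Differentiable ℝ v) (s : ℂ) :
    deriv (fun r => u r + s * v r) = fun r => deriv u r + s * deriv v r :=
  funext fun r => ((hu r).hasDerivAt.fun_add ((hv r).hasDerivAt.const_mul s)).deriv

theorem Zero2_r (hf : RadAdm f) : Differentiable ℝ f ∧ Differentiable ℝ (deriv f) :=
  ⟨hf.smooth.differentiable (by norm_num),
    (hf.smooth.of_le (m := 2) (by norm_num)).differentiable_deriv_two⟩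

theorem Zero2_adm {u : ℝ → ℂ} (hf : RadAdm f) (hu : RadAdm u) (s : ℂ) :
    RadAdm fun r => f r + s * u r := radAdm_add hf (radAdm_const_mul s hu)

theorem Zero2_lin {u v : ℝ → ℂ} (hf : RadAdm f) (hg : RadAdm g) (hu : RadAdm u) (hv : RadAdm v)
    (s : ℂ) (r : ℝ) :
    L1 n b q m (fun r => f r + s * u r) (fun r => g r + s * v r) r =
      L1 n b q m f g r + s * L1 n b q m u v r ∧
    L2 n b q m (fun r => f r + s * u r) (fun r => g r + s * v r) r =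
      L2 n b q m f g r + s * L2 n b q m u v r ∧
    dat (fun r => f r + s * u r) (fun r => g r + s * v r) r = dat f g r + s • dat u v r := by
  simp only [L1, L2, DD, dat, Zero2_d (Zero2_r hf).1 (Zero2_r hu).1,
    Zero2_d (Zero2_r hf).2 (Zero2_r hu).2, Zero2_d (Zero2_r hg).1 (Zero2_r hv).1,
    Zero2_d (Zero2_r hg).2 (Zero2_r hv).2]
  exact ⟨by ring, by ring, rfl⟩

theorem Zero2_mode (hP : Prof n b q) (hf : RadAdm f) (hg : RadAdm g) (d₀ d₁ d₂ : ℂ) (r : ℝ) :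
    L1 n b q m (fun r => f r + phc (aa n) b (Qr q) d₀ d₁ d₂ r)
      (fun r => g r + conj (phc (aa n) b (Qr q) (conj d₀) (conj d₁) (conj d₂) r)) r =
      L1 n b q m f g r + d₀ * L1 n b q m (ph0 (Qr q)) (fun r => conj (ph0 (Qr q) r)) r +
        d₁ * L1 n b q m (ph1 (aa n) b (Qr q)) (fun r => conj (ph1 (aa n) b (Qr q) r)) r +
        d₂ * L1 n b q m (ph2 (Qr q)) (fun r => conj (ph2 (Qr q) r)) r ∧
    L2 n b q m (fun r => f r + phc (aa n) b (Qr q) d₀ d₁ d₂ r)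
      (fun r => g r + conj (phc (aa n) b (Qr q) (conj d₀) (conj d₁) (conj d₂) r)) r =
      L2 n b q m f g r + d₀ * L2 n b q m (ph0 (Qr q)) (fun r => conj (ph0 (Qr q) r)) r +
        d₁ * L2 n b q m (ph1 (aa n) b (Qr q)) (fun r => conj (ph1 (aa n) b (Qr q) r)) r +
        d₂ * L2 n b q m (ph2 (Qr q)) (fun r => conj (ph2 (Qr q) r)) r ∧
    dat (fun r => f r + phc (aa n) b (Qr q) d₀ d₁ d₂ r)
      (fun r => g r + conj (phc (aa n) b (Qr q) (conj d₀) (conj d₁) (conj d₂) r)) r =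
      dat f g r + (d₀ • dat (ph0 (Qr q)) (fun r => conj (ph0 (Qr q) r)) r +
        d₁ • dat (ph1 (aa n) b (Qr q)) (fun r => conj (ph1 (aa n) b (Qr q) r)) r +
        d₂ • dat (ph2 (Qr q)) (fun r => conj (ph2 (Qr q) r)) r) := by
  have e1 : (fun r => f r + phc (aa n) b (Qr q) d₀ d₁ d₂ r) = fun r => f r + d₀ * ph0 (Qr q) r +
      d₁ * ph1 (aa n) b (Qr q) r + d₂ * ph2 (Qr q) r := funext fun r => by simp only [phc, add_assoc]
  have e2 : (fun r => g r + conj (phc (aa n) b (Qr q) (conj d₀) (conj d₁) (conj d₂) r)) =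
      fun r => g r + d₀ * conj (ph0 (Qr q) r) + d₁ * conj (ph1 (aa n) b (Qr q) r) +
        d₂ * conj (ph2 (Qr q) r) := funext fun r => by
    simp only [phc, add_assoc, map_add, map_mul, Complex.conj_conj]
  have a0 := radAdm_ph0 hP
  have a1 := radAdm_ph1 hP
  have a2 := radAdm_ph2 hP
  have f0 := Zero2_adm hf a0 d₀
  have g0 := Zero2_adm hg (radAdm_conj a0) d₀
  obtain ⟨x0, y0, z0⟩ := Zero2_lin (n := n) (b := b) (q := q) (m := m) hf hg a0 (radAdm_conj a0) d₀ r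
  obtain ⟨x1, y1, z1⟩ := Zero2_lin (n := n) (b := b) (q := q) (m := m) f0 g0 a1 (radAdm_conj a1) d₁ r
  obtain ⟨x2, y2, z2⟩ := Zero2_lin (n := n) (b := b) (q := q) (m := m) (Zero2_adm f0 a1 d₁)
    (Zero2_adm g0 (radAdm_conj a1) d₁) a2 (radAdm_conj a2) d₂ r
  rw [e1, e2, x2, x1, x0, y2, y1, y0, z2, z1, z0]
  exact ⟨rfl, rfl, by simp only [add_assoc]⟩

theorem Zero2_gron {E : Type} [NormedAddCommGroup E] [NormedSpace ℝ E] {y y' : ℝ → E} {k : ℝ → ℝ}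
    (hk : ContinuousOn k (Ioi 0)) (hy : ∀ r, HasDerivAt y (y' r) r)
    (hb : ∀ r, 0 < r → ‖y' r‖ ≤ k r * ‖y r‖) {r₀ : ℝ} (hr₀ : 0 < r₀) (h0 : y r₀ = 0) {r : ℝ}
    (hr : 0 < r) : y r = 0 := by
  have hc : Continuous y := continuous_iff_continuousAt.2 fun r => (hy r).continuousAt
  have hK : ∀ a c : ℝ, 0 < a → ∃ K, ∀ x ∈ Icc a c, ‖y' x‖ ≤ K * ‖y x‖ := fun a c ha => by
    obtain ⟨K, hK⟩ := (isCompact_Icc (a := a) (b := c)).bddAbove_image
      (hk.mono fun x hx => ha.trans_le hx.1)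
    exact ⟨K, fun x hx => (hb x (ha.trans_le hx.1)).trans
      (mul_le_mul_of_nonneg_right (hK (mem_image_of_mem _ hx)) (norm_nonneg _))⟩
  rcases le_total r₀ r with h | h
  · obtain ⟨K, hK⟩ := hK r₀ r hr₀
    exact eq_zero_of_abs_deriv_le_mul_abs_self_of_eq_zero_right hc.continuousOn
      (fun x _ => (hy x).hasDerivWithinAt) h0 (fun x hx => hK x ⟨hx.1, hx.2.le⟩) r ⟨h, le_rfl⟩
  · obtain ⟨K, hK⟩ := hK r r₀ hr
    have := eq_zero_of_abs_deriv_le_mul_abs_self_of_eq_zero_right (f := fun x => y (-x))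
      (f' := fun x => -y' (-x)) (K := K) (a := -r₀) (b := -r) (hc.comp continuous_neg).continuousOn
      (fun x _ => (((hy (-x)).scomp x (hasDerivAt_neg x)).congr_deriv (by simp)).hasDerivWithinAt)
      (by simpa using h0) (fun x hx => by
        rw [norm_neg]
        exact hK _ ⟨by linarith [hx.2], by linarith [hx.1]⟩) (-r) ⟨by linarith, le_rfl⟩
    simpa using this

theorem Zero2_inE (h : ∀ r : ℝ, 0 < r → f r + phc (aa n) b (Qr q) d₀ d₁ d₂ r = 0 ∧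
    g r + conj (phc (aa n) b (Qr q) (conj d₀) (conj d₁) (conj d₂) r) = 0) (hd : Allowed m d₀ d₁ d₂) :
    InE (aa n) b (Qr q) 0 m f g := by
  refine ⟨-d₀, -d₁, -d₂, ⟨fun hm => by simpa using hd.1 hm, fun hm => by simpa using hd.2 hm⟩,
    fun r hr => ?_⟩
  obtain ⟨h1, h2⟩ := h r hr
  simp only [phc, map_add, map_mul, map_neg, Complex.conj_conj] at h1 h2 ⊢
  exact ⟨by linear_combination h1, by linear_combination h2⟩

/-- L₀(iQ, conj) = 0 (`Qr_ode`, V1 Q = (n+1)NL Q, V2 Q̄ = n NL Q) -/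
theorem eqn_ph0 (hP : Prof n b q) :
    Eqn n b q 0 0 0 0 0 (ph0 (Qr q)) (fun r => conj (ph0 (Qr q) r)) := by
  refine Zero2_eqn (map_zero _) fun r hr => ?_
  obtain ⟨v1, v2⟩ := Zero2_V hP (Qr q r)
  have e := Qr_ode hP hr
  unfold ph0
  simp only [L1, DD, deriv_const_mul_field', map_mul, Complex.conj_I]
  push_cast
  linear_combination -e + v1 - v2 + (deriv (deriv (Qr q)) r + 11 / r * deriv (Qr q) r + b * Qr q r -
    V1 n (Qr q r) * Qr q r + V2 n (Qr q r) * conj (Qr q r)) * Complex.I_mul_I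

/-- L₁(Q', conj) = ½(Q', conj): differentiate `Qr_ode` on r > 0; (NL Q)' = V1 Q' + V2 Q̄' -/
theorem eqn_ph2 (hP : Prof n b q) :
    Eqn n b q 1 (1 / 2) 0 0 0 (ph2 (Qr q)) (fun r => conj (ph2 (Qr q) r)) := by
  refine Zero2_eqn (by rw [map_div₀, map_one, map_ofNat]) fun r hr => ?_
  have e := Zero2_Q3 hP hr
  unfold ph2
  simp only [L1, DD]
  push_cast
  linear_combination Complex.I * e - (deriv (Qr q) r / 2 + r / 2 * deriv (deriv (Qr q)) r +
    aa n * deriv (Qr q) r) * Complex.I_mul_I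

/-- L₀(ΛQ, conj) = (ΛQ, conj): s = -a+ib, V1 sQ + V2 s̄Q̄ = (s-1)NL Q (2na = 1), 𝒟₀((r/2)Q') = (r/2)(𝒟₀Q)' + 𝒟₀Q -/
theorem eqn_ph1 (hP : Prof n b q) :
    Eqn n b q 0 1 0 0 0 (ph1 (aa n) b (Qr q)) (fun r => conj (ph1 (aa n) b (Qr q) r)) := by
  refine Zero2_eqn (map_one _) fun r hr => ?_
  obtain ⟨v1, v2⟩ := Zero2_V hP (Qr q r)
  have e2 := Qr_ode hP hr
  have e3 := Zero2_Q3 hP hr
  have hr0 : (r : ℂ) ≠ 0 := by exact_mod_cast hr.ne'
  have hn : (n : ℂ) ≠ 0 := by exact_mod_cast (Nat.succ_le_iff.1 hP.npos).ne'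
  have ha : (aa n : ℂ) * (2 * n) = 1 := by
    simp only [aa]
    push_cast
    field_simp
  have d0 : ∀ r : ℝ, HasDerivAt (fun s : ℝ => (s : ℂ) / 2) (1 / 2) r := fun r =>
    (hasDerivAt_id r).ofReal_comp.div_const 2
  have d1 : deriv (ph1 (aa n) b (Qr q)) = fun r => (-(aa n : ℂ) + Complex.I * b - 1 / 2) *
      deriv (Qr q) r - (r : ℂ) / 2 * deriv (deriv (Qr q)) r := funext fun r => by
    refine (((Zero2_Q hP r).1.const_mul _).fun_sub ((d0 r).fun_mul (Zero2_Q hP r).2.1)).deriv.trans ?_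
    ring
  have d2 := (((Zero2_Q hP r).2.1.const_mul (-(aa n : ℂ) + Complex.I * b - 1 / 2)).fun_sub
    ((d0 r).fun_mul (Zero2_Q hP r).2.2)).deriv
  simp only [L1, DD, d1, d2, ph1, map_mul, map_sub, map_add, map_neg, map_div₀, map_ofNat,
    Complex.conj_I, Complex.conj_ofReal]
  have k : V1 n (Qr q r) * ((-(aa n : ℂ) + Complex.I * b) * Qr q r - r / 2 * deriv (Qr q) r) +
      V2 n (Qr q r) * ((-(aa n : ℂ) + -Complex.I * b) * conj (Qr q r) -
        r / 2 * conj (deriv (Qr q) r)) = (-(aa n : ℂ) + Complex.I * b - 1) * NL n (Qr q r) -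
      r / 2 * (V1 n (Qr q r) * deriv (Qr q) r + V2 n (Qr q r) * conj (deriv (Qr q) r)) := by
    linear_combination (-(aa n : ℂ) + Complex.I * b) * v1 + (-(aa n : ℂ) + -Complex.I * b) * v2 -
      NL n (Qr q r) * ha
  rw [k, e3]
  generalize V1 n (Qr q r) * deriv (Qr q) r + V2 n (Qr q r) * conj (deriv (Qr q) r) = P
  have e4 : NL n (Qr q r) = deriv (deriv (Qr q)) r + (11 / (r : ℂ) + Complex.I * r / 2) *
      deriv (Qr q) r + ((b : ℂ) + Complex.I * (aa n : ℂ)) * Qr q r := by linear_combination -e2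
  rw [e4]
  push_cast
  field_simp
  ring_nf
  simp only [Complex.I_sq, Complex.I_pow_three]
  ring

/-- adding an element of E_m: (L-λ)(u + Σ dφ) = Σ (c + d(λ*-λ))φ  (L1, L2 are ℂ-linear in (f,g) on C² functions; L2(f,g) = conj L1(ḡ,f̄)) -/
theorem Eqn.add_mode (hP : Prof n b q) (hf : RadAdm f) (hg : RadAdm g)
    (h : Eqn n b q m lam c₀ c₁ c₂ f g) (hd : Allowed m d₀ d₁ d₂) :
    Eqn n b q m lam (c₀ + d₀ * (0 - lam)) (c₁ + d₁ * (1 - lam)) (c₂ + d₂ * (1 / 2 - lam))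
      (fun r => f r + phc (aa n) b (Qr q) d₀ d₁ d₂ r)
      (fun r => g r + conj (phc (aa n) b (Qr q) (conj d₀) (conj d₁) (conj d₂) r)) := by
  intro r hr
  obtain ⟨x, y, -⟩ := Zero2_mode (m := m) hP hf hg d₀ d₁ d₂ r
  obtain ⟨h1, h2⟩ := h r hr
  have key : ∀ {d μ : ℂ} {m' : ℕ} {φ : ℝ → ℂ}, (m ≠ m' → d = 0) →
      Eqn n b q m' μ 0 0 0 φ (fun r => conj (φ r)) →
      d * L1 n b q m φ (fun r => conj (φ r)) r = d * (μ * φ r) ∧
      d * L2 n b q m φ (fun r => conj (φ r)) r = d * (μ * conj (φ r)) := by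
    intro d μ m' φ hd hφ
    by_cases hm : m = m'
    · subst hm
      obtain ⟨a1, a2⟩ := hφ r hr
      simp only [phc, zero_mul, add_zero, map_zero, sub_eq_zero] at a1 a2
      rw [a1, a2]
      exact ⟨rfl, rfl⟩
    · simp [hd hm]
  obtain ⟨x0, y0⟩ := key (fun hm => (hd.1 hm).1) (eqn_ph0 hP)
  obtain ⟨x1, y1⟩ := key (fun hm => (hd.1 hm).2) (eqn_ph1 hP)
  obtain ⟨x2, y2⟩ := key hd.2 (eqn_ph2 hP)
  rw [x, y]
  simp only [phc, map_add, map_mul, Complex.conj_conj] at h1 h2 ⊢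
  exact ⟨by linear_combination h1 + x0 + x1 + x2, by linear_combination h2 + y0 + y1 + y2⟩

theorem Eqn.const_mul (hf : RadAdm f) (hg : RadAdm g) (h : Eqn n b q m lam c₀ c₁ c₂ f g) (s : ℂ) :
    Eqn n b q m lam (s * c₀) (s * c₁) (s * c₂) (fun r => s * f r) (fun r => s * g r) := by
  intro r hr
  obtain ⟨h1, h2⟩ := h r hr
  simp only [L1, L2, DD, deriv_const_mul_field', phc, map_add, map_mul, Complex.conj_conj] at h1 h2 ⊢
  exact ⟨by linear_combination s * h1, by linear_combination s * h2⟩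

/-- uniqueness for the real-linear first order system in (f,f',g,g') with continuous coefficients on (0,∞)
(`ODE_solution_unique_of_mem_Icc`-type lemma or Gronwall in both directions on compact subintervals) -/
theorem Eqn.eq_zero (hP : Prof n b q) (hf : RadAdm f) (hg : RadAdm g) (h : Eqn n b q m lam 0 0 0 f g)
    {r₀ : ℝ} (hr₀ : 0 < r₀) (h0 : dat f g r₀ = 0) : ∀ r : ℝ, 0 < r → f r = 0 ∧ g r = 0 := by
  intro r hr
  let A : ℝ → ℝ := fun r => ‖(m : ℂ) * (m + 10) / (r : ℂ) ^ 2‖ + ‖lam‖ + ‖(aa n : ℂ)‖ + ‖(b : ℂ)‖ +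
    ‖V1 n (Qr q r)‖ + ‖11 / (r : ℂ)‖ + ‖(r : ℂ) / 2‖ + ‖V2 n (Qr q r)‖
  have hQ := (contDiff_Qr hP).continuous
  have hA : ContinuousOn (fun r => 1 + A r) (Ioi 0) := fun r hr => by
    have hr0 : (r : ℂ) ≠ 0 := by exact_mod_cast (ne_of_gt hr)
    refine ContinuousAt.continuousWithinAt ?_
    simp only [A, V1, V2]
    fun_prop (disch := simp [hr0])
  have key : ∀ (r : ℝ) (N : ℝ) (x x' x'' y j v : ℂ), ‖j‖ = 1 → j * j = -1 → ‖v‖ = ‖V2 n (Qr q r)‖ →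
      ‖x‖ ≤ N → ‖x'‖ ≤ N → ‖y‖ ≤ N →
      j * (x'' + 11 / r * x' - (m : ℂ) * (m + 10) / (r : ℂ) ^ 2 * x) - (aa n - j * b) * x -
        r / 2 * x' - j * (V1 n (Qr q r) * x + v * y) - lam * x = 0 → ‖x''‖ ≤ (1 + A r) * N := by
    intro r N x x' x'' y j v hj hjj hv hx hx' hy e
    have e' : x'' = (m : ℂ) * (m + 10) / (r : ℂ) ^ 2 * x - j * (lam * x) - j * (aa n * x) - b * x +
        V1 n (Qr q r) * x - 11 / r * x' - j * (r / 2 * x') + v * y := by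
      linear_combination (-j) * e + (x'' + 11 / r * x' - (m : ℂ) * (m + 10) / (r : ℂ) ^ 2 * x + b * x -
        (V1 n (Qr q r) * x + v * y)) * hjj
    have hN := (norm_nonneg _).trans hx
    rw [e']
    grw [norm_add_le, norm_sub_le, norm_sub_le, norm_add_le, norm_sub_le, norm_sub_le, norm_sub_le]
    simp only [norm_mul _ x, norm_mul _ x', norm_mul _ y, norm_mul j, hj, hv, one_mul]
    grw [hx, hx', hy]
    simp only [A]
    linarith
  have h1 := Zero2_gron (y := dat f g) (y' := fun r => (deriv f r, deriv (deriv f) r, deriv g r,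
    deriv (deriv g) r)) hA (fun r => ((Zero2_r hf).1 r).hasDerivAt.prodMk
      (((Zero2_r hf).2 r).hasDerivAt.prodMk (((Zero2_r hg).1 r).hasDerivAt.prodMk
        ((Zero2_r hg).2 r).hasDerivAt))) (fun r hr => by
      obtain ⟨e1, e2⟩ := h r hr
      obtain ⟨n1, n2, n3, n4⟩ : ‖f r‖ ≤ ‖dat f g r‖ ∧ ‖deriv f r‖ ≤ ‖dat f g r‖ ∧
          ‖g r‖ ≤ ‖dat f g r‖ ∧ ‖deriv g r‖ ≤ ‖dat f g r‖ := by
        simpa only [dat, norm_prod_le_iff] using le_refl ‖dat f g r‖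
      have hA1 : 1 ≤ 1 + A r := le_add_of_nonneg_right (by simp only [A]; positivity)
      simp only [L1, L2, DD, phc, zero_mul, add_zero, map_zero] at e1 e2
      simp only [norm_prod_le_iff]
      exact ⟨n2.trans (le_mul_of_one_le_left (norm_nonneg _) hA1),
        key r _ _ _ _ _ Complex.I _ Complex.norm_I Complex.I_mul_I rfl n1 n2 n3 e1,
        n4.trans (le_mul_of_one_le_left (norm_nonneg _) hA1),
        key r _ _ _ _ _ (-Complex.I) _ (by simp) (by simp) (Complex.norm_conj _) n3 n4 n1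
          (by linear_combination e2)⟩) hr₀ h0 hr
  simp only [dat, Prod.mk_eq_zero] at h1
  exact ⟨h1.1, h1.2.2.1⟩

/-- if the forcing is not resonant and every admissible homogeneous solution vanishes, then u ∈ E_m
(`add_mode` with d = -c/(λ*-λ), d = 0 where c = 0) -/
theorem inE_of_hom (hP : Prof n b q) (hf : RadAdm f) (hg : RadAdm g) (hc : Allowed m c₀ c₁ c₂)
    (h : Eqn n b q m lam c₀ c₁ c₂ f g) (h₀ : c₀ ≠ 0 → lam ≠ 0) (h₁ : c₁ ≠ 0 → lam ≠ 1)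
    (h₂ : c₂ ≠ 0 → lam ≠ 1 / 2)
    (hom : ∀ f' g' : ℝ → ℂ, RadAdm f' → RadAdm g' → Eqn n b q m lam 0 0 0 f' g' →
      ∀ r : ℝ, 0 < r → f' r = 0 ∧ g' r = 0) :
    InE (aa n) b (Qr q) 0 m f g := by
  have hd : Allowed m (-c₀ / (0 - lam)) (-c₁ / (1 - lam)) (-c₂ / (1 / 2 - lam)) :=
    ⟨fun hm => by simp [hc.1 hm], fun hm => by simp [hc.2 hm]⟩
  have key : ∀ c μ : ℂ, (c ≠ 0 → lam ≠ μ) → c + -c / (μ - lam) * (μ - lam) = 0 := fun c μ h => by
    by_cases hc : c = 0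
    · simp [hc]
    · rw [div_mul_cancel₀ _ (sub_ne_zero.2 (h hc).symm), add_neg_cancel]
  have h1 := h.add_mode hP hf hg hd
  rw [key _ _ h₀, key _ _ h₁, key _ _ h₂] at h1
  exact Zero2_inE (hom _ _ (radAdm_add hf (radAdm_phc hP _ _ _))
    (radAdm_add hg (radAdm_conj (radAdm_phc hP _ _ _))) h1) hd

/-- Normalisation.  S = {dat(Σdφ) | d allowed} is a finite-dimensional (closed) subspace of ℂ⁴; subtract a nearest point
(`IsClosed.exists_infDist_eq_dist`), so that ‖dat u‖ ≤ ‖dat u - s‖ for all s ∈ S; if dat u = 0 and c = 0 then u = 0 (`Eqn.eq_zero`) and the original u is in E_m;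
otherwise divide by ‖dat u‖ + ‖c₀‖ + ‖c₁‖ + ‖c₂‖. -/
theorem normalise (hP : Prof n b q) (hf : RadAdm f) (hg : RadAdm g) (hc : Allowed m c₀ c₁ c₂)
    (h : Eqn n b q m lam c₀ c₁ c₂ f g) (hE : ¬ InE (aa n) b (Qr q) 0 m f g) {r₁ : ℝ} (hr₁ : 0 < r₁) :
    ∃ (f' g' : ℝ → ℂ) (e₀ e₁ e₂ : ℂ), RadAdm f' ∧ RadAdm g' ∧ Allowed m e₀ e₁ e₂ ∧
      Eqn n b q m lam e₀ e₁ e₂ f' g' ∧ ‖dat f' g' r₁‖ + ‖e₀‖ + ‖e₁‖ + ‖e₂‖ = 1 ∧
      ∀ d₀ d₁ d₂ : ℂ, Allowed m d₀ d₁ d₂ → ‖dat f' g' r₁‖ ≤ ‖dat f' g' r₁ -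
        dat (phc (aa n) b (Qr q) d₀ d₁ d₂)
          (fun r => conj (phc (aa n) b (Qr q) (conj d₀) (conj d₁) (conj d₂) r)) r₁‖ := by
  set w₀ := dat (ph0 (Qr q)) (fun r => conj (ph0 (Qr q) r)) r₁
  set w₁ := dat (ph1 (aa n) b (Qr q)) (fun r => conj (ph1 (aa n) b (Qr q) r)) r₁
  set w₂ := dat (ph2 (Qr q)) (fun r => conj (ph2 (Qr q) r)) r₁
  let S : Submodule ℂ (ℂ × ℂ × ℂ × ℂ) :=
    { carrier := {x | ∃ d₀ d₁ d₂, Allowed m d₀ d₁ d₂ ∧ x = d₀ • w₀ + d₁ • w₁ + d₂ • w₂}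
      zero_mem' := ⟨0, 0, 0, ⟨fun _ => ⟨rfl, rfl⟩, fun _ => rfl⟩, by simp⟩
      add_mem' := by
        rintro _ _ ⟨a₀, a₁, a₂, ha, rfl⟩ ⟨d₀, d₁, d₂, hd, rfl⟩
        exact ⟨a₀ + d₀, a₁ + d₁, a₂ + d₂, ⟨fun hm => by simp [ha.1 hm, hd.1 hm],
          fun hm => by simp [ha.2 hm, hd.2 hm]⟩, by module⟩
      smul_mem' := by
        rintro s _ ⟨a₀, a₁, a₂, ha, rfl⟩
        exact ⟨s * a₀, s * a₁, s * a₂, ⟨fun hm => by simp [ha.1 hm], fun hm => by simp [ha.2 hm]⟩,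
          by module⟩ }
  obtain ⟨y, hy, hyd⟩ := S.closed_of_finiteDimensional.exists_infDist_eq_dist ⟨0, S.zero_mem⟩
    (dat f g r₁)
  obtain ⟨d₀, d₁, d₂, hd, hyn⟩ := S.neg_mem hy
  have h1 := h.add_mode hP hf hg hd
  have af := radAdm_add hf (radAdm_phc hP d₀ d₁ d₂)
  have ag := radAdm_add hg (radAdm_conj (radAdm_phc hP (conj d₀) (conj d₁) (conj d₂)))
  have h2 := (Zero2_mode (m := m) hP hf hg d₀ d₁ d₂ r₁).2.2
  rw [← hyn, ← sub_eq_add_neg] at h2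
  have h3 : ∀ s ∈ S, ‖dat f g r₁ - y‖ ≤ ‖dat f g r₁ - y - s‖ := fun s hs => by
    rw [sub_sub, ← dist_eq_norm, ← dist_eq_norm, ← hyd]
    exact Metric.infDist_le_dist_of_mem (S.add_mem hy hs)
  set e₀ := c₀ + d₀ * (0 - lam) with he₀
  set e₁ := c₁ + d₁ * (1 - lam) with he₁
  set e₂ := c₂ + d₂ * (1 / 2 - lam) with he₂
  set N := ‖dat f g r₁ - y‖ + ‖e₀‖ + ‖e₁‖ + ‖e₂‖ with hN
  have hN0 : 0 < N := by
    refine lt_of_le_of_ne (by positivity) fun h0 => hE ?_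
    have b0 := norm_nonneg (dat f g r₁ - y)
    have b1 := norm_nonneg e₀
    have b2 := norm_nonneg e₁
    have b3 := norm_nonneg e₂
    rw [norm_eq_zero.1 (show ‖e₀‖ = 0 by linarith), norm_eq_zero.1 (show ‖e₁‖ = 0 by linarith),
      norm_eq_zero.1 (show ‖e₂‖ = 0 by linarith)] at h1
    exact Zero2_inE (h1.eq_zero hP af ag hr₁ (h2.trans (norm_eq_zero.1 (by linarith)))) hd
  have hN1 : (N : ℂ) ≠ 0 := by exact_mod_cast hN0.ne'
  have h4 : ∀ u v : ℝ → ℂ, dat (fun r => (N : ℂ)⁻¹ * u r) (fun r => (N : ℂ)⁻¹ * v r) r₁ =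
      (N : ℂ)⁻¹ • dat u v r₁ := fun u v => by
    simp only [dat, deriv_const_mul_field']
    rfl
  refine ⟨_, _, _, _, _, radAdm_const_mul (N : ℂ)⁻¹ af, radAdm_const_mul (N : ℂ)⁻¹ ag,
    ⟨fun hm => by simp [he₀, he₁, hc.1 hm, hd.1 hm], fun hm => by simp [he₂, hc.2 hm, hd.2 hm]⟩,
    h1.const_mul af ag _, ?_, fun a₀ a₁ a₂ ha => ?_⟩
  · rw [h4, h2, norm_smul, norm_mul, norm_mul, norm_mul, ← mul_add, ← mul_add, ← mul_add, norm_inv,
      Complex.norm_real, Real.norm_of_nonneg hN0.le, inv_mul_cancel₀ hN0.ne']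
  · have h5 := (Zero2_mode (m := m) hP (radAdm_const_mul 0 hf) (radAdm_const_mul 0 hg)
      a₀ a₁ a₂ r₁).2.2
    have h6 : dat (fun _ => 0) (fun _ => 0) r₁ = 0 := by simp [dat]
    simp only [zero_mul, zero_add, h6] at h5
    rw [h4, h2, h5]
    have h7 := mul_le_mul_of_nonneg_left (h3 _ (S.smul_mem (N : ℂ) ⟨a₀, a₁, a₂, ha, rfl⟩))
      (norm_nonneg (N : ℂ)⁻¹)
    rw [← norm_smul, ← norm_smul, smul_sub _ (_ - y), inv_smul_smul₀ hN1] at h7
    exact h7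

end

end Crest.Agent.R086.M
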