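import Crest.Agent.R086.M.Hy
import Crest.Agent.R086.M.EI

/-! # Row 86, part M-a: the family satisfies `Near`; (H1), (H2) and the inner boundary condition (task) -/

open MeasureTheory Set Filter Topology
open scoped ContDiff ComplexConjugate

namespace Crest.Agent.R086.M

noncomputable section

variable {b R : ℕ → ℝ} {q : ℕ → ℝ → ℂ}

/-- G2–G6.  |w| = |Q'|/|Q| ≤ C(ε + C(r-R)) ≤ 1/100 on [0,R+η₁] (mean value inequality for Q' with |Q''| ≤ C); x' = Re(Q''/Q - w²); v(0) = 0 since Q'(0) = 0 (`deriv_Qr`);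
r W' = (2n r x)W; W ≥ n/6 on [0,R]; |F₁|,|F₂| ≤ |c₀|+|c₁|+|c₂|; R ∈ [3.28,3.29] -/
theorem near (hF : Fam b R q) : ∃ C₀ η₁ : ℝ, 0 < C₀ ∧ 0 < η₁ ∧ ∀ᶠ n in atTop,
    (∀ r ∈ Icc 0 (R n + η₁), ‖deriv (Qr (q n)) r / Qr (q n) r‖ ≤ 1 / 100) ∧
    ∀ (m : ℕ) (lam c₀ c₁ c₂ : ℂ) (f g : ℝ → ℂ) (R' : ℝ), 0 ≤ lam.re → lam.re ≤ 33 / 10 → R n ≤ R' →
      R' ≤ R n + η₁ → (mkD n (b n) (q n) m lam c₀ c₁ c₂ f g).Near C₀ (n / 6) (R n) R' (‖c₀‖ + ‖c₁‖ + ‖c₂‖) := by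
  obtain ⟨C, hC, hb⟩ := hF.bdd
  obtain ⟨r₂, hr₂, hrep⟩ := hF.repul
  refine ⟨C ^ 2 + 1, min (min r₂ (1 / (200 * C ^ 2))) (1 / 2), by positivity, by positivity, ?_⟩
  set η₁ := min (min r₂ (1 / (200 * C ^ 2))) (1 / 2) with hη
  have hη1 : η₁ ≤ r₂ := (min_le_left _ _).trans (min_le_left _ _)
  have hη2 : η₁ ≤ 1 / (200 * C ^ 2) := (min_le_left _ _).trans (min_le_right _ _)
  have hη3 : η₁ ≤ 1 / 2 := min_le_right _ _
  filter_upwards [hF.prof, hF.box, hF.ne, hF.plateau, hF.flat (1 / (200 * C)) (by positivity), hb,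
    hrep, hF.flow] with n hP hbox hne hpl hfl hb hrep hflow
  have hR1 : 3.28936 ≤ R n := hbox.2.1
  have hR2 : R n ≤ 3.28948 := hbox.2.2
  have hQ := contDiff_Qr hP
  have hQd : Differentiable ℝ (Qr (q n)) := hQ.differentiable (by simp)
  have hQd' : Differentiable ℝ (deriv (Qr (q n))) :=
    (contDiff_infty_iff_deriv.1 hQ).2.differentiable (by simp)
  have hsub : ∀ r ∈ Icc 0 (R n + η₁), r ∈ Icc 0 (R n + 1) := fun r hr => ⟨hr.1, by linarith [hr.2]⟩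
  have hw : ∀ r ∈ Icc 0 (R n + η₁), ‖deriv (Qr (q n)) r / Qr (q n) r‖ ≤ 1 / 100 := by
    intro r hr
    have h1 : ‖deriv (Qr (q n)) r‖ ≤ 1 / (100 * C) := by
      have e : 1 / (100 * C) = 1 / (200 * C) + C * (1 / (200 * C ^ 2)) := by field_simp; norm_num
      rcases le_total r (R n) with h | h
      · have : 0 ≤ C * (1 / (200 * C ^ 2)) := by positivity
        linarith [(hfl r ⟨hr.1, h⟩).2]
      · have h2 := norm_image_sub_le_of_norm_deriv_le_segment' (f := deriv (Qr (q n)))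
          (f' := deriv (deriv (Qr (q n)))) (a := R n) (b := r) (C := C)
          (fun x _ => (hQd' x).hasDerivAt.hasDerivWithinAt)
          (fun x hx => (hb x ⟨by linarith [hx.1], by linarith [hx.2, hr.2]⟩).2.2.2) r ⟨h, le_rfl⟩
        have h3 := (hfl (R n) ⟨by linarith, le_rfl⟩).2
        have h4 := norm_le_insert' (deriv (Qr (q n)) r) (deriv (Qr (q n)) (R n))
        have h5 : C * (r - R n) ≤ C * (1 / (200 * C ^ 2)) :=
          mul_le_mul_of_nonneg_left (by linarith [hr.2]) hC.le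
        linarith
    have h2 := (hb r (hsub r hr)).1
    rw [norm_div, div_le_iff₀ (lt_of_lt_of_le (by positivity) h2)]
    calc _ ≤ 1 / (100 * C) := h1
      _ = 1 / 100 * (1 / C) := by field_simp
      _ ≤ _ := by gcongr
  refine ⟨hw, fun m lam c₀ c₁ c₂ f g R' hl0 hl1 hR' hR'' => ?_⟩
  have hsub' : ∀ r ∈ Icc 0 R', r ∈ Icc 0 (R n + η₁) := fun r hr => ⟨hr.1, hr.2.trans hR''⟩
  have hn : (1 : ℝ) ≤ n := by exact_mod_cast hP.npos
  have ha0 : 0 ≤ aa n := by unfold aa; positivity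
  have ha1 : aa n ≤ 1 / 2 := by
    unfold aa; exact one_div_le_one_div_of_le (by norm_num) (by linarith)
  have hx : ∀ r ∈ Icc 0 R', |xx (q n) r| ≤ 1 / 100 := fun r hr =>
    (Complex.abs_re_le_norm _).trans (hw r (hsub' r hr))
  have hy : ∀ r ∈ Icc 0 R', |yy (q n) r| ≤ 1 / 100 := fun r hr =>
    (Complex.abs_im_le_norm _).trans (hw r (hsub' r hr))
  refine ⟨by linarith, hR', by linarith, ha0, ha1, by unfold mkD MM; positivity, hl0, hl1,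
    fun r hr => ?_, hx, fun r hr => ?_, fun r hr => ?_, fun r hr => ?_, fun r hr => ?_,
    fun r hr => ?_⟩
  · obtain ⟨h1, h2, -⟩ := hb r (hsub r (hsub' r hr))
    change _ ≤ ‖Qr (q n) r‖ ^ 2 ∧ ‖Qr (q n) r‖ ^ 2 ≤ _
    constructor
    · calc 1 / (C ^ 2 + 1) ≤ 1 / C ^ 2 := one_div_le_one_div_of_le (by positivity) (by linarith)
        _ = (1 / C) ^ 2 := by rw [one_div_pow]
        _ ≤ _ := by gcongr
    · have : ‖Qr (q n) r‖ ^ 2 ≤ C ^ 2 := by gcongr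
      linarith
  · obtain ⟨h1, -, -, h4⟩ := hb r (hsub r (hsub' r hr))
    have h0 := hne r hr.1
    have hd := ((hQd' r).hasDerivAt.div (hQd r).hasDerivAt h0)
    have hd2 : HasDerivAt (xx (q n)) _ r := Complex.reCLM.hasFDerivAt.comp_hasDerivAt r hd
    change |deriv (xx (q n)) r| ≤ _
    rw [hd2.deriv]
    refine (Complex.abs_re_le_norm _).trans ?_
    have e : (deriv (deriv (Qr (q n))) r * Qr (q n) r - deriv (Qr (q n)) r * deriv (Qr (q n)) r) /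
        Qr (q n) r ^ 2 = deriv (deriv (Qr (q n))) r / Qr (q n) r -
          (deriv (Qr (q n)) r / Qr (q n) r) ^ 2 := by field_simp
    rw [e]
    refine (norm_sub_le _ _).trans (add_le_add ?_ ?_)
    · rw [norm_div, div_le_iff₀ (norm_pos_iff.2 h0)]
      calc _ ≤ C := h4
        _ = C ^ 2 * (1 / C) := by field_simp
        _ ≤ _ := by gcongr
    · rw [norm_pow]
      exact pow_le_one₀ (norm_nonneg _) ((hw r (hsub' r hr)).trans (by norm_num))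
  · change 0 ≤ r / 2 + 2 * yy (q n) r ∧ r / 2 + 2 * yy (q n) r ≤ 3 / 5 * r
    rcases hr.1.eq_or_lt with h | h
    · subst h
      simp [yy, deriv_Qr hP]
    · obtain ⟨h1, h2, -⟩ := hflow r h
      have e : r / 2 + 2 * yy (q n) r = (1 / 2 + 2 * yy (q n) r / r) * r := by field_simp
      rw [e]
      exact ⟨by positivity, mul_le_mul_of_nonneg_right h2 h.le⟩
  · have h0 : 0 ≤ 2 * n * ‖Qr (q n) r‖ ^ (2 * n) := by positivity
    refine ⟨h0, ?_⟩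
    have h1 := hrep r ⟨hr.1, by linarith [hr.2]⟩
    have h2 := mul_le_mul_of_nonneg_right h1 h0
    change r * (2 * n * xx (q n) r * (2 * n * ‖Qr (q n) r‖ ^ (2 * n))) ≤
      2 / 5 * (2 * n * ‖Qr (q n) r‖ ^ (2 * n))
    linarith
  · have h1 := hpl r hr
    change (n : ℝ) / 6 ≤ 2 * n * ‖Qr (q n) r‖ ^ (2 * n)
    nlinarith
  · have h1 := abs_le.1 (hx r hr)
    have h2 := abs_le.1 (hy r hr)
    have h3 : r ≤ 4 := by linarith [hr.2]
    have h4 := hr.1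
    have hb1 : 0.334766 ≤ b n := hbox.1.1
    have hb2 : b n ≤ 0.334786 := hbox.1.2
    have k : ∀ (c : ℂ) (t : ℝ), |t| ≤ 1 → ‖c * (t : ℂ)‖ ≤ ‖c‖ := fun c t ht => by
      rw [norm_mul, Complex.norm_real, Real.norm_eq_abs]
      exact mul_le_of_le_one_right (norm_nonneg _) ht
    constructor
    · change ‖c₁ * ((aa n + r * xx (q n) r / 2 : ℝ) : ℂ) - c₂ * xx (q n) r‖ ≤ _
      have e1 := k c₁ (aa n + r * xx (q n) r / 2) (abs_le.2 ⟨by nlinarith, by nlinarith⟩)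
      have e2 := k c₂ (xx (q n) r) (abs_le.2 ⟨by linarith, by linarith⟩)
      linarith [norm_sub_le (c₁ * ((aa n + r * xx (q n) r / 2 : ℝ) : ℂ)) (c₂ * xx (q n) r),
        norm_nonneg c₀]
    · change ‖-c₀ - c₁ * ((b n - r * yy (q n) r / 2 : ℝ) : ℂ) - c₂ * yy (q n) r‖ ≤ _
      have e1 := k c₁ (b n - r * yy (q n) r / 2) (abs_le.2 ⟨by nlinarith, by nlinarith⟩)
      have e2 := k c₂ (yy (q n) r) (abs_le.2 ⟨by linarith, by linarith⟩)
      refine (norm_sub_le _ _).trans (add_le_add ((norm_sub_le _ _).trans (add_le_add ?_ e1)) e2)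
      rw [norm_neg]

private theorem near_bet (m : ℕ) (lam : ℂ) : 1 ≤ bet m lam := by
  unfold bet MM
  have : 0 ≤ |lam.im| + (m : ℝ) * (m + 10) := by positivity
  linarith

private theorem near_eB (m : ℕ) (lam : ℂ) (f g : ℝ → ℂ) (r : ℝ) :
    bet m lam * (‖f r‖ ^ 2 + ‖g r‖ ^ 2) ≤ eB m lam f g r ∧ 0 ≤ eB m lam f g r := by
  have := near_bet m lam
  unfold eB
  exact ⟨by nlinarith [sq_nonneg ‖deriv f r‖, sq_nonneg ‖deriv g r‖], by positivity⟩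

private theorem near_le_eb (D : HD) (hM : 0 ≤ D.M) (r : ℝ) :
    ‖D.η r‖ ^ 2 + ‖D.ϑ r‖ ^ 2 ≤ D.eb r := by
  unfold HD.eb
  have h1 : 0 ≤ (|D.lam.im| + D.M) * (‖D.η r‖ ^ 2 + ‖D.ϑ r‖ ^ 2) := by positivity
  nlinarith [sq_nonneg ‖D.η' r‖, sq_nonneg ‖D.ϑ' r‖]

private theorem near_eb {n : ℕ} {b C₀ r : ℝ} {q : ℝ → ℂ} {m : ℕ} {lam c₀ c₁ c₂ : ℂ} {f g : ℝ → ℂ}
    (hP : Prof n b q) (hf : RadAdm f) (hg : RadAdm g) (hC : 0 < C₀) (hQ : Qr q r ≠ 0)
    (hw : ‖deriv (Qr q) r / Qr q r‖ ≤ 1 / 100) (hN : 1 / C₀ ≤ ‖Qr q r‖ ^ 2) :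
    (mkD n b q m lam c₀ c₁ c₂ f g).eb r ≤ 2 * C₀ * eB m lam f g r := by
  have h1 := norm_eta_the (f := f) (g := g) hQ
  have h2 := norm_deriv_eta_the hQ ((contDiff_Qr hP).differentiable (by simp) r)
    (hf.smooth.differentiable (by norm_num) r) (hg.smooth.differentiable (by norm_num) r)
  have hβ := near_bet m lam
  have hN0 : 0 < ‖Qr q r‖ ^ 2 := lt_of_lt_of_le (by positivity) hN
  have hN' : 1 / ‖Qr q r‖ ^ 2 ≤ C₀ := (one_div_le hC hN0).1 hN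
  have hw2 : ‖deriv (Qr q) r / Qr q r‖ ^ 2 ≤ 1 :=
    pow_le_one₀ (norm_nonneg _) (hw.trans (by norm_num))
  change bet m lam * (‖eta (Qr q) f g r‖ ^ 2 + ‖the (Qr q) f g r‖ ^ 2) +
    ‖deriv (eta (Qr q) f g) r‖ ^ 2 + ‖deriv (the (Qr q) f g) r‖ ^ 2 ≤ _
  rw [h1, add_assoc]
  unfold eB
  set S := ‖f r‖ ^ 2 + ‖g r‖ ^ 2
  set u := ‖deriv f r‖ ^ 2
  set v := ‖deriv g r‖ ^ 2
  have hS : 0 ≤ S := by positivity
  have hu : 0 ≤ u := by positivity
  have hv : 0 ≤ v := by positivity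
  calc _ ≤ bet m lam * (S / (2 * ‖Qr q r‖ ^ 2)) + (u + v + 1 * S) / ‖Qr q r‖ ^ 2 := by
        refine add_le_add le_rfl (h2.trans ?_)
        gcongr
    _ = (bet m lam * S / 2 + u + v + S) * (1 / ‖Qr q r‖ ^ 2) := by field_simp; ring
    _ ≤ (2 * (bet m lam * S + u + v)) * C₀ := by
        have : S ≤ bet m lam * S := le_mul_of_one_le_left hS hβ
        gcongr
        linarith
    _ = _ := by ring

/-- `morawetz`, `energy_flux`, `sup_bound` for `mkD` with c = 0, translated by `flux_eta_the`, `norm_eta_the`, `norm_deriv_eta_the`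
(eb ≤ C eB; ‖λ‖|w|(|f|²+|g|²) ≤ C eB) -/
theorem h12 (hF : Fam b R q) : H12 b R q := by
  obtain ⟨C₀, η₁, hC₀, hη₁, hnear⟩ := near hF
  obtain ⟨η₀, n₀, Cm, hη₀, -, -, hCm, hmor⟩ := HD.morawetz C₀ hC₀
  obtain ⟨Ce, hCe, hen⟩ := HD.energy_flux C₀ hC₀
  obtain ⟨Cs, hCs, hsup⟩ := HD.sup_bound C₀ hC₀
  refine ⟨min η₀ η₁, 2 * C₀ * (Ce + Cs) * ((Cm + 1) * (2 * C₀)) + 1, lt_min hη₀ hη₁, by positivity, ?_⟩
  filter_upwards [hnear, hF.prof, hF.ne, hF.box,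
    (tendsto_natCast_atTop_atTop (R := ℝ)).eventually_ge_atTop (6 * n₀)]
    with n ⟨hw, hN⟩ hP hne hbox hn m lam f g hl0 hl1 hf hg hE
  have hR1 : 3.28936 ≤ R n := hbox.2.1
  have hok := mk_ok hP hne hf hg hE
  set D := mkD n (b n) (q n) m lam 0 0 0 f g with hD
  have key : ∀ r, R n ≤ r → r ≤ R n + min η₀ η₁ →
      D.Near C₀ (n / 6) (R n) r (‖(0 : ℂ)‖ + ‖(0 : ℂ)‖ + ‖(0 : ℂ)‖) ∧
      D.En r + D.eb r ≤ (Cm + 1) * (2 * C₀) * eB m lam f g r := by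
    intro r h1 h2
    have h3 : r ≤ R n + η₁ := h2.trans (by linarith [min_le_right η₀ η₁])
    have h4 := hN m lam 0 0 0 f g r hl0 hl1 h1 h3
    have h5 := hmor D _ _ _ _ hok h4 (h2.trans (by linarith [min_le_left η₀ η₁])) (by linarith)
    have h6 : D.eb r ≤ 2 * C₀ * eB m lam f g r :=
      near_eb hP hf hg hC₀ (hne r (by linarith)) (hw r ⟨by linarith, h3⟩)
        (h4.hN r ⟨by linarith, le_rfl⟩).1
    refine ⟨h4, ?_⟩
    simp only [norm_zero, add_zero, ne_eq, OfNat.ofNat_ne_zero, not_false_eq_true, zero_pow] at h5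
    nlinarith
  constructor
  · intro r hr
    obtain ⟨h4, h5⟩ := key r hr.1 hr.2
    have hr0 : 0 ≤ r := by linarith [hr.1]
    have hQ := hne r hr0
    have h6 := hen D _ _ _ _ hok h4 (fun r => by simp [hD, mkD]) (fun r => by simp [hD, mkD])
    have h7 := flux_eta_the hQ ((contDiff_Qr hP).differentiable (by simp) r)
      (hf.smooth.differentiable (by norm_num) r) (hg.smooth.differentiable (by norm_num) r)
    have hN2 : ‖Qr (q n) r‖ ^ 2 ≤ C₀ := (h4.hN r ⟨hr0, le_rfl⟩).2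
    have hN0 : 0 < ‖Qr (q n) r‖ ^ 2 := by positivity
    change -(lam * (eta (Qr (q n)) f g r * conj (deriv (eta (Qr (q n)) f g) r) +
      the (Qr (q n)) f g r * conj (deriv (the (Qr (q n)) f g) r))).re ≤ _ at h6
    rw [h7, ← mul_div_assoc, Complex.div_ofReal_re, ← neg_div, div_le_iff₀ (by positivity),
      sub_sub, mul_sub, Complex.sub_re] at h6
    obtain ⟨e1, e0⟩ := near_eB m lam f g r
    have hw' := hw r ⟨hr0, hr.2.trans (by linarith [min_le_right η₀ η₁])⟩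
    set w := deriv (Qr (q n)) r / Qr (q n) r
    have h8 : ‖lam‖ ≤ 4 * bet m lam := by
      refine (Complex.norm_le_abs_re_add_abs_im lam).trans ?_
      rw [abs_of_nonneg hl0]
      unfold bet MM
      have : 0 ≤ (m : ℝ) * (m + 10) := by positivity
      linarith [abs_nonneg lam.im]
    have h9 : ‖lam * (conj w * ((‖f r‖ ^ 2 : ℝ) : ℂ) + w * ((‖g r‖ ^ 2 : ℝ) : ℂ))‖ ≤
        eB m lam f g r := by
      have h10 : ‖conj w * ((‖f r‖ ^ 2 : ℝ) : ℂ) + w * ((‖g r‖ ^ 2 : ℝ) : ℂ)‖ ≤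
          1 / 100 * (‖f r‖ ^ 2 + ‖g r‖ ^ 2) := by
        refine (norm_add_le _ _).trans ?_
        rw [norm_mul, norm_mul, Complex.norm_conj, Complex.norm_real, Complex.norm_real,
          Real.norm_of_nonneg (by positivity), Real.norm_of_nonneg (by positivity), ← mul_add]
        gcongr
      have := near_bet m lam
      rw [norm_mul]
      calc _ ≤ 4 * bet m lam * (1 / 100 * (‖f r‖ ^ 2 + ‖g r‖ ^ 2)) := by gcongr
        _ = 1 / 25 * (bet m lam * (‖f r‖ ^ 2 + ‖g r‖ ^ 2)) := by ring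
        _ ≤ _ := by linarith
    have h11 := (abs_le.1 ((Complex.abs_re_le_norm _).trans h9)).1
    have h12 : Ce * (D.En r + D.eb r) * (2 * ‖Qr (q n) r‖ ^ 2) ≤
        Ce * ((Cm + 1) * (2 * C₀) * eB m lam f g r) * (2 * C₀) := by
      gcongr
    have h13 : 0 ≤ 2 * C₀ * Cs * ((Cm + 1) * (2 * C₀)) * eB m lam f g r := by positivity
    nlinarith
  · intro r r₂ h1 h2 h3
    obtain ⟨h4, h5⟩ := key r₂ (h1.trans h2) h3
    have hr0 : 0 ≤ r := by linarith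
    have hQ := hne r hr0
    have h6 := hsup D _ _ _ _ hok h4 r ⟨h1, h2⟩
    have h7 := near_le_eb D h4.M0 r₂
    have hN2 : ‖Qr (q n) r‖ ^ 2 ≤ C₀ := (h4.hN r ⟨hr0, h2⟩).2
    have hN0 : 0 < ‖Qr (q n) r‖ ^ 2 := by positivity
    obtain ⟨-, e0⟩ := near_eB m lam f g r₂
    change ‖eta (Qr (q n)) f g r‖ ^ 2 + ‖the (Qr (q n)) f g r‖ ^ 2 ≤ _ at h6
    rw [norm_eta_the hQ, div_le_iff₀ (by positivity)] at h6
    have h12 : Cs * (D.En r₂ + ‖D.η r₂‖ ^ 2 + ‖D.ϑ r₂‖ ^ 2) * (2 * ‖Qr (q n) r‖ ^ 2) ≤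
        Cs * ((Cm + 1) * (2 * C₀) * eB m lam f g r₂) * (2 * C₀) := by
      gcongr
      linarith
    have h13 : 0 ≤ 2 * C₀ * Ce * ((Cm + 1) * (2 * C₀)) * eB m lam f g r₂ := by positivity
    nlinarith

set_option maxHeartbeats 400000 in
/-- inner boundary condition at low frequency: `morawetz` on [0,r₁] gives En ≤ K(m,Λ); `inner_eta`, `inner_the` with δ from `Fam.flat` (|x| ≤ Cε, |F₁| ≤ a + 3|x|),
`sup_bound` for the last claim -/
theorem inner_bc (hF : Fam b R q) (m : ℕ) (Λ : ℝ) : ∃ η₂ C : ℝ, 0 < η₂ ∧ η₂ ≤ 1 / 2 ∧ 0 < C ∧ ∀ δ : ℝ, 0 < δ →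
    ∀ᶠ n in atTop, ∀ (lam c₀ c₁ c₂ : ℂ) (f g : ℝ → ℂ) (r₁ : ℝ), 0 ≤ lam.re → lam.re ≤ 33 / 10 → ‖lam‖ ≤ Λ →
      RadAdm f → RadAdm g → Eqn n (b n) (q n) m lam c₀ c₁ c₂ f g → R n ≤ r₁ → r₁ ≤ R n + η₂ →
      ‖dat f g r₁‖ + ‖c₀‖ + ‖c₁‖ + ‖c₂‖ ≤ 1 → ∀ r ∈ Icc (R n) r₁,
        ‖eta (Qr (q n)) f g r‖ ^ 2 ≤ C * (δ + (r - R n)) ∧
        ‖deriv (the (Qr (q n)) f g) r - (m : ℂ) / r * the (Qr (q n)) f g r‖ ^ 2 ≤ C * (δ + (r - R n)) := by
  obtain ⟨C₀, η₁, hC₀, hη₁, hnear⟩ := near hF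
  obtain ⟨η₀, n₀, Cm, hη₀, hη₀', hn₀, hCm, hmor⟩ := HD.morawetz C₀ hC₀
  obtain ⟨C₁, hC₁, het⟩ := HD.inner_eta C₀ hC₀
  obtain ⟨C₂, hC₂, hth⟩ := HD.inner_the C₀ Λ hC₀ m
  have hM0 : 0 ≤ MM m := by unfold MM; positivity
  set K₁ : ℝ := 2 * C₀ * ((1 + |Λ| + MM m) * 2 + 2) with hK₁
  have hK₁0 : 0 ≤ K₁ := by positivity
  set K : ℝ := 1 + K₁ + Cm * (K₁ + 1) with hK
  have hK2 : 0 ≤ Cm * (K₁ + 1) := by positivity
  refine ⟨min η₀ η₁, (C₁ + C₂) * K, lt_min hη₀ hη₁, (min_le_left _ _).trans (by linarith),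
    by positivity, fun δ hδ => ?_⟩
  set δ' : ℝ := min 1 (δ / 2) with hδ'
  have hδ0 : 0 < δ' := lt_min one_pos (half_pos hδ)
  have hδ1 : δ' ≤ 1 := min_le_left _ _
  have hδ2 : δ' ≤ δ / 2 := min_le_right _ _
  have hs : Tendsto (fun n : ℕ => 1 / Real.sqrt ((n : ℝ) / 6)) atTop (𝓝 0) :=
    tendsto_const_nhds.div_atTop (Real.tendsto_sqrt_atTop.comp
      ((tendsto_natCast_atTop_atTop (R := ℝ)).atTop_div_const (by norm_num)))
  filter_upwards [hnear, hF.prof, hF.ne, hF.box, hF.flat (δ' / 12) (by positivity),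
    (tendsto_natCast_atTop_atTop (R := ℝ)).eventually_ge_atTop (6 * n₀),
    (tendsto_natCast_atTop_atTop (R := ℝ)).eventually_ge_atTop (1 / δ'),
    hs.eventually_le_const (half_pos hδ)]
    with n ⟨hw, hN⟩ hP hne hbox hfl hn hn' hsq lam c₀ c₁ c₂ f g r₁ hl0 hl1 hΛ hf hg hE h1 h2 hd r hr
  have hR1 : 3.28936 ≤ R n := hbox.2.1
  have hR2 : R n ≤ 3.28948 := hbox.2.2
  have hok := mk_ok hP hne hf hg hE
  have h3 : r₁ ≤ R n + η₁ := h2.trans (by linarith [min_le_right η₀ η₁])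
  have h4 := hN m lam c₀ c₁ c₂ f g r₁ hl0 hl1 h1 h3
  set D := mkD n (b n) (q n) m lam c₀ c₁ c₂ f g with hD
  have h5 := hmor D _ _ _ _ hok h4 (h2.trans (by linarith [min_le_left η₀ η₁])) (by linarith)
  have h6 : D.eb r₁ ≤ 2 * C₀ * eB m lam f g r₁ :=
    near_eb hP hf hg hC₀ (hne r₁ (by linarith)) (hw r₁ ⟨by linarith, h3⟩)
      (h4.hN r₁ ⟨by linarith, le_rfl⟩).1
  have n0 := norm_nonneg c₀
  have n1 := norm_nonneg c₁
  have n2 := norm_nonneg c₂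
  have n3 := norm_nonneg (dat f g r₁)
  have hd1 : ‖dat f g r₁‖ ≤ 1 := by linarith
  simp only [dat, Prod.norm_mk, max_le_iff] at hd1
  obtain ⟨d1, d2, d3, d4⟩ := hd1
  have h7 : eB m lam f g r₁ ≤ (1 + |Λ| + MM m) * 2 + 2 := by
    have e1 := pow_le_one₀ (n := 2) (norm_nonneg _) d1
    have e2 := pow_le_one₀ (n := 2) (norm_nonneg _) d2
    have e3 := pow_le_one₀ (n := 2) (norm_nonneg _) d3
    have e4 := pow_le_one₀ (n := 2) (norm_nonneg _) d4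
    have e5 : bet m lam ≤ 1 + |Λ| + MM m := by
      unfold bet
      linarith [Complex.abs_im_le_norm lam, le_abs_self Λ]
    have e6 : bet m lam * (‖f r₁‖ ^ 2 + ‖g r₁‖ ^ 2) ≤ (1 + |Λ| + MM m) * 2 := by
      gcongr
      linarith
    unfold eB
    linarith
  have h8 : D.eb r₁ ≤ K₁ := h6.trans (by rw [hK₁]; gcongr)
  have hΦ : (‖c₀‖ + ‖c₁‖ + ‖c₂‖) ^ 2 ≤ 1 := pow_le_one₀ (by positivity) (by linarith)
  have h9 : D.En r₁ ≤ K := by
    have : Cm * (D.eb r₁ + (‖c₀‖ + ‖c₁‖ + ‖c₂‖) ^ 2) ≤ Cm * (K₁ + 1) := by gcongr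
    linarith
  have h10 := near_le_eb D h4.M0 r₁
  have hnn : (1 : ℝ) ≤ n / 6 := by linarith
  have hrR : 0 ≤ r - R n := by linarith [hr.1]
  have hK0 : 0 ≤ K := by linarith
  have hflat : ∀ s ∈ Icc 0 (R n), |D.x s| ≤ δ' ∧ ‖D.F₁ s‖ ≤ δ' := by
    intro s hs
    obtain ⟨f1, f2⟩ := hfl s hs
    have f3 : 1 / 2 ≤ ‖Qr (q n) s‖ := by
      have := norm_le_insert' (1 : ℂ) (Qr (q n) s)
      rw [norm_one, norm_sub_rev] at this
      linarith
    have f4 : |xx (q n) s| ≤ δ' / 6 := by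
      refine (Complex.abs_re_le_norm _).trans ?_
      rw [norm_div, div_le_iff₀ (by linarith only [f3])]
      nlinarith only [f2, f3, hδ0]
    have f5 : aa n ≤ δ' / 2 := by
      unfold aa
      rw [div_le_iff₀ hδ0] at hn'
      rw [div_le_iff₀ (by linarith)]
      linarith
    have f6 : 0 ≤ aa n := h4.a0
    refine ⟨f4.trans (by linarith), ?_⟩
    change ‖c₁ * ((aa n + s * xx (q n) s / 2 : ℝ) : ℂ) - c₂ * xx (q n) s‖ ≤ _
    have k : ∀ (c : ℂ) (t : ℝ), ‖c‖ ≤ 1 → ‖c * (t : ℂ)‖ ≤ |t| := fun c t ht => by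
      rw [norm_mul, Complex.norm_real, Real.norm_eq_abs]
      exact mul_le_of_le_one_left (abs_nonneg _) ht
    have f7 : |aa n + s * xx (q n) s / 2| ≤ δ' / 2 + δ' / 3 := by
      obtain ⟨f8, f9⟩ := abs_le.1 f4
      have g1 := hs.1
      have g2 : s ≤ 4 := by linarith only [hs.2, hR2]
      exact abs_le.2 ⟨by nlinarith only [g1, g2, f8, f9, f5, f6, hδ0],
        by nlinarith only [g1, g2, f8, f9, f5, f6, hδ0]⟩
    refine (norm_sub_le _ _).trans ?_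
    linarith [k c₁ (aa n + s * xx (q n) s / 2) (by linarith), k c₂ (xx (q n) s) (by linarith)]
  constructor
  · have h11 := het D _ _ _ _ hok h4 hnn r hr
    calc _ ≤ C₁ * (1 / Real.sqrt ((n : ℝ) / 6) + (r - R n)) * D.En r₁ := h11
      _ ≤ (C₁ + C₂) * (δ + (r - R n)) * K := by
        have := HD.En_nonneg hok h4 (by linarith) le_rfl
        gcongr
        · exact le_add_of_nonneg_right hC₂.le
        · linarith only [hsq, hδ]
      _ = _ := by ring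
  · have h11 := hth D _ _ _ _ δ' K hok h4 hnn rfl hΛ hδ0.le hflat (by linarith) h9
      (by linarith [sq_nonneg ‖D.ϑ r₁‖]) (by linarith [sq_nonneg ‖D.η r₁‖]) (by linarith) r hr
    calc _ ≤ C₂ * (δ' ^ 2 + 1 / Real.sqrt ((n : ℝ) / 6) + (r - R n)) * K := h11
      _ ≤ (C₁ + C₂) * (δ + (r - R n)) * K := by
        have e1 : δ' ^ 2 ≤ δ' := pow_le_of_le_one hδ0.le hδ1 two_ne_zero
        gcongr
        · exact le_add_of_nonneg_left hC₁.le
        · linarith only [e1, hδ2, hsq]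
      _ = _ := by ring

end

end Crest.Agent.R086.M
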