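import Crest.Agent.R086.M.OdeLim
import Crest.Agent.R086.M.Near

/-! # Row 86, part M-a: the boundary condition in the limit; independence of the limit modes (task) -/

open MeasureTheory Set Filter Topology
open scoped ContDiff ComplexConjugate

namespace Crest.Agent.R086.M

noncomputable section

variable {b R : ℕ → ℝ} {q : ℕ → ℝ → ℂ}

theorem BC_diff {R' : ℝ} {F : ℝ → ℂ} (hF : ContDiffOn ℝ 12 F (Ioi R')) {r : ℝ} (hr : R' < r) :
    DifferentiableAt ℝ F r ∧ DifferentiableAt ℝ (deriv F) r := by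
  have h1 : ContDiffOn ℝ 11 (deriv F) (Ioi R') := hF.deriv_of_isOpen isOpen_Ioi (by norm_num)
  exact ⟨(hF.contDiffAt (Ioi_mem_nhds hr)).differentiableAt (by norm_num),
    (h1.contDiffAt (Ioi_mem_nhds hr)).differentiableAt (by norm_num)⟩

theorem BC_dd {m : ℕ} {F : ℝ → ℂ} {r : ℝ} {X : ℂ} (h : Complex.I * DD m F r = X) :
    deriv (deriv F) r = -(11 / (r : ℂ)) * deriv F r + ((m : ℂ) * (m + 10)) / (r : ℂ) ^ 2 * F r
      - Complex.I * X := by
  rw [← h, DD]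
  linear_combination (deriv (deriv F) r + 11 / (r : ℂ) * deriv F r
    - ((m : ℂ) * (m + 10)) / (r : ℂ) ^ 2 * F r) * Complex.I_mul_I

/-- solutions of the free equation are bounded up to the left end point -/
theorem BC_bdd {m : ℕ} {α : ℂ} {F e : ℝ → ℂ} {R' r₁ K : ℝ} (hR' : 0 < R') (hr₁ : R' < r₁)
    (hF : ContDiffOn ℝ 12 F (Ioi R'))
    (ho : ∀ r, R' < r → Complex.I * DD m F r = α * F r + (r : ℂ) / 2 * deriv F r + e r)
    (he : ∀ r ∈ Ioc R' r₁, ‖e r‖ ≤ K) :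
    ∃ K' : ℝ, ∀ r ∈ Ioc R' r₁, ‖F r‖ ≤ K' ∧ ‖deriv F r‖ ≤ K' := by
  have hK : 0 ≤ K := (norm_nonneg _).trans (he r₁ ⟨hr₁, le_rfl⟩)
  set L : ℝ := 1 + 11 / R' + (m * (m + 10)) / R' ^ 2 + ‖α‖ + r₁ / 2 + K with hLd
  have p1 : 0 ≤ 11 / R' := by positivity
  have p2 : (0 : ℝ) ≤ (m * (m + 10)) / R' ^ 2 := by positivity
  have p3 : 0 ≤ ‖α‖ := norm_nonneg _
  have p4 : 0 ≤ r₁ / 2 := by linarith
  obtain ⟨K', hK'⟩ := ode_bdd R' r₁ L hr₁ (fun r => (F r, deriv F r))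
    (fun r => (deriv F r, deriv (deriv F) r))
    (fun r hr => (BC_diff hF hr.1).1.hasDerivAt.prodMk (BC_diff hF hr.1).2.hasDerivAt)
    (fun r hr => by
      have r0 : 0 < r := hR'.trans hr.1
      set N := ‖(F r, deriv F r)‖ with hN
      have n0 : 0 ≤ N := norm_nonneg _
      have n1 : ‖F r‖ ≤ N := norm_fst_le (F r, deriv F r)
      have n2 : ‖deriv F r‖ ≤ N := norm_snd_le (F r, deriv F r)
      rw [Prod.norm_def]
      refine max_le ?_ ?_
      · change ‖deriv F r‖ ≤ _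
        nlinarith
      · change ‖deriv (deriv F) r‖ ≤ _
        rw [BC_dd (ho r hr.1)]
        have b1 : ‖-(11 / (r : ℂ)) * deriv F r‖ ≤ 11 / R' * N := by
          rw [norm_mul, norm_neg, norm_div, Complex.norm_real, Real.norm_of_nonneg r0.le]
          simp only [Complex.norm_ofNat]
          gcongr
          exact hr.1.le
        have b2 : ‖((m : ℂ) * (m + 10)) / (r : ℂ) ^ 2 * F r‖ ≤ (m * (m + 10)) / R' ^ 2 * N := by
          have : ‖(m : ℂ) * (m + 10)‖ = (m : ℝ) * (m + 10) := by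
            rw [show (m : ℂ) * (m + 10) = (((m : ℝ) * (m + 10) : ℝ) : ℂ) by push_cast; rfl,
              Complex.norm_real, Real.norm_of_nonneg (by positivity)]
          rw [norm_mul, norm_div, this, norm_pow, Complex.norm_real, Real.norm_of_nonneg r0.le]
          gcongr
          exact hr.1.le
        have b3 : ‖α * F r‖ ≤ ‖α‖ * N := by
          rw [norm_mul]
          gcongr
        have b4 : ‖(r : ℂ) / 2 * deriv F r‖ ≤ r₁ / 2 * N := by
          rw [norm_mul, norm_div, Complex.norm_real, Real.norm_of_nonneg r0.le]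
          simp only [Complex.norm_ofNat]
          gcongr
          exact hr.2
        have b5 : ‖Complex.I * (α * F r + (r : ℂ) / 2 * deriv F r + e r)‖ ≤
            ‖α‖ * N + r₁ / 2 * N + K := by
          rw [norm_mul, Complex.norm_I, one_mul]
          exact (norm_add₃_le).trans (add_le_add (add_le_add b3 b4) (he r hr))
        refine (norm_sub_le _ _).trans ((add_le_add ((norm_add_le _ _).trans (add_le_add b1 b2))
          b5).trans ?_)
        nlinarith)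
  exact ⟨K', fun r hr => ⟨(norm_fst_le (F r, deriv F r)).trans (hK' r hr),
    (norm_snd_le (F r, deriv F r)).trans (hK' r hr)⟩⟩

theorem BC_phc_bdd {Φ : ℝ → ℂ} {R' r₁ K : ℝ} (hR' : 0 < R') (b' : ℝ)
    (h : ∀ r ∈ Ioc R' r₁, ‖Φ r‖ ≤ K ∧ ‖deriv Φ r‖ ≤ K) (c₀ c₁ c₂ : ℂ) :
    ∃ K' : ℝ, ∀ r ∈ Ioc R' r₁, ‖phc 0 b' Φ c₀ c₁ c₂ r‖ ≤ K' := by
  refine ⟨‖c₀‖ * K + ‖c₁‖ * (‖-((0 : ℝ) : ℂ) + Complex.I * b'‖ * K + r₁ / 2 * K) + ‖c₂‖ * K,
    fun r hr => ?_⟩
  have r0 : 0 < r := hR'.trans hr.1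
  obtain ⟨h1, h2⟩ := h r hr
  have hK : 0 ≤ K := (norm_nonneg _).trans h1
  refine norm_add₃_le.trans (add_le_add (add_le_add ?_ ?_) ?_)
  · rw [ph0, norm_mul, norm_mul, Complex.norm_I, one_mul]
    gcongr
  · rw [ph1, norm_mul]
    gcongr
    refine (norm_sub_le _ _).trans (add_le_add ?_ ?_)
    · rw [norm_mul]
      gcongr
    · rw [norm_mul, norm_div, Complex.norm_real, Real.norm_of_nonneg r0.le]
      simp only [Complex.norm_ofNat]
      have := hr.2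
      exact mul_le_mul (by linarith) h2 (norm_nonneg _) (by linarith)
  · rw [ph2, norm_mul]
    gcongr

theorem BC_sq {R' r₁ C : ℝ} (hr₁ : R' < r₁) {u : ℝ → ℂ}
    (h : ∀ r ∈ Ioc R' r₁, ‖u r‖ ^ 2 ≤ C * (r - R')) : Tendsto u (𝓝[>] R') (𝓝 0) := by
  have t1 : Tendsto (fun r : ℝ => C * (r - R')) (𝓝[>] R') (𝓝 0) := by
    have : Tendsto (fun r : ℝ => C * (r - R')) (𝓝 R') (𝓝 (C * (R' - R'))) :=
      (by fun_prop : Continuous fun r : ℝ => C * (r - R')).tendsto R'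
    rw [sub_self, mul_zero] at this
    exact this.mono_left nhdsWithin_le_nhds
  have t2 : Tendsto (fun r => ‖u r‖ ^ 2) (𝓝[>] R') (𝓝 0) := by
    refine squeeze_zero' (Eventually.of_forall fun r => by positivity) ?_ t1
    filter_upwards [Ioc_mem_nhdsGT hr₁] with r hr using h r hr
  rw [tendsto_zero_iff_norm_tendsto_zero]
  have := t2.sqrt
  simpa using this

theorem BC_bz {R' r₁ K : ℝ} (hr₁ : R' < r₁) {A z : ℝ → ℂ} (hA : ∀ r ∈ Ioc R' r₁, ‖A r‖ ≤ K)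
    (hz : Tendsto z (𝓝[>] R') (𝓝 0)) : Tendsto (fun r => A r * z r) (𝓝[>] R') (𝓝 0) := by
  refine Filter.isBoundedUnder_le_mul_tendsto_zero ⟨K, ?_⟩ hz
  rw [eventually_map]
  filter_upwards [Ioc_mem_nhdsGT hr₁] with r hr using hA r hr

/-- Pass to the limit k → ∞ in the two inequalities at a fixed r ∈ (R',r₁] (eventually R(ν k) ≤ r; `deriv_eta` expresses ϑ' through f,f',g,g',Q,Q'; Φ r ≠ 0), then δ → 0:
|η∞(r)|² ≤ C(r-R'), |ϑ∞' - mϑ∞/r|² ≤ C(r-R').  F, F', G, G' are bounded on (R',r₁] (`ode_bdd`; Φ, Φ' are bounded there: continuous with limits at R'), Φ → 1, Φ' → 0, so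
F + Ḡ = 2η∞ + F(1-1/Φ) + Ḡ(1-1/Φ̄) → 0 and similarly for the derivative condition. -/
theorem bc_lim {ν : ℕ → ℕ} {m : ℕ} {f g : ℕ → ℝ → ℂ} {b' R' : ℝ} {lam' c₀' c₁' c₂' : ℂ} {Φ F G : ℝ → ℂ}
    (hP : ∀ᶠ k in atTop, Prof (ν k) (b (ν k)) (q (ν k)) ∧ ∀ r : ℝ, 0 ≤ r → Qr (q (ν k)) r ≠ 0)
    (hf : ∀ k, RadAdm (f k)) (hg : ∀ k, RadAdm (g k))
    (hR : Tendsto (fun k => R (ν k)) atTop (𝓝 R')) (hR' : 0 < R')
    (hL : Lims q ν m f g b' R' lam' c₀' c₁' c₂' Φ F G)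
    (h1 : Tendsto Φ (𝓝[>] R') (𝓝 1)) (h2 : Tendsto (deriv Φ) (𝓝[>] R') (𝓝 0))
    {r₁ C : ℝ} (hr₁ : R' < r₁) (hne : ∀ r, R' < r → r ≤ r₁ → Φ r ≠ 0)
    (hb : ∀ δ : ℝ, 0 < δ → ∀ᶠ k in atTop, ∀ r ∈ Icc (R (ν k)) r₁,
        ‖eta (Qr (q (ν k))) (f k) (g k) r‖ ^ 2 ≤ C * (δ + (r - R (ν k))) ∧
        ‖deriv (the (Qr (q (ν k))) (f k) (g k)) r - (m : ℂ) / r * the (Qr (q (ν k))) (f k) (g k) r‖ ^ 2
          ≤ C * (δ + (r - R (ν k)))) :
    Tendsto (fun r => F r + conj (G r)) (𝓝[>] R') (𝓝 0) ∧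
    Tendsto (fun r => (deriv F r - conj (deriv G r)) - (m : ℂ) / r * (F r - conj (G r))) (𝓝[>] R') (𝓝 0) := by
  obtain ⟨K0, hK0⟩ := BC_bdd (m := 0) (α := -Complex.I * b') (e := fun _ => 0) (K := 0) hR' hr₁ hL.sΦ
    (fun r hr => by rw [hL.oΦ r hr, add_zero]) (fun r _ => by simp)
  obtain ⟨K1, hK1⟩ := BC_phc_bdd hR' b' hK0 c₀' c₁' c₂'
  obtain ⟨K2, hK2⟩ := BC_phc_bdd hR' b' hK0 (conj c₀') (conj c₁') (conj c₂')
  obtain ⟨KF, hKF⟩ := BC_bdd hR' hr₁ hL.sF hL.oF hK1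
  obtain ⟨KG, hKG⟩ := BC_bdd hR' hr₁ hL.sG hL.oG hK2
  set η : ℝ → ℂ := fun r => (F r / Φ r + conj (G r) / conj (Φ r)) / 2 with hη
  set T : ℝ → ℂ := fun r => ((deriv F r - deriv Φ r / Φ r * F r) / Φ r
      - (conj (deriv G r) - conj (deriv Φ r / Φ r) * conj (G r)) / conj (Φ r)) / (2 * Complex.I)
    - (m : ℂ) / r * ((F r / Φ r - conj (G r) / conj (Φ r)) / (2 * Complex.I)) with hT
  have cj : ∀ {u : ℕ → ℂ} {v : ℂ}, Tendsto u atTop (𝓝 v) →
      Tendsto (fun k => conj (u k)) atTop (𝓝 (conj v)) := fun h =>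
    (Complex.continuous_conj.tendsto _).comp h
  have key : ∀ r ∈ Ioc R' r₁, ‖η r‖ ^ 2 ≤ C * (r - R') ∧ ‖T r‖ ^ 2 ≤ C * (r - R') := by
    intro r hr
    have n0 := hne r hr.1 hr.2
    have n1 : conj (Φ r) ≠ 0 := by simpa using n0
    have tQ := hL.tQ r hr.1
    have tQ' := hL.tQ' r hr.1
    have tf := hL.tf r hr.1
    have tf' := hL.tf' r hr.1
    have tg : Tendsto (fun k => g k r) atTop (𝓝 (conj (G r))) := by
      simpa using cj (hL.tg r hr.1)
    have tg' : Tendsto (fun k => deriv (g k) r) atTop (𝓝 (conj (deriv G r))) := by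
      simpa using cj (hL.tg' r hr.1)
    have t1 : Tendsto (fun k => eta (Qr (q (ν k))) (f k) (g k) r) atTop (𝓝 (η r)) :=
      ((tf.div tQ n0).add (tg.div (cj tQ) n1)).div_const 2
    have t2 : Tendsto (fun k => deriv (the (Qr (q (ν k))) (f k) (g k)) r
        - (m : ℂ) / r * the (Qr (q (ν k))) (f k) (g k) r) atTop (𝓝 (T r)) := by
      have t3 := ((((tf'.sub ((tQ'.div tQ n0).mul tf)).div tQ n0).sub
        ((tg'.sub ((cj (tQ'.div tQ n0)).mul tg)).div (cj tQ) n1)).div_const (2 * Complex.I)).sub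
        ((((tf.div tQ n0).sub (tg.div (cj tQ) n1)).div_const (2 * Complex.I)).const_mul
          ((m : ℂ) / r))
      refine t3.congr' ?_
      filter_upwards [hP] with k hk
      rw [(deriv_eta (hk.2 r (hR'.trans hr.1).le)
        ((contDiff_Qr hk.1).differentiable (by simp) r)
        ((hf k).smooth.differentiable (by simp) r) ((hg k).smooth.differentiable (by simp) r)).2]
      rfl
    have hδ : ∀ δ : ℝ, 0 < δ → ‖η r‖ ^ 2 ≤ C * (δ + (r - R')) ∧ ‖T r‖ ^ 2 ≤ C * (δ + (r - R')) := by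
      intro δ hδ
      have tR : Tendsto (fun k => C * (δ + (r - R (ν k)))) atTop (𝓝 (C * (δ + (r - R')))) :=
        ((hR.const_sub r).const_add δ).const_mul C
      have ev : ∀ᶠ k in atTop, R (ν k) ≤ r := hR.eventually (Iic_mem_nhds hr.1)
      constructor
      · refine le_of_tendsto_of_tendsto (t1.norm.pow 2) tR ?_
        filter_upwards [hb δ hδ, ev] with k hk hk'
        exact (hk r ⟨hk', hr.2⟩).1
      · refine le_of_tendsto_of_tendsto (t2.norm.pow 2) tR ?_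
        filter_upwards [hb δ hδ, ev] with k hk hk'
        exact (hk r ⟨hk', hr.2⟩).2
    have tδ : Tendsto (fun δ : ℝ => C * (δ + (r - R'))) (𝓝[>] 0) (𝓝 (C * (r - R'))) := by
      have : Tendsto (fun δ : ℝ => C * (δ + (r - R'))) (𝓝 0) (𝓝 (C * (0 + (r - R')))) :=
        (by fun_prop : Continuous fun δ : ℝ => C * (δ + (r - R'))).tendsto 0
      rw [zero_add] at this
      exact this.mono_left nhdsWithin_le_nhds
    constructor
    · refine ge_of_tendsto tδ ?_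
      filter_upwards [self_mem_nhdsWithin] with δ h using (hδ δ h).1
    · refine ge_of_tendsto tδ ?_
      filter_upwards [self_mem_nhdsWithin] with δ h using (hδ δ h).2
  have tη := BC_sq hr₁ fun r hr => (key r hr).1
  have tT := BC_sq hr₁ fun r hr => (key r hr).2
  have tp : Tendsto (fun r => 1 - (Φ r)⁻¹) (𝓝[>] R') (𝓝 0) := by
    simpa using (h1.inv₀ one_ne_zero).const_sub 1
  have ts : Tendsto (fun r => deriv Φ r * (Φ r)⁻¹ * (Φ r)⁻¹) (𝓝[>] R') (𝓝 0) := by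
    simpa using (h2.mul (h1.inv₀ one_ne_zero)).mul (h1.inv₀ one_ne_zero)
  have cj' : ∀ {u : ℝ → ℂ}, Tendsto u (𝓝[>] R') (𝓝 0) →
      Tendsto (fun k => conj (u k)) (𝓝[>] R') (𝓝 0) := fun h => by
    have := (Complex.continuous_conj.tendsto _).comp h
    rwa [map_zero] at this
  have tm : Tendsto (fun r : ℝ => (m : ℂ) / r) (𝓝[>] R') (𝓝 ((m : ℂ) / R')) :=
    (tendsto_const_nhds.div (Complex.continuous_ofReal.tendsto R')
      (by exact_mod_cast hR'.ne')).mono_left nhdsWithin_le_nhds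
  have a1 := BC_bz hr₁ (fun r hr => (hKF r hr).1) tp
  have a2 := cj' (BC_bz hr₁ (fun r hr => (hKG r hr).1) tp)
  have a3 := BC_bz hr₁ (fun r hr => (hKF r hr).2) tp
  have a4 := cj' (BC_bz hr₁ (fun r hr => (hKG r hr).2) tp)
  have a5 := BC_bz hr₁ (fun r hr => (hKF r hr).1) ts
  have a6 := cj' (BC_bz hr₁ (fun r hr => (hKG r hr).1) ts)
  constructor
  · have := ((tη.const_mul 2).add a1).add a2
    simp only [mul_zero, add_zero] at this
    refine this.congr fun r => ?_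
    simp only [hη, map_mul, map_sub, map_one, map_inv₀, div_eq_mul_inv]
    ring
  · have := (((((tT.const_mul (2 * Complex.I)).add a3).sub a4).add a5).sub a6).sub
      (tm.mul (a1.sub a2))
    simp only [mul_zero, add_zero, sub_zero] at this
    refine this.congr fun r => ?_
    have hI : (2 * Complex.I) * (2 * Complex.I)⁻¹ = 1 := mul_inv_cancel₀ (by simp)
    simp only [hT, map_mul, map_sub, map_one, map_inv₀, div_eq_mul_inv]
    linear_combination ((deriv F r - deriv Φ r * (Φ r)⁻¹ * F r) * (Φ r)⁻¹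
      - (conj (deriv G r) - conj (deriv Φ r) * (conj (Φ r))⁻¹ * conj (G r)) * (conj (Φ r))⁻¹
      - (m : ℂ) * (r : ℂ)⁻¹ * (F r * (Φ r)⁻¹ - conj (G r) * (conj (Φ r))⁻¹)) * hI

/-- the Cauchy data of the modes as a function of the 2-jet of the profile -/
def BC_datF (a b r : ℝ) (Q0 Q1 Q2 d₀ d₁ d₂ : ℂ) : ℂ × ℂ × ℂ × ℂ :=
  (d₀ * (Complex.I * Q0) + d₁ * ((-(a : ℂ) + Complex.I * b) * Q0 - (r : ℂ) / 2 * Q1) + d₂ * Q1,
    d₀ * (Complex.I * Q1) + d₁ * ((-(a : ℂ) + Complex.I * b) * Q1 - (1 / 2 * Q1 + (r : ℂ) / 2 * Q2))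
      + d₂ * Q2,
    conj (conj d₀ * (Complex.I * Q0) + conj d₁ * ((-(a : ℂ) + Complex.I * b) * Q0 - (r : ℂ) / 2 * Q1)
      + conj d₂ * Q1),
    conj (conj d₀ * (Complex.I * Q1) + conj d₁ * ((-(a : ℂ) + Complex.I * b) * Q1
      - (1 / 2 * Q1 + (r : ℂ) / 2 * Q2)) + conj d₂ * Q2))

theorem BC_phc_deriv (a b : ℝ) {Q : ℝ → ℂ} {r : ℝ} (h1 : DifferentiableAt ℝ Q r)
    (h2 : DifferentiableAt ℝ (deriv Q) r) (d₀ d₁ d₂ : ℂ) :
    HasDerivAt (phc a b Q d₀ d₁ d₂) (d₀ * (Complex.I * deriv Q r) + d₁ * ((-(a : ℂ) + Complex.I * b)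
      * deriv Q r - (1 / 2 * deriv Q r + (r : ℂ) / 2 * deriv (deriv Q) r))
      + d₂ * deriv (deriv Q) r) r := by
  have h0 : HasDerivAt (fun s : ℝ => (s : ℂ) / 2) (1 / 2) r :=
    (Complex.ofRealCLM.hasDerivAt (x := r)).div_const 2
  exact (((h1.hasDerivAt.const_mul Complex.I).const_mul d₀).add
    (((h1.hasDerivAt.const_mul _).sub (h0.mul h2.hasDerivAt)).const_mul d₁)).add
    (h2.hasDerivAt.const_mul d₂)

theorem BC_dat (a b : ℝ) {Q : ℝ → ℂ} {r : ℝ} (h1 : DifferentiableAt ℝ Q r)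
    (h2 : DifferentiableAt ℝ (deriv Q) r) (d₀ d₁ d₂ : ℂ) :
    dat (phc a b Q d₀ d₁ d₂) (fun s => conj (phc a b Q (conj d₀) (conj d₁) (conj d₂) s)) r =
      BC_datF a b r (Q r) (deriv Q r) (deriv (deriv Q) r) d₀ d₁ d₂ := by
  have e2 := (BC_phc_deriv a b h1 h2 (conj d₀) (conj d₁) (conj d₂)).star.deriv
  rw [dat, (BC_phc_deriv a b h1 h2 d₀ d₁ d₂).deriv]
  refine Prod.ext rfl (Prod.ext rfl (Prod.ext rfl ?_))
  exact e2

/-- Cauchy data of the limit modes are independent.  m = 0: with w = Φ'/Φ = x+iy, values give d₀ i + d₁(ib - r w/2) = 0 = -d₀ i + d₁(-ib - r w̄/2), so d₁ x = 0; the derivative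
equations give d₁ (r w)' = 0; if d₁ ≠ 0 then x = 0, w' = -w/r and the Riccati equation w' = -w² - (11/r + ir/2)w - b forces y = 0, b = 0.  m = 1: d₂Φ' = d₂Φ'' = 0 and the ODE gives d₂ bΦ = 0. -/
theorem indep {m : ℕ} {b' R' r₁ : ℝ} {Φ : ℝ → ℂ} (hb : b' ≠ 0) (hR' : 0 < R') (hr₁ : R' < r₁)
    (hΦ : ContDiffOn ℝ 12 Φ (Ioi R'))
    (hode : ∀ r, R' < r → Complex.I * DD 0 Φ r = (-Complex.I * b') * Φ r + (r : ℂ) / 2 * deriv Φ r)
    (hne : Φ r₁ ≠ 0) {d₀ d₁ d₂ : ℂ} (hd : Allowed m d₀ d₁ d₂)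
    (h : dat (phc 0 b' Φ d₀ d₁ d₂) (fun r => conj (phc 0 b' Φ (conj d₀) (conj d₁) (conj d₂) r)) r₁ = 0) :
    d₀ = 0 ∧ d₁ = 0 ∧ d₂ = 0 := by
  have r0 : 0 < r₁ := hR'.trans hr₁
  have rc : (r₁ : ℂ) ≠ 0 := by exact_mod_cast r0.ne'
  have bc : (b' : ℂ) ≠ 0 := by exact_mod_cast hb
  rw [BC_dat _ _ (BC_diff hΦ hr₁).1 (BC_diff hΦ hr₁).2, BC_dd (hode r₁ hr₁)] at h
  simp only [BC_datF, Prod.mk_eq_zero, map_eq_zero] at h
  obtain ⟨e1, e2, e3, -⟩ := h
  generalize Φ r₁ = Q0 at *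
  generalize deriv Φ r₁ = Q1 at *
  by_cases h0 : m = 0
  · have d2 : d₂ = 0 := hd.2 (by omega)
    subst d2
    obtain ⟨w, rfl⟩ : ∃ w, Q1 = w * Q0 := ⟨Q1 / Q0, by field_simp⟩
    have f1 : d₀ * Complex.I + d₁ * (Complex.I * b' - r₁ / 2 * w) = 0 := by
      apply mul_right_cancel₀ hne
      simp only [Complex.ofReal_zero] at e1
      linear_combination e1
    have f3 : conj d₀ * Complex.I + conj d₁ * (Complex.I * b' - r₁ / 2 * w) = 0 := by
      apply mul_right_cancel₀ hne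
      simp only [Complex.ofReal_zero, map_zero] at e3
      linear_combination e3
    have f3' := congrArg conj f3
    simp only [map_add, map_mul, map_sub, map_div₀, Complex.conj_conj, Complex.conj_I,
      Complex.conj_ofReal, map_zero, map_ofNat] at f3'
    have f2 : d₁ * (r₁ * w ^ 2 / 2 + 5 * w + Complex.I * r₁ ^ 2 * w / 4 + r₁ * b' / 2) = 0 := by
      apply mul_right_cancel₀ hne
      simp only [Complex.ofReal_zero, Nat.cast_zero, zero_mul, zero_div] at e2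
      have hr : (r₁ : ℂ) * (11 / r₁) = 11 := by field_simp
      linear_combination e2 - w * Q0 * f1 - d₁ * w * Q0 / 2 * hr
        + d₁ * r₁ * b' * Q0 / 2 * Complex.I_mul_I
    have d1 : d₁ = 0 := by
      by_contra d1
      have g1 : w + conj w = 0 := by
        apply mul_left_cancel₀ (mul_ne_zero d1 rc)
        linear_combination (-2) * f1 - 2 * f3'
      have g2 := (mul_eq_zero.1 f2).resolve_left d1
      have x0 : w.re = 0 := by
        have := congrArg Complex.re g1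
        simp at this
        linarith
      have y0 : w.im = 0 := by
        have := congrArg Complex.im g2
        simp [pow_two, x0] at this
        exact this
      have w0 : w = 0 := Complex.ext x0 y0
      rw [w0] at g2
      simp [rc, bc] at g2
    subst d1
    simp at f1
    exact ⟨f1, rfl, rfl⟩
  · obtain ⟨rfl, rfl⟩ := hd.1 h0
    refine ⟨rfl, rfl, ?_⟩
    apply mul_right_cancel₀ (mul_ne_zero bc hne)
    simp only [Nat.cast_zero, zero_mul, zero_div] at e1 e2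
    linear_combination (-1) * e2 - (11 / (r₁ : ℂ) + Complex.I * r₁ / 2) * e1
      + d₂ * b' * Q0 * Complex.I_mul_I

/-- the Cauchy data of the modes converge (Q'' through `Qr_ode`, V → 0 by `Fam.tiny`, a → 0; Φ'' through the limit equation) -/
theorem dat_phc_lim (hF : Fam b R q) {ν : ℕ → ℕ} (hν : Tendsto ν atTop atTop) {b' R' r₁ : ℝ}
    (hb : Tendsto (fun k => b (ν k)) atTop (𝓝 b')) (hR : Tendsto (fun k => R (ν k)) atTop (𝓝 R'))
    (hR' : 0 < R') (hr₁ : R' < r₁) {Φ : ℝ → ℂ} (hΦ : ContDiffOn ℝ 12 Φ (Ioi R'))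
    (hode : ∀ r, R' < r → Complex.I * DD 0 Φ r = (-Complex.I * b') * Φ r + (r : ℂ) / 2 * deriv Φ r)
    (h0 : Tendsto (fun k => Qr (q (ν k)) r₁) atTop (𝓝 (Φ r₁)))
    (h1 : Tendsto (fun k => deriv (Qr (q (ν k))) r₁) atTop (𝓝 (deriv Φ r₁))) (d₀ d₁ d₂ : ℂ) :
    Tendsto (fun k => dat (phc (aa (ν k)) (b (ν k)) (Qr (q (ν k))) d₀ d₁ d₂)
      (fun r => conj (phc (aa (ν k)) (b (ν k)) (Qr (q (ν k))) (conj d₀) (conj d₁) (conj d₂) r)) r₁) atTop
      (𝓝 (dat (phc 0 b' Φ d₀ d₁ d₂) (fun r => conj (phc 0 b' Φ (conj d₀) (conj d₁) (conj d₂) r)) r₁)) := by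
  have r0 : 0 < r₁ := hR'.trans hr₁
  have ta : Tendsto (fun k => aa (ν k)) atTop (𝓝 0) := by
    have : Tendsto (fun n : ℕ => 1 / (2 * (n : ℝ))) atTop (𝓝 0) :=
      tendsto_const_nhds.div_atTop (tendsto_natCast_atTop_atTop.const_mul_atTop two_pos)
    exact this.comp hν
  have tV : Tendsto (fun k => V1 (ν k) (Qr (q (ν k)) r₁)) atTop (𝓝 0) := by
    rw [Metric.tendsto_nhds]
    intro ε hε
    have hp : 0 < r₁ ^ (-(2 : ℝ) - (0 : ℕ)) := Real.rpow_pos_of_pos r0 _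
    have ev : ∀ᶠ k in atTop, R (ν k) ≤ (R' + r₁) / 2 := hR.eventually (Iic_mem_nhds (by linarith))
    filter_upwards [hν.eventually (hF.tiny ((r₁ - R') / 2) (by linarith)
      (ε / 2 / r₁ ^ (-(2 : ℝ) - (0 : ℕ))) (by positivity)), ev] with k hk hk'
    have := (hk 0 (Nat.zero_le _) r₁ (by linarith)).1
    rw [iteratedDeriv_zero, div_mul_cancel₀ _ hp.ne'] at this
    rw [dist_zero_right]
    linarith
  have tN : Tendsto (fun k => NL (ν k) (Qr (q (ν k)) r₁)) atTop (𝓝 0) := by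
    have t1 := tV.norm.mul h0.norm
    rw [norm_zero, zero_mul] at t1
    refine squeeze_zero_norm (fun k => ?_) t1
    rw [NL_eq_norm, V1_eq_norm, norm_mul, Complex.norm_real, Complex.norm_real,
      Real.norm_of_nonneg (by positivity), Real.norm_of_nonneg (by positivity)]
    gcongr
    have : (0 : ℝ) ≤ ‖Qr (q (ν k)) r₁‖ ^ (2 * ν k) := by positivity
    have h2 : (0 : ℝ) ≤ (ν k : ℝ) := Nat.cast_nonneg _
    nlinarith
  have tb : Tendsto (fun k => (b (ν k) : ℂ)) atTop (𝓝 (b' : ℂ)) :=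
    (Complex.continuous_ofReal.tendsto _).comp hb
  have ta' : Tendsto (fun k => (aa (ν k) : ℂ)) atTop (𝓝 ((0 : ℝ) : ℂ)) :=
    (Complex.continuous_ofReal.tendsto _).comp ta
  have h2 : Tendsto (fun k => deriv (deriv (Qr (q (ν k)))) r₁) atTop (𝓝 (deriv (deriv Φ) r₁)) := by
    have t := (((h1.const_mul (-(11 / (r₁ : ℂ) + Complex.I * r₁ / 2))).sub
      ((tb.add (ta'.const_mul Complex.I)).mul h0)).add tN)
    have e : deriv (deriv Φ) r₁ = -(11 / (r₁ : ℂ) + Complex.I * r₁ / 2) * deriv Φ r₁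
        - ((b' : ℂ) + Complex.I * ((0 : ℝ) : ℂ)) * Φ r₁ + 0 := by
      rw [BC_dd (hode r₁ hr₁)]
      simp only [Nat.cast_zero, zero_mul, zero_div, Complex.ofReal_zero]
      linear_combination (b' : ℂ) * Φ r₁ * Complex.I_mul_I
    rw [e]
    refine t.congr' ?_
    filter_upwards [hν.eventually hF.prof] with k hk
    rw [Qr_ode hk r0]
  rw [BC_dat _ _ (BC_diff hΦ hr₁).1 (BC_diff hΦ hr₁).2]
  have hc : Continuous fun p : ℝ × ℝ × ℂ × ℂ × ℂ =>
      BC_datF p.1 p.2.1 r₁ p.2.2.1 p.2.2.2.1 p.2.2.2.2 d₀ d₁ d₂ := by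
    unfold BC_datF
    fun_prop
  have t := (hc.tendsto _).comp (ta.prodMk_nhds (hb.prodMk_nhds (h0.prodMk_nhds (h1.prodMk_nhds h2))))
  refine t.congr' ?_
  filter_upwards [hν.eventually hF.prof] with k hk
  have c := contDiff_Qr hk
  rw [BC_dat _ _ (c.differentiable (by simp) r₁)
    ((contDiff_infty_iff_deriv.1 c).2.differentiable (by simp) r₁)]
  rfl

end

end Crest.Agent.R086.M
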