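import Crest.Agent.R086.Defs

/-! # Row 86, part M-a: definitions (see DESIGN.md, section M) -/

open MeasureTheory Set Filter Topology
open scoped ContDiff ComplexConjugate

namespace Crest.Agent.R086.M

noncomputable section

/-- (L - λ)(f,g) = c₀φ₀ + c₁φ₁ + c₂φ₂ on r > 0 -/
def Eqn (n : ℕ) (b : ℝ) (q : ℝ → ℂ) (m : ℕ) (lam c₀ c₁ c₂ : ℂ) (f g : ℝ → ℂ) : Prop :=
  ∀ r : ℝ, 0 < r → L1 n b q m f g r - lam * f r = phc (aa n) b (Qr q) c₀ c₁ c₂ r ∧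
    L2 n b q m f g r - lam * g r = conj (phc (aa n) b (Qr q) (conj c₀) (conj c₁) (conj c₂) r)

def MM (m : ℕ) : ℝ := (m : ℝ) * (m + 10)
/-- the frequency β = 1 + |Im λ| + M -/
def bet (m : ℕ) (lam : ℂ) : ℝ := 1 + |lam.im| + MM m
/-- e(r) = β(|f|²+|g|²) + |f'|² + |g'|² -/
def eB (m : ℕ) (lam : ℂ) (f g : ℝ → ℂ) (r : ℝ) : ℝ :=
  bet m lam * (‖f r‖ ^ 2 + ‖g r‖ ^ 2) + ‖deriv f r‖ ^ 2 + ‖deriv g r‖ ^ 2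

/-- data of the hydrodynamic system -/
structure HD where
  a : ℝ
  M : ℝ
  lam : ℂ
  N : ℝ → ℝ
  x : ℝ → ℝ
  x' : ℝ → ℝ
  v : ℝ → ℝ
  W : ℝ → ℝ
  W' : ℝ → ℝ
  η : ℝ → ℂ
  η' : ℝ → ℂ
  ϑ : ℝ → ℂ
  ϑ' : ℝ → ℂ
  F₁ : ℝ → ℂ
  F₂ : ℝ → ℂ

/-- the hydrodynamic system: μ = r¹¹N, μ' = μ(11/r+2x), (μv)' = (6-2a)μ,
λη + vη' = -(μϑ')'/μ + Mϑ/r² + F₁,  λϑ + vϑ' = (μη')'/μ - (M/r² + W)η + F₂ -/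
structure HD.Ok (D : HD) : Prop where
  Npos : ∀ r, 0 < D.N r
  dN : ∀ r, HasDerivAt D.N (2 * D.x r * D.N r) r
  dx : ∀ r, HasDerivAt D.x (D.x' r) r
  cx' : Continuous D.x'
  cv : Continuous D.v
  dv : ∀ r, 0 < r → HasDerivAt D.v (6 - 2 * D.a - (11 / r + 2 * D.x r) * D.v r) r
  dW : ∀ r, HasDerivAt D.W (D.W' r) r
  cW' : Continuous D.W'
  dη : ∀ r, HasDerivAt D.η (D.η' r) r
  dϑ : ∀ r, HasDerivAt D.ϑ (D.ϑ' r) r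
  cη' : Continuous D.η'
  cϑ' : Continuous D.ϑ'
  cF₁ : Continuous D.F₁
  cF₂ : Continuous D.F₂
  dη' : ∀ r, 0 < r → HasDerivAt D.η' (-((11 / r + 2 * D.x r : ℝ) : ℂ) * D.η' r
    + ((D.M / r ^ 2 + D.W r : ℝ) : ℂ) * D.η r + D.lam * D.ϑ r + D.v r * D.ϑ' r - D.F₂ r) r
  dϑ' : ∀ r, 0 < r → HasDerivAt D.ϑ' (-((11 / r + 2 * D.x r : ℝ) : ℂ) * D.ϑ' r
    + ((D.M / r ^ 2 : ℝ) : ℂ) * D.ϑ r + D.F₁ r - D.lam * D.η r - D.v r * D.η' r) r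

namespace HD

variable (D : HD)

/-- μ = r¹¹ N -/
def mu (r : ℝ) : ℝ := r ^ 11 * D.N r
/-- energy density -/
def den (r : ℝ) : ℝ := D.mu r * (‖D.η' r‖ ^ 2 + ‖D.ϑ' r‖ ^ 2)
  + D.M * r ^ 9 * D.N r * (‖D.η r‖ ^ 2 + ‖D.ϑ r‖ ^ 2) + D.mu r * D.W r * ‖D.η r‖ ^ 2
/-- energy on [0,r] -/
def En (r : ℝ) : ℝ := ∫ s in (0 : ℝ)..r, D.den s
/-- boundary size -/
def eb (r : ℝ) : ℝ := (1 + |D.lam.im| + D.M) * (‖D.η r‖ ^ 2 + ‖D.ϑ r‖ ^ 2) + ‖D.η' r‖ ^ 2 + ‖D.ϑ' r‖ ^ 2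

/-- boundary function of the energy identity -/
def bE (r : ℝ) : ℝ :=
  D.mu r * (D.lam * (D.η r * conj (D.η' r) + D.ϑ r * conj (D.ϑ' r))).re
    + D.mu r * D.v r * (‖D.η' r‖ ^ 2 + ‖D.ϑ' r‖ ^ 2) / 2
    - D.v r * (D.M * r ^ 9 * D.N r * (‖D.η r‖ ^ 2 + ‖D.ϑ r‖ ^ 2) + D.mu r * D.W r * ‖D.η r‖ ^ 2) / 2
/-- its derivative when F = 0 (v' written out) -/
def dE (r : ℝ) : ℝ :=
  D.mu r * (D.lam.re + 3 - D.a - (11 / r + 2 * D.x r) * D.v r) * (‖D.η' r‖ ^ 2 + ‖D.ϑ' r‖ ^ 2)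
    + (D.lam.re - 3 + D.a + D.v r / r) * (D.M * r ^ 9 * D.N r) * (‖D.η r‖ ^ 2 + ‖D.ϑ r‖ ^ 2)
    + D.mu r * ((D.lam.re - 3 + D.a) * D.W r - D.v r * D.W' r / 2) * ‖D.η r‖ ^ 2

/-- boundary function of the Morawetz identity (X = r∂ + 11/2) -/
def bM (r : ℝ) : ℝ :=
  r * D.mu r * (‖D.η' r‖ ^ 2 + ‖D.ϑ' r‖ ^ 2) / 2
    + 11 / 2 * D.mu r * (D.η' r * conj (D.η r) + D.ϑ' r * conj (D.ϑ r)).re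
    - D.M * r ^ 10 * D.N r * (‖D.η r‖ ^ 2 + ‖D.ϑ r‖ ^ 2) / 2 - r * D.mu r * D.W r * ‖D.η r‖ ^ 2 / 2
    + 11 / 2 * D.mu r * D.v r * (D.η r * conj (D.ϑ r)).re
    - r * D.mu r * (D.lam * D.ϑ r * conj (D.η r)).re
    + (1 + 2 * r * D.x r) * D.mu r * (D.η' r * conj (D.η r)).re
/-- its derivative -/
def dM (r : ℝ) : ℝ :=
  (1 / 2 - r * D.x r) * (D.mu r * ‖D.ϑ' r‖ ^ 2 + D.M * r ^ 9 * D.N r * ‖D.ϑ r‖ ^ 2)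
    + (3 / 2 + r * D.x r) * (D.mu r * ‖D.η' r‖ ^ 2 + D.M * r ^ 9 * D.N r * ‖D.η r‖ ^ 2)
    + D.mu r * ((1 / 2 + r * D.x r) * D.W r - r * D.W' r / 2) * ‖D.η r‖ ^ 2
    + D.mu r * ((11 / 2 * (6 - 2 * D.a) - 11 * D.lam.re) * (D.η r * conj (D.ϑ r)).re
      + ((12 + 2 * r * D.x r) * D.v r - 2 * D.lam.re * r) * (D.η r * conj (D.ϑ' r)).re
      + (2 * D.x r + 2 * r * D.x' r) * (D.η' r * conj (D.η r)).re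
      + (D.F₁ r * conj (r * D.ϑ' r + 11 / 2 * D.ϑ r)
        - D.F₂ r * conj (r * D.η' r + ((13 / 2 + 2 * r * D.x r : ℝ) : ℂ) * D.η r)).re)

/-- boundary function for the inner boundary condition (M = m(m+10)) -/
def bJ (m : ℕ) (r : ℝ) : ℂ :=
  ((r ^ (m + 10) * D.N r : ℝ) : ℂ) * (r * D.ϑ' r - m * D.ϑ r + r * D.v r * D.η r)
def dJ (m : ℕ) (r : ℝ) : ℂ :=
  ((r ^ (m + 10) * D.N r : ℝ) : ℂ) * (r * (D.F₁ r + (6 - 2 * D.a - D.lam) * D.η r)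
    + m * (D.v r * D.η r - 2 * D.x r * D.ϑ r))

/-- the hypotheses near the plateau, on [0,R'] -/
structure Near (C₀ nn R R' Φ : ℝ) : Prop where
  hR : 3 ≤ R
  hRR : R ≤ R'
  hR4 : R' ≤ 4
  a0 : 0 ≤ D.a
  a1 : D.a ≤ 1 / 2
  M0 : 0 ≤ D.M
  s0 : 0 ≤ D.lam.re
  s1 : D.lam.re ≤ 33 / 10
  hN : ∀ r ∈ Icc 0 R', 1 / C₀ ≤ D.N r ∧ D.N r ≤ C₀
  hx : ∀ r ∈ Icc 0 R', |D.x r| ≤ 1 / 100
  hx' : ∀ r ∈ Icc 0 R', |D.x' r| ≤ C₀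
  hv : ∀ r ∈ Icc 0 R', 0 ≤ D.v r ∧ D.v r ≤ 3 / 5 * r
  hW : ∀ r ∈ Icc 0 R', 0 ≤ D.W r ∧ r * D.W' r ≤ 2 / 5 * D.W r
  hWn : ∀ r ∈ Icc 0 R, nn ≤ D.W r
  hF : ∀ r ∈ Icc 0 R', ‖D.F₁ r‖ ≤ Φ ∧ ‖D.F₂ r‖ ≤ Φ

end HD

/-- η = (f/Q + g/Q̄)/2 -/
def eta (Q f g : ℝ → ℂ) (r : ℝ) : ℂ := (f r / Q r + g r / conj (Q r)) / 2
/-- ϑ = (f/Q - g/Q̄)/(2i) -/
def the (Q f g : ℝ → ℂ) (r : ℝ) : ℂ := (f r / Q r - g r / conj (Q r)) / (2 * Complex.I)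

/-- the hydrodynamic data of a solution of `Eqn` -/
def mkD (n : ℕ) (b : ℝ) (q : ℝ → ℂ) (m : ℕ) (lam c₀ c₁ c₂ : ℂ) (f g : ℝ → ℂ) : HD where
  a := aa n
  M := MM m
  lam := lam
  N := fun r => ‖Qr q r‖ ^ 2
  x := xx q
  x' := deriv (xx q)
  v := fun r => r / 2 + 2 * yy q r
  W := fun r => 2 * n * ‖Qr q r‖ ^ (2 * n)
  W' := fun r => 2 * n * xx q r * (2 * n * ‖Qr q r‖ ^ (2 * n))
  η := eta (Qr q) f g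
  η' := deriv (eta (Qr q) f g)
  ϑ := the (Qr q) f g
  ϑ' := deriv (the (Qr q) f g)
  F₁ := fun r => c₁ * ((aa n + r * xx q r / 2 : ℝ) : ℂ) - c₂ * xx q r
  F₂ := fun r => -c₀ - c₁ * ((b - r * yy q r / 2 : ℝ) : ℂ) - c₂ * yy q r

/-- (H1) and (H2) of the interface with part M-b -/
def H12 (b R : ℕ → ℝ) (q : ℕ → ℝ → ℂ) : Prop :=
  ∃ η₀ C : ℝ, 0 < η₀ ∧ 0 < C ∧ ∀ᶠ n in atTop, ∀ (m : ℕ) (lam : ℂ) (f g : ℝ → ℂ),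
    0 ≤ lam.re → lam.re ≤ 33 / 10 → RadAdm f → RadAdm g → Eqn n (b n) (q n) m lam 0 0 0 f g →
    (∀ r ∈ Icc (R n) (R n + η₀),
      -(lam * (f r * conj (deriv f r) + g r * conj (deriv g r))).re ≤ C * eB m lam f g r) ∧
    (∀ r r₂ : ℝ, R n ≤ r → r ≤ r₂ → r₂ ≤ R n + η₀ → ‖f r‖ ^ 2 + ‖g r‖ ^ 2 ≤ C * eB m lam f g r₂)

/-- a sequence of solutions with convergent parameters -/
structure LimSeq (b R : ℕ → ℝ) (q : ℕ → ℝ → ℂ) (ν : ℕ → ℕ) (m : ℕ) (lam c₀ c₁ c₂ : ℕ → ℂ)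
    (f g : ℕ → ℝ → ℂ) (b' R' : ℝ) (lam' c₀' c₁' c₂' : ℂ) : Prop where
  hν : Tendsto ν atTop atTop
  hb : Tendsto (fun k => b (ν k)) atTop (𝓝 b')
  hR : Tendsto (fun k => R (ν k)) atTop (𝓝 R')
  hlam : Tendsto lam atTop (𝓝 lam')
  hc₀ : Tendsto c₀ atTop (𝓝 c₀')
  hc₁ : Tendsto c₁ atTop (𝓝 c₁')
  hc₂ : Tendsto c₂ atTop (𝓝 c₂')
  re0 : ∀ k, 0 ≤ (lam k).re ∧ (lam k).re ≤ 33 / 10
  allowed : ∀ k, Allowed m (c₀ k) (c₁ k) (c₂ k)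
  admf : ∀ k, RadAdm (f k)
  admg : ∀ k, RadAdm (g k)
  eqn : ∀ k, Eqn (ν k) (b (ν k)) (q (ν k)) m (lam k) (c₀ k) (c₁ k) (c₂ k) (f k) (g k)

/-- the limits on (R', ∞): free equations and pointwise convergence -/
structure Lims (q : ℕ → ℝ → ℂ) (ν : ℕ → ℕ) (m : ℕ) (f g : ℕ → ℝ → ℂ) (b' R' : ℝ)
    (lam' c₀' c₁' c₂' : ℂ) (Φ F G : ℝ → ℂ) : Prop where
  sΦ : ContDiffOn ℝ 12 Φ (Ioi R')
  sF : ContDiffOn ℝ 12 F (Ioi R')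
  sG : ContDiffOn ℝ 12 G (Ioi R')
  oΦ : ∀ r, R' < r → Complex.I * DD 0 Φ r = (-Complex.I * b') * Φ r + (r : ℂ) / 2 * deriv Φ r
  oF : ∀ r, R' < r → Complex.I * DD m F r = (lam' - Complex.I * b') * F r + (r : ℂ) / 2 * deriv F r
    + phc 0 b' Φ c₀' c₁' c₂' r
  oG : ∀ r, R' < r → Complex.I * DD m G r = (conj lam' - Complex.I * b') * G r + (r : ℂ) / 2 * deriv G r
    + phc 0 b' Φ (conj c₀') (conj c₁') (conj c₂') r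
  tQ : ∀ r, R' < r → Tendsto (fun k => Qr (q (ν k)) r) atTop (𝓝 (Φ r))
  tQ' : ∀ r, R' < r → Tendsto (fun k => deriv (Qr (q (ν k))) r) atTop (𝓝 (deriv Φ r))
  tf : ∀ r, R' < r → Tendsto (fun k => f k r) atTop (𝓝 (F r))
  tf' : ∀ r, R' < r → Tendsto (fun k => deriv (f k) r) atTop (𝓝 (deriv F r))
  tg : ∀ r, R' < r → Tendsto (fun k => conj (g k r)) atTop (𝓝 (G r))
  tg' : ∀ r, R' < r → Tendsto (fun k => conj (deriv (g k) r)) atTop (𝓝 (deriv G r))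

/-- what M-b delivers: high frequency -/
def HighStmt : Prop :=
  ∀ (b R : ℕ → ℝ) (q : ℕ → ℝ → ℂ), Fam b R q → H12 b R q → ∃ β₀ : ℝ, ∀ᶠ n in atTop,
    ∀ (m : ℕ) (lam : ℂ) (f g : ℝ → ℂ), 0 ≤ lam.re → lam.re ≤ 33 / 10 → β₀ ≤ bet m lam →
      RadAdm f → RadAdm g → Eqn n (b n) (q n) m lam 0 0 0 f g →
      ∃ r : ℝ, 0 < r ∧ f r = 0 ∧ deriv f r = 0 ∧ g r = 0 ∧ deriv g r = 0

/-- what M-b delivers: admissibility of the limits -/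
def AdmStmt : Prop :=
  ∀ (b R : ℕ → ℝ) (q : ℕ → ℝ → ℂ), Fam b R q → ∀ (ν : ℕ → ℕ) (m : ℕ) (lam c₀ c₁ c₂ : ℕ → ℂ)
    (f g : ℕ → ℝ → ℂ) (b' R' : ℝ) (lam' c₀' c₁' c₂' : ℂ) (Φ F G : ℝ → ℂ),
    LimSeq b R q ν m lam c₀ c₁ c₂ f g b' R' lam' c₀' c₁' c₂' →
    Lims q ν m f g b' R' lam' c₀' c₁' c₂' Φ F G →
    IntegrableOn (fun r : ℝ => r ^ 11 * ‖(DD 0)^[4] Φ r‖ ^ 2) (Ioi (R' + 1)) ∧
    IntegrableOn (fun r : ℝ => r ^ 11 * ‖(DD m)^[4] F r‖ ^ 2) (Ioi (R' + 1)) ∧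
    IntegrableOn (fun r : ℝ => r ^ 11 * ‖(DD m)^[4] G r‖ ^ 2) (Ioi (R' + 1))

/-- Cauchy data -/
def dat (f g : ℝ → ℂ) (r : ℝ) : ℂ × ℂ × ℂ × ℂ := (f r, deriv f r, g r, deriv g r)

end

end Crest.Agent.R086.M
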