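import Crest.Agent.R086.M.Zero

/-! # Row 86, part M-a: passage to the hydrodynamic variables (task) -/

open MeasureTheory Set Filter Topology
open scoped ContDiff ComplexConjugate

namespace Crest.Agent.R086.M

noncomputable section

variable {n : ℕ} {b : ℝ} {q : ℝ → ℂ} {m : ℕ} {lam c₀ c₁ c₂ : ℂ} {f g : ℝ → ℂ}

/-- Riccati equation for w = Q'/Q = x + iy -/
theorem riccati (hP : Prof n b q) (hQ : ∀ r : ℝ, 0 ≤ r → Qr q r ≠ 0) {r : ℝ} (hr : 0 < r) :
    HasDerivAt (fun s => deriv (Qr q) s / Qr q s)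
      (-(deriv (Qr q) r / Qr q r) ^ 2 - (11 / (r : ℂ) + Complex.I * r / 2) * (deriv (Qr q) r / Qr q r)
        - b - Complex.I * (aa n : ℂ) + ((‖Qr q r‖ ^ (2 * n) : ℝ) : ℂ)) r := by
  have h1 := contDiff_infty_iff_deriv.1 (contDiff_Qr hP)
  have h2 := (contDiff_infty_iff_deriv.1 h1.2).1
  have h0 := hQ r hr.le
  refine ((h2 r).hasDerivAt.fun_div (h1.1 r).hasDerivAt h0).congr_deriv ?_
  rw [Qr_ode hP hr, NL_eq_norm]
  field_simp
  ring

theorem Hy_the (Q f g : ℝ → ℂ) (r : ℝ) :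
    the Q f g r = (f r / Q r - g r / conj (Q r)) * (-Complex.I / 2) := by
  rw [the, div_eq_mul_inv, mul_inv, Complex.inv_I]
  ring

theorem Hy_der {Q : ℝ → ℂ} {r : ℝ} {Q' f' g' : ℂ} (hQ : Q r ≠ 0) (hd : HasDerivAt Q Q' r)
    (hf : HasDerivAt f f' r) (hg : HasDerivAt g g' r) :
    HasDerivAt (eta Q f g)
      (((f' - Q' / Q r * f r) / Q r + (g' - conj (Q' / Q r) * g r) / conj (Q r)) / 2) r ∧
    HasDerivAt (the Q f g) (((f' - Q' / Q r * f r) / Q r
      - (g' - conj (Q' / Q r) * g r) / conj (Q r)) / (2 * Complex.I)) r := by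
  have hc : conj (Q r) ≠ 0 := (map_ne_zero _).2 hQ
  have h1 : HasDerivAt (fun s => f s / Q s) ((f' - Q' / Q r * f r) / Q r) r :=
    (hf.fun_div hd hQ).congr_deriv (by field_simp)
  have h2 : HasDerivAt (fun s => g s / conj (Q s)) ((g' - conj (Q' / Q r) * g r) / conj (Q r)) r :=
    (hg.fun_div (d := fun s => conj (Q s)) (d' := conj Q') hd.star hc).congr_deriv (by
      rw [map_div₀]; field_simp)
  exact ⟨(h1.fun_add h2).div_const 2, (h1.fun_sub h2).div_const _⟩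

/-- |η|²+|ϑ|² = (|f|²+|g|²)/(2N) -/
theorem norm_eta_the {Q : ℝ → ℂ} {r : ℝ} (hQ : Q r ≠ 0) :
    ‖eta Q f g r‖ ^ 2 + ‖the Q f g r‖ ^ 2 = (‖f r‖ ^ 2 + ‖g r‖ ^ 2) / (2 * ‖Q r‖ ^ 2) := by
  have h := parallelogram_law_with_norm ℂ (f r / Q r) (g r / conj (Q r))
  simp only [eta, the, norm_div, norm_mul, Complex.norm_I, Complex.norm_ofNat, Complex.norm_conj,
    div_pow] at h ⊢
  linear_combination h / 4

theorem deriv_eta {Q : ℝ → ℂ} {r : ℝ} (hQ : Q r ≠ 0) (hd : DifferentiableAt ℝ Q r)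
    (hf : DifferentiableAt ℝ f r) (hg : DifferentiableAt ℝ g r) :
    deriv (eta Q f g) r = eta Q (fun s => deriv f s - deriv Q s / Q s * f s)
      (fun s => deriv g s - conj (deriv Q s / Q s) * g s) r ∧
    deriv (the Q f g) r = the Q (fun s => deriv f s - deriv Q s / Q s * f s)
      (fun s => deriv g s - conj (deriv Q s / Q s) * g s) r :=
  ⟨(Hy_der hQ hd.hasDerivAt hf.hasDerivAt hg.hasDerivAt).1.deriv,
    (Hy_der hQ hd.hasDerivAt hf.hasDerivAt hg.hasDerivAt).2.deriv⟩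

/-- |η'|²+|ϑ'|² ≤ (|f'|²+|g'|² + |w|²(|f|²+|g|²))/N -/
theorem norm_deriv_eta_the {Q : ℝ → ℂ} {r : ℝ} (hQ : Q r ≠ 0) (hd : DifferentiableAt ℝ Q r)
    (hf : DifferentiableAt ℝ f r) (hg : DifferentiableAt ℝ g r) :
    ‖deriv (eta Q f g) r‖ ^ 2 + ‖deriv (the Q f g) r‖ ^ 2 ≤
      (‖deriv f r‖ ^ 2 + ‖deriv g r‖ ^ 2 + ‖deriv Q r / Q r‖ ^ 2 * (‖f r‖ ^ 2 + ‖g r‖ ^ 2)) / ‖Q r‖ ^ 2 := by
  have h : ∀ a c d : ℂ, ‖a - c * d‖ ^ 2 ≤ 2 * (‖a‖ ^ 2 + ‖c‖ ^ 2 * ‖d‖ ^ 2) := fun a c d => by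
    have h1 := pow_le_pow_left₀ (norm_nonneg _) (norm_sub_le a (c * d)) 2
    rw [norm_mul] at h1
    linarith [sq_nonneg (‖a‖ - ‖c‖ * ‖d‖)]
  have h1 := h (deriv f r) (deriv Q r / Q r) (f r)
  have h2 := h (deriv g r) (conj (deriv Q r / Q r)) (g r)
  rw [Complex.norm_conj] at h2
  rw [(deriv_eta hQ hd hf hg).1, (deriv_eta hQ hd hf hg).2, norm_eta_the hQ, ← div_div]
  exact div_le_div_of_nonneg_right (by linarith) (sq_nonneg _)

/-- ηη̄' + ϑϑ̄' = (f f̄' + g ḡ' - w̄|f|² - w|g|²)/(2N) -/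
theorem flux_eta_the {Q : ℝ → ℂ} {r : ℝ} (hQ : Q r ≠ 0) (hd : DifferentiableAt ℝ Q r)
    (hf : DifferentiableAt ℝ f r) (hg : DifferentiableAt ℝ g r) :
    eta Q f g r * conj (deriv (eta Q f g) r) + the Q f g r * conj (deriv (the Q f g) r) =
      (f r * conj (deriv f r) + g r * conj (deriv g r) - conj (deriv Q r / Q r) * ((‖f r‖ ^ 2 : ℝ) : ℂ)
        - deriv Q r / Q r * ((‖g r‖ ^ 2 : ℝ) : ℂ)) / ((2 * ‖Q r‖ ^ 2 : ℝ) : ℂ) := by
  have hc : conj (Q r) ≠ 0 := (map_ne_zero _).2 hQ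
  rw [(deriv_eta hQ hd hf hg).1, (deriv_eta hQ hd hf hg).2]
  simp only [eta, Hy_the, map_div₀, map_add, map_sub, map_mul, map_neg, map_ofNat, Complex.conj_conj,
    Complex.conj_I, Complex.ofReal_mul, Complex.ofReal_pow, Complex.ofReal_ofNat,
    ← Complex.mul_conj']
  linear_combination (norm := (field_simp; ring)) -(f r / Q r - g r / conj (Q r)) *
    ((conj (deriv f r) - conj (deriv Q r) / conj (Q r) * conj (f r)) / conj (Q r)
      - (conj (deriv g r) - deriv Q r / Q r * conj (g r)) / Q r) / 4 * Complex.I_mul_I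

theorem eq_zero_of_eta_the {Q : ℝ → ℂ} {r : ℝ} (hQ : Q r ≠ 0) (h1 : eta Q f g r = 0)
    (h2 : the Q f g r = 0) : f r = 0 ∧ g r = 0 := by
  have hc : conj (Q r) ≠ 0 := (map_ne_zero _).2 hQ
  have h3 : f r / Q r - g r / conj (Q r) = 0 :=
    (div_eq_zero_iff.1 h2).resolve_right (mul_ne_zero two_ne_zero Complex.I_ne_zero)
  rw [eta] at h1
  exact ⟨(div_eq_zero_iff.1 (by linear_combination h1 + h3 / 2)).resolve_right hQ,
    (div_eq_zero_iff.1 (by linear_combination h1 - h3 / 2)).resolve_right hc⟩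

theorem Hy_alg {i u r μ a b V n lam c₀ c₁ c₂ x y w w' F F₁ F₂ G G₁ G₂ : ℂ} (hi : i * i = -1)
    (hw : w = x + y * i) (hw' : w' = x - y * i)
    (E₁ : i * (F₂ + u * F₁ - μ * F) - (a - i * b) * F - r / 2 * F₁
      - i * ((n + 1) * V * F + n * V * G) - lam * F =
      c₀ * i + c₁ * (-a + i * b - r / 2 * w) + c₂ * w)
    (E₂ : -i * (G₂ + u * G₁ - μ * G) - (a + i * b) * G - r / 2 * G₁
      + i * ((n + 1) * V * G + n * V * F) - lam * G =
      -(c₀ * i) + c₁ * (-a - i * b - r / 2 * w') + c₂ * w') :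
    ((F₂ - (-w ^ 2 - (u + i * r / 2) * w - b - i * a + V) * F - w * F₁ - w * (F₁ - w * F)) +
      (G₂ - (-w' ^ 2 - (u - i * r / 2) * w' - b + i * a + V) * G - w' * G₁
        - w' * (G₁ - w' * G))) / 2 =
      -(u + 2 * x) * ((F₁ - w * F + (G₁ - w' * G)) / 2) + (μ + 2 * n * V) * ((F + G) / 2)
        + lam * ((F - G) * (-i / 2)) + (r / 2 + 2 * y) * ((F₁ - w * F - (G₁ - w' * G)) * (-i / 2))
        - (-c₀ - c₁ * (b - r * y / 2) - c₂ * y) ∧
    ((F₂ - (-w ^ 2 - (u + i * r / 2) * w - b - i * a + V) * F - w * F₁ - w * (F₁ - w * F)) -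
      (G₂ - (-w' ^ 2 - (u - i * r / 2) * w' - b + i * a + V) * G - w' * G₁
        - w' * (G₁ - w' * G))) * (-i / 2) =
      -(u + 2 * x) * ((F₁ - w * F - (G₁ - w' * G)) * (-i / 2)) + μ * ((F - G) * (-i / 2))
        + (c₁ * (a + r * x / 2) - c₂ * x) - lam * ((F + G) / 2)
        - (r / 2 + 2 * y) * ((F₁ - w * F + (G₁ - w' * G)) / 2) := by
  subst hw hw'
  constructor
  · linear_combination (-i / 2) * E₁ + (i / 2) * E₂ + ((F₂ + G₂ + u * (F₁ + G₁) + c₁ * r * y
      + (b - μ - V - 2 * n * V) * (F + G)) / 2 - b * c₁ - c₀ - c₂ * y) * hi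
  · linear_combination (-1 / 2) * E₁ + (-1 / 2) * E₂ + ((F₁ + G₁) * y
      - (F + G) * (a / 2 + r * x / 4 + x * y) - (F - G) * i * (r * y / 4 + y * y)) * hi

/-- With f̃ = f/Q, g̃ = g/Q̄ (C² on ℝ since Q(-r) = Q(r) ≠ 0): f = Qf̃ in L1 and `Qr_ode` give
λf̃ + v f̃' = i(f̃'' + (11/r+2x)f̃' - M f̃/r²) - iW(f̃+g̃)/2 - φ_f/Q (2i Q'/Q = 2ix - 2y, V1 f + V2 g = Q((n+1)V f̃ + nV g̃)), and the conjugate equation for g̃;
φ_f/Q = i c₀ + c₁(-a+ib-(r/2)w) + c₂ w.  Add and subtract.  dN: (|Q|²)' = 2Re(Q'Q̄) = 2x|Q|²; dW likewise; dv from the imaginary part of `riccati`. -/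
theorem mk_ok (hP : Prof n b q) (hQ : ∀ r : ℝ, 0 ≤ r → Qr q r ≠ 0) (hf : RadAdm f) (hg : RadAdm g)
    (h : Eqn n b q m lam c₀ c₁ c₂ f g) : (mkD n b q m lam c₀ c₁ c₂ f g).Ok := by
  have h0 : ∀ r, Qr q r ≠ 0 := fun r =>
    (le_total 0 r).elim (hQ r) fun h => Qr_neg q r ▸ hQ (-r) (neg_nonneg.2 h)
  have hc : ∀ r, conj (Qr q r) ≠ 0 := fun r => (map_ne_zero _).2 (h0 r)
  have h1 := contDiff_infty_iff_deriv.1 (contDiff_Qr hP)
  have hw : ContDiff ℝ ∞ fun s => deriv (Qr q) s / Qr q s := by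
    simpa only [div_eq_mul_inv] using h1.2.mul ((contDiff_Qr hP).fun_inv h0)
  have hx : ContDiff ℝ ∞ (xx q) := Complex.reCLM.contDiff.comp hw
  have hy : Continuous (yy q) := Complex.continuous_im.comp hw.continuous
  have hf2 : ContDiff ℝ 2 f := hf.smooth.of_le (by norm_num)
  have hg2 : ContDiff ℝ 2 g := hg.smooth.of_le (by norm_num)
  have df := hf2.differentiable (by norm_num)
  have dg := hg2.differentiable (by norm_num)
  have df' := hf2.differentiable_deriv_two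
  have dg' := hg2.differentiable_deriv_two
  have e1 := funext fun r => (deriv_eta (h0 r) (h1.1 r) (df r) (dg r)).1
  have e2 := funext fun r => (deriv_eta (h0 r) (h1.1 r) (df r) (dg r)).2
  have dN : ∀ r, HasDerivAt (fun s => ‖Qr q s‖ ^ 2) (2 * xx q r * ‖Qr q r‖ ^ 2) r := fun r => by
    refine (h1.1 r).hasDerivAt.norm_sq.congr_deriv ?_
    rw [Complex.inner, mul_assoc, xx, ← Complex.re_mul_ofReal, Complex.ofReal_pow,
      ← Complex.mul_conj', ← mul_assoc, div_mul_cancel₀ _ (h0 r)]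
  have cQ := h1.1.continuous
  have cx := hx.continuous
  have cA : Continuous fun s => (deriv f s - deriv (Qr q) s / Qr q s * f s) / Qr q s :=
    (df'.continuous.sub (hw.continuous.mul df.continuous)).div cQ h0
  have cB : Continuous fun s =>
      (deriv g s - conj (deriv (Qr q) s / Qr q s) * g s) / conj (Qr q s) :=
    (dg'.continuous.sub ((Complex.continuous_conj.comp hw.continuous).mul dg.continuous)).div
      (Complex.continuous_conj.comp cQ) hc
  have key := fun (r : ℝ) (hr : 0 < r) => Hy_alg (i := Complex.I) (u := 11 / r) (r := r)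
    (μ := (m * (m + 10)) / r ^ 2) (a := aa n) (b := b) (V := ((‖Qr q r‖ ^ (2 * n) : ℝ) : ℂ))
    (n := n) (lam := lam) (c₀ := c₀) (c₁ := c₁) (c₂ := c₂) (x := xx q r) (y := yy q r)
    (w := deriv (Qr q) r / Qr q r) (w' := conj (deriv (Qr q) r / Qr q r))
    (F := f r / Qr q r) (F₁ := deriv f r / Qr q r) (F₂ := deriv (deriv f) r / Qr q r)
    (G := g r / conj (Qr q r)) (G₁ := deriv g r / conj (Qr q r))
    (G₂ := deriv (deriv g) r / conj (Qr q r)) Complex.I_mul_I (Complex.re_add_im _).symm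
    (Complex.ext (by simp [xx, -map_div₀]) (by simp [yy, -map_div₀])) (by
      have h2 := (h r hr).1
      have h3 := h0 r
      have h4 := hc r
      have h5 : (r : ℂ) ≠ 0 := Complex.ofReal_ne_zero.2 hr.ne'
      simp only [L1, DD, phc, ph0, ph1, ph2, V1_eq_norm,
        eq_div_of_mul_eq h4 (V2_mul_conj hP.npos _), Complex.ofReal_mul, Complex.ofReal_add,
        Complex.ofReal_natCast, Complex.ofReal_one] at h2
      linear_combination (norm := (field_simp; ring)) h2 / Qr q r) (by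
      have h2 := (h r hr).2
      have h3 := h0 r
      have h4 := hc r
      have h5 : (r : ℂ) ≠ 0 := Complex.ofReal_ne_zero.2 hr.ne'
      simp only [L2, DD, phc, ph0, ph1, ph2, V1_eq_norm,
        eq_div_of_mul_eq h4 (V2_mul_conj hP.npos _), Complex.ofReal_mul, Complex.ofReal_add,
        Complex.ofReal_natCast, Complex.ofReal_one, map_add, map_mul, map_sub, map_neg, map_div₀,
        map_ofNat, map_natCast, Complex.conj_conj, Complex.conj_ofReal, Complex.conj_I] at h2 ⊢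
      linear_combination (norm := (field_simp; ring)) h2 / conj (Qr q r))
  have d2 := fun (r : ℝ) (hr : 0 < r) => Hy_der (h0 r) (h1.1 r).hasDerivAt
    ((df' r).hasDerivAt.fun_sub ((riccati hP hQ hr).fun_mul (df r).hasDerivAt))
    ((dg' r).hasDerivAt.fun_sub (HasDerivAt.fun_mul
      (c := fun s => conj (deriv (Qr q) s / Qr q s)) (c' := conj _) (riccati hP hQ hr).star
      (dg r).hasDerivAt))
  refine ⟨fun r => pow_pos (norm_pos_iff.2 (h0 r)) 2, dN,
    fun r => (hx.differentiable (by simp) r).hasDerivAt, hx.continuous_deriv (by simp),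
    by dsimp only [mkD]; fun_prop, fun r hr => ?_, fun r => ?_, by dsimp only [mkD]; fun_prop,
    fun r => (Hy_der (h0 r) (h1.1 r).hasDerivAt (df r).hasDerivAt
      (dg r).hasDerivAt).1.differentiableAt.hasDerivAt,
    fun r => (Hy_der (h0 r) (h1.1 r).hasDerivAt (df r).hasDerivAt
      (dg r).hasDerivAt).2.differentiableAt.hasDerivAt,
    ((cA.add cB).div_const 2).congr fun r => (congrFun e1 r).symm,
    ((cA.sub cB).div_const _).congr fun r => (congrFun e2 r).symm, by dsimp only [mkD]; fun_prop,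
    by dsimp only [mkD]; fun_prop, fun r hr => ?_, fun r hr => ?_⟩ <;> dsimp only [mkD]
  · refine (((hasDerivAt_id' r).div_const 2).fun_add ((Complex.imCLM.hasFDerivAt.comp_hasDerivAt r
      (riccati hP hQ hr)).const_mul 2)).congr_deriv ?_
    rw [xx, yy]
    generalize deriv (Qr q) r / Qr q r = w
    generalize ‖Qr q r‖ ^ (2 * n) = V
    rw [show (11 / r + Complex.I * r / 2 : ℂ) = (11 / r : ℝ) + (r / 2 : ℝ) * Complex.I by
      push_cast; ring]
    simp only [Complex.imCLM_apply, sq, Complex.add_im, Complex.sub_im, Complex.neg_im,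
      Complex.mul_im, Complex.add_re, Complex.mul_re, Complex.ofReal_re, Complex.ofReal_im,
      Complex.I_re, Complex.I_im]
    field_simp
    ring
  · simp only [pow_mul]
    refine (((dN r).fun_pow n).const_mul (2 * (n : ℝ))).congr_deriv ?_
    rw [← Nat.sub_add_cancel hP.npos, Nat.add_sub_cancel]
    ring
  · rw [e1, e2]
    refine (d2 r hr).1.congr_deriv ?_
    simp only [eta, Hy_the, MM, map_add, map_mul, map_sub, map_neg, map_pow, map_div₀ (starRingEnd ℂ) 11,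
      map_div₀ (starRingEnd ℂ) _ 2, map_ofNat, Complex.conj_ofReal, Complex.conj_I]
    have := (key r hr).1
    push_cast at this ⊢
    linear_combination this
  · rw [e1, e2]
    refine (d2 r hr).2.congr_deriv ?_
    rw [div_eq_mul_inv _ (2 * Complex.I), mul_inv, Complex.inv_I]
    simp only [eta, Hy_the, MM, map_add, map_mul, map_sub, map_neg, map_pow, map_div₀ (starRingEnd ℂ) 11,
      map_div₀ (starRingEnd ℂ) _ 2, map_ofNat, Complex.conj_ofReal, Complex.conj_I]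
    have := (key r hr).2
    push_cast at this ⊢
    linear_combination this

end

end Crest.Agent.R086.M
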