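import Crest.Agent.R086.M.Defs

/-! # Row 86, part M-a: the differential identities (task; all were checked numerically).
Write ‖z‖² = (z * conj z).re or work with real and imaginary parts; build the derivative with HasDerivAt.mul/add/star/re,
then `convert … using 1`, `simp [Complex.ext_iff, Complex.normSq_apply, Complex.sq_norm]`, `field_simp`, `ring`. -/

open MeasureTheory Set Filter Topology
open scoped ContDiff ComplexConjugate

namespace Crest.Agent.R086.M.HD

noncomputable section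

variable {D : HD}

private theorem h93_re {z : ℝ → ℂ} {z' : ℂ} {r : ℝ} (hz : HasDerivAt z z' r) :
    HasDerivAt (fun s => (z s).re) z'.re r :=
  Complex.reCLM.hasFDerivAt.comp_hasDerivAt r hz

private theorem h93_conj {z : ℝ → ℂ} {z' : ℂ} {r : ℝ} (hz : HasDerivAt z z' r) :
    HasDerivAt (fun s => conj (z s)) (conj z') r := hz.star

private theorem h93_nsq {u : ℝ → ℂ} {u' : ℂ} {r : ℝ} (hu : HasDerivAt u u' r) :
    HasDerivAt (fun s => ‖u s‖ ^ 2) (2 * (u' * conj (u r)).re) r := by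
  have := h93_re (hu.fun_mul (h93_conj hu))
  convert this using 1
  · funext s
    rw [Complex.mul_conj, Complex.sq_norm, Complex.ofReal_re]
  · simp only [Complex.add_re, Complex.mul_re, Complex.conj_re, Complex.conj_im]
    ring

private theorem h93_cN (h : D.Ok) : Continuous D.N :=
  continuous_iff_continuousAt.2 fun r => (h.dN r).continuousAt
private theorem h93_cx (h : D.Ok) : Continuous D.x :=
  continuous_iff_continuousAt.2 fun r => (h.dx r).continuousAt
private theorem h93_cW (h : D.Ok) : Continuous D.W :=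
  continuous_iff_continuousAt.2 fun r => (h.dW r).continuousAt
private theorem h93_cη (h : D.Ok) : Continuous D.η :=
  continuous_iff_continuousAt.2 fun r => (h.dη r).continuousAt
private theorem h93_cϑ (h : D.Ok) : Continuous D.ϑ :=
  continuous_iff_continuousAt.2 fun r => (h.dϑ r).continuousAt

private theorem h93_dP (h : D.Ok) (k : ℕ) (r : ℝ) : HasDerivAt (fun s => D.M * s ^ (k + 1) * D.N s)
    (D.M * ((k + 1) * r ^ k) * D.N r + D.M * r ^ (k + 1) * (2 * D.x r * D.N r)) r := by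
  refine (((hasDerivAt_pow (k + 1) r).const_mul D.M).fun_mul (h.dN r)).congr_deriv ?_
  simp

theorem Ok.dmu (h : D.Ok) {r : ℝ} (hr : 0 < r) : HasDerivAt D.mu ((11 / r + 2 * D.x r) * D.mu r) r := by
  refine ((hasDerivAt_pow 11 r).fun_mul (h.dN r)).congr_deriv ?_
  simp only [mu]
  field_simp
  push_cast
  ring

theorem Ok.cont_mu (h : D.Ok) : Continuous D.mu := by
  have h2 := h93_cN h
  unfold mu
  fun_prop

theorem Ok.cont_den (h : D.Ok) : Continuous D.den := by
  have h1 := h.cont_mu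
  have h2 := h93_cN h
  have h3 := h93_cx h
  have h4 := h93_cW h
  have h5 := h93_cη h
  have h6 := h93_cϑ h
  have h7 := h.cη'
  have h8 := h.cϑ'
  have h9 := h.cv
  have h10 := h.cF₁
  unfold den
  fun_prop

theorem Ok.hasDerivAt_En (h : D.Ok) (r : ℝ) : HasDerivAt D.En (D.den r) r :=
  (h.cont_den.integral_hasStrictDerivAt 0 r).hasDerivAt

theorem En_zero : D.En 0 = 0 := by
  simp [En]

theorem Ok.hasDerivAt_bE (h : D.Ok) (h1 : ∀ r, D.F₁ r = 0) (h2 : ∀ r, D.F₂ r = 0) {r : ℝ} (hr : 0 < r) :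
    HasDerivAt D.bE (D.dE r) r := by
  have hr' := hr.ne'
  have dμ := h.dmu hr
  have a1 := dμ.fun_mul (h93_re ((((h.dη r).fun_mul (h93_conj (h.dη' r hr))).fun_add
    ((h.dϑ r).fun_mul (h93_conj (h.dϑ' r hr)))).const_mul D.lam))
  have a2 := ((dμ.fun_mul (h.dv r hr)).fun_mul
    ((h93_nsq (h.dη' r hr)).fun_add (h93_nsq (h.dϑ' r hr)))).div_const 2
  have a3 := ((h.dv r hr).fun_mul (((h93_dP h 8 r).fun_mul
    ((h93_nsq (h.dη r)).fun_add (h93_nsq (h.dϑ r)))).fun_add
    ((dμ.fun_mul (h.dW r)).fun_mul (h93_nsq (h.dη r))))).div_const 2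
  refine ((a1.fun_add a2).fun_sub a3).congr_deriv ?_
  simp only [dE, mu, h1, h2, Complex.sq_norm, Complex.normSq_apply, Complex.add_re, Complex.add_im, Complex.sub_re,
    Complex.sub_im, Complex.mul_re, Complex.mul_im, Complex.neg_re, Complex.neg_im, Complex.conj_re,
    Complex.conj_im, Complex.ofReal_re, Complex.ofReal_im, Complex.zero_re, Complex.zero_im, map_add,
    map_sub, map_mul, map_neg, map_zero, Complex.conj_ofReal]
  field_simp
  push_cast
  ring

theorem Ok.cont_bE (h : D.Ok) : Continuous D.bE := by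
  have h1 := h.cont_mu
  have h2 := h93_cN h
  have h3 := h93_cx h
  have h4 := h93_cW h
  have h5 := h93_cη h
  have h6 := h93_cϑ h
  have h7 := h.cη'
  have h8 := h.cϑ'
  have h9 := h.cv
  have h10 := h.cF₁
  unfold bE
  fun_prop

theorem bE_zero : D.bE 0 = 0 := by
  simp [bE, mu]

theorem Ok.hasDerivAt_bM (h : D.Ok) {r : ℝ} (hr : 0 < r) : HasDerivAt D.bM (D.dM r) r := by
  have hr' := hr.ne'
  have dμ := h.dmu hr
  have dr := (hasDerivAt_id' r).fun_mul dμ
  have c1 := h93_re ((h.dη' r hr).fun_mul (h93_conj (h.dη r)))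
  have a1 := (dr.fun_mul ((h93_nsq (h.dη' r hr)).fun_add (h93_nsq (h.dϑ' r hr)))).div_const 2
  have a2 := (dμ.const_mul (11 / 2)).fun_mul (h93_re (((h.dη' r hr).fun_mul (h93_conj (h.dη r))).fun_add
    ((h.dϑ' r hr).fun_mul (h93_conj (h.dϑ r)))))
  have a3 := ((h93_dP h 9 r).fun_mul ((h93_nsq (h.dη r)).fun_add (h93_nsq (h.dϑ r)))).div_const 2
  have a4 := ((dr.fun_mul (h.dW r)).fun_mul (h93_nsq (h.dη r))).div_const 2
  have a5 := ((dμ.const_mul (11 / 2)).fun_mul (h.dv r hr)).fun_mul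
    (h93_re ((h.dη r).fun_mul (h93_conj (h.dϑ r))))
  have a6 := dr.fun_mul (h93_re (((h.dϑ r).const_mul D.lam).fun_mul (h93_conj (h.dη r))))
  have a7 := ((((((hasDerivAt_id' r).const_mul 2).fun_mul (h.dx r)).const_add 1).fun_mul dμ).fun_mul c1)
  refine ((((((a1.fun_add a2).fun_sub a3).fun_sub a4).fun_add a5).fun_sub a6).fun_add a7).congr_deriv ?_
  have e : (11 / 2 : ℂ) = ((11 / 2 : ℝ) : ℂ) := by push_cast; rfl
  simp only [dM, mu, e, Complex.sq_norm, Complex.normSq_apply, Complex.add_re, Complex.add_im, Complex.sub_re,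
    Complex.sub_im, Complex.mul_re, Complex.mul_im, Complex.neg_re, Complex.neg_im, Complex.conj_re,
    Complex.conj_im, Complex.ofReal_re, Complex.ofReal_im, Complex.zero_re, Complex.zero_im, map_add,
    map_sub, map_mul, map_neg, map_zero, Complex.conj_ofReal]
  field_simp
  push_cast
  ring

theorem Ok.cont_bM (h : D.Ok) : Continuous D.bM := by
  have h1 := h.cont_mu
  have h2 := h93_cN h
  have h3 := h93_cx h
  have h4 := h93_cW h
  have h5 := h93_cη h
  have h6 := h93_cϑ h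
  have h7 := h.cη'
  have h8 := h.cϑ'
  have h9 := h.cv
  have h10 := h.cF₁
  unfold bM
  fun_prop

theorem bM_zero : D.bM 0 = 0 := by
  simp [bM, mu]

theorem Ok.hasDerivAt_bJ (h : D.Ok) (m : ℕ) (hM : D.M = MM m) {r : ℝ} (hr : 0 < r) :
    HasDerivAt (D.bJ m) (D.dJ m r) r := by
  have hr' : (r : ℂ) ≠ 0 := by exact_mod_cast hr.ne'
  have dr : HasDerivAt (fun s : ℝ => (s : ℂ)) 1 r := (hasDerivAt_id' r).ofReal_comp
  have a1 := ((hasDerivAt_pow (m + 10) r).fun_mul (h.dN r)).ofReal_comp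
  have a2 := ((dr.fun_mul (h.dϑ' r hr)).fun_sub ((h.dϑ r).const_mul (m : ℂ))).fun_add
    ((dr.fun_mul (h.dv r hr).ofReal_comp).fun_mul (h.dη r))
  refine (a1.fun_mul a2).congr_deriv ?_
  simp only [dJ, hM, MM, show m + 10 - 1 = m + 9 from rfl]
  push_cast
  field_simp
  ring

theorem Ok.cont_bJ (h : D.Ok) (m : ℕ) : Continuous (D.bJ m) := by
  have h1 := h.cont_mu
  have h2 := h93_cN h
  have h3 := h93_cx h
  have h4 := h93_cW h
  have h5 := h93_cη h
  have h6 := h93_cϑ h
  have h7 := h.cη'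
  have h8 := h.cϑ'
  have h9 := h.cv
  have h10 := h.cF₁
  unfold bJ
  fun_prop

theorem Ok.cont_dJ (h : D.Ok) (m : ℕ) : Continuous (D.dJ m) := by
  have h1 := h.cont_mu
  have h2 := h93_cN h
  have h3 := h93_cx h
  have h4 := h93_cW h
  have h5 := h93_cη h
  have h6 := h93_cϑ h
  have h7 := h.cη'
  have h8 := h.cϑ'
  have h9 := h.cv
  have h10 := h.cF₁
  unfold dJ
  fun_prop

theorem bJ_zero (m : ℕ) : D.bJ m 0 = 0 := by
  simp [bJ]

/-- (p μ |u|²)' for u = η or ϑ -/
theorem Ok.hasDerivAt_w (h : D.Ok) {u : ℝ → ℂ} {u' : ℂ} {p : ℝ → ℝ} {p' r : ℝ} (hr : 0 < r)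
    (hu : HasDerivAt u u' r) (hp : HasDerivAt p p' r) :
    HasDerivAt (fun s => p s * D.mu s * ‖u s‖ ^ 2)
      ((p' + p r * (11 / r + 2 * D.x r)) * D.mu r * ‖u r‖ ^ 2
        + 2 * p r * D.mu r * (u' * conj (u r)).re) r := by
  refine ((hp.fun_mul (h.dmu hr)).fun_mul (h93_nsq hu)).congr_deriv ?_
  ring

/-- comparison principle: continuous on [s,t], φ' ≤ ψ' inside -/
theorem le_of_deriv_le {φ ψ φ' ψ' : ℝ → ℝ} {s t : ℝ} (hst : s ≤ t) (hφ : ContinuousOn φ (Icc s t))
    (hψ : ContinuousOn ψ (Icc s t)) (dφ : ∀ r ∈ Ioo s t, HasDerivAt φ (φ' r) r)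
    (dψ : ∀ r ∈ Ioo s t, HasDerivAt ψ (ψ' r) r) (hle : ∀ r ∈ Ioo s t, φ' r ≤ ψ' r) :
    φ t - φ s ≤ ψ t - ψ s := by
  have hm : MonotoneOn (fun r => ψ r - φ r) (Icc s t) := by
    refine monotoneOn_of_hasDerivWithinAt_nonneg (f' := fun r => ψ' r - φ' r) (convex_Icc s t)
      (hψ.sub hφ) ?_ ?_
    · intro r hr
      rw [interior_Icc] at hr ⊢
      exact ((dψ r hr).fun_sub (dφ r hr)).hasDerivWithinAt
    · intro r hr
      rw [interior_Icc] at hr
      exact sub_nonneg.2 (hle r hr)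
  have := hm (left_mem_Icc.2 hst) (right_mem_Icc.2 hst) hst
  simp only at this
  linarith

end

end Crest.Agent.R086.M.HD
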