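import Crest.Agent.R086.M.Defs

/-! # Row 86, part M-a: facts for a fixed profile (task) -/

open MeasureTheory Set Filter Topology
open scoped ContDiff ComplexConjugate

namespace Crest.Agent.R086.M

noncomputable section

variable {n : ℕ} {b : ℝ} {q : ℝ → ℂ} {m : ℕ} {lam c₀ c₁ c₂ d₀ d₁ d₂ : ℂ} {f g : ℝ → ℂ}

/-- polynomial bound of order `s` on `[0, ∞)` -/
def ZB (s : ℝ) (f : ℝ → ℂ) : Prop := ∃ C : ℝ, 0 ≤ C ∧ ∀ r : ℝ, 0 ≤ r → ‖f r‖ ≤ C * (1 + r) ^ s

theorem ZB.of {s : ℝ} {f : ℝ → ℂ} {C : ℝ} (h : ∀ r : ℝ, 0 ≤ r → ‖f r‖ ≤ C * (1 + r) ^ s) :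
    ZB s f :=
  ⟨|C|, abs_nonneg C, fun r hr => (h r hr).trans
    (mul_le_mul_of_nonneg_right (le_abs_self C) (by positivity))⟩

theorem ZB.le {s : ℝ} {f g : ℝ → ℂ} (h : ZB s f) (hg : ∀ r, ‖g r‖ ≤ ‖f r‖) : ZB s g := by
  obtain ⟨C, h0, hC⟩ := h
  exact ⟨C, h0, fun r hr => (hg r).trans (hC r hr)⟩

theorem ZB.add {s : ℝ} {f g : ℝ → ℂ} (hf : ZB s f) (hg : ZB s g) : ZB s fun r => f r + g r := by
  obtain ⟨C, -, hC⟩ := hf
  obtain ⟨D, -, hD⟩ := hg
  refine ZB.of (C := C + D) fun r hr => (norm_add_le _ _).trans ?_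
  rw [add_mul]
  exact add_le_add (hC r hr) (hD r hr)

theorem ZB.mul {s t : ℝ} {f g : ℝ → ℂ} (hf : ZB s f) (hg : ZB t g) :
    ZB (s + t) fun r => f r * g r := by
  obtain ⟨C, h0, hC⟩ := hf
  obtain ⟨D, -, hD⟩ := hg
  refine ZB.of (C := C * D) fun r hr => ?_
  rw [norm_mul, Real.rpow_add (by positivity), mul_mul_mul_comm]
  exact mul_le_mul (hC r hr) (hD r hr) (norm_nonneg _) (by positivity)

theorem ZB.mono {s t : ℝ} {f : ℝ → ℂ} (hf : ZB s f) (h : s ≤ t) : ZB t f := by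
  obtain ⟨C, h0, hC⟩ := hf
  exact ⟨C, h0, fun r hr => (hC r hr).trans (mul_le_mul_of_nonneg_left
    (Real.rpow_le_rpow_of_exponent_le (by linarith) h) h0)⟩

theorem ZB.const (c : ℂ) : ZB 0 fun _ => c := ⟨‖c‖, norm_nonneg c, fun r _ => by simp⟩

theorem ZB.zero (s : ℝ) : ZB s fun _ => 0 := ⟨0, le_rfl, fun r _ => by simp⟩

theorem ZB.sum {s : ℝ} {κ : Type} (S : Finset κ) {F : κ → ℝ → ℂ} (h : ∀ i ∈ S, ZB s (F i)) :
    ZB s fun r => ∑ i ∈ S, F i r := by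
  classical
  induction S using Finset.induction_on with
  | empty => simpa using ZB.zero s
  | insert a S ha ih =>
    simp only [Finset.sum_insert ha]
    exact (h a (Finset.mem_insert_self a S)).add (ih fun i hi => h i (Finset.mem_insert_of_mem hi))

/-- symbols of order `s`, up to `N` derivatives -/
structure ZS (N : ℕ) (s : ℝ) (f : ℝ → ℂ) : Prop where
  sm : ContDiff ℝ N f
  bd : ∀ i : ℕ, i ≤ N → ZB (s - i) (iteratedDeriv i f)

theorem ZS.at {N : ℕ} {s : ℝ} {f : ℝ → ℂ} (h : ZS N s f) {i : ℕ} (hi : i ≤ N) (r : ℝ) :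
    ContDiffAt ℝ i f r := (h.sm.of_le (by exact_mod_cast hi)).contDiffAt

theorem ZS.add {N : ℕ} {s : ℝ} {f g : ℝ → ℂ} (hf : ZS N s f) (hg : ZS N s g) :
    ZS N s fun r => f r + g r := by
  refine ⟨hf.sm.add hg.sm, fun i hi => ((hf.bd i hi).add (hg.bd i hi)).le fun r => ?_⟩
  rw [iteratedDeriv_fun_add (hf.at hi r) (hg.at hi r)]

theorem ZS.mul {N : ℕ} {s t : ℝ} {f g : ℝ → ℂ} (hf : ZS N s f) (hg : ZS N t g) :
    ZS N (s + t) fun r => f r * g r := by
  refine ⟨hf.sm.mul hg.sm, fun i hi => ?_⟩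
  have h : ZB (s + t - i) fun r => ∑ j ∈ Finset.range (i + 1),
      (i.choose j : ℂ) * iteratedDeriv j f r * iteratedDeriv (i - j) g r := by
    refine ZB.sum _ fun j hj => ?_
    have hj' : j ≤ i := Nat.lt_succ_iff.1 (Finset.mem_range.1 hj)
    refine (((ZB.const (i.choose j : ℂ)).mul (hf.bd j (hj'.trans hi))).mul
      (hg.bd (i - j) ((Nat.sub_le i j).trans hi))).mono (le_of_eq ?_)
    rw [Nat.cast_sub hj']
    ring
  refine h.le fun r => ?_
  rw [iteratedDeriv_fun_mul (hf.at hi r) (hg.at hi r)]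

theorem ZS.mono {N : ℕ} {s t : ℝ} {f : ℝ → ℂ} (hf : ZS N s f) (h : s ≤ t) : ZS N t f :=
  ⟨hf.sm, fun i hi => (hf.bd i hi).mono (by linarith)⟩

theorem ZS.const (N : ℕ) (c : ℂ) : ZS N 0 fun _ => c := by
  refine ⟨contDiff_const, fun i _ => ?_⟩
  rcases Nat.eq_zero_or_pos i with rfl | hi
  · simpa using ZB.const c
  · refine (ZB.zero _).le fun r => ?_
    rw [iteratedDeriv_const, if_neg hi.ne']

theorem ZS.const_mul {N : ℕ} {s : ℝ} {f : ℝ → ℂ} (c : ℂ) (hf : ZS N s f) :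
    ZS N s fun r => c * f r := ((ZS.const N c).mul hf).mono (by simp)

theorem ZS.conj {N : ℕ} {s : ℝ} {f : ℝ → ℂ} (hf : ZS N s f) : ZS N s fun r => conj (f r) := by
  refine ⟨Complex.conjCLE.contDiff.comp hf.sm, fun i hi => (hf.bd i hi).le fun r => le_of_eq ?_⟩
  rw [← norm_iteratedFDeriv_eq_norm_iteratedDeriv, ← norm_iteratedFDeriv_eq_norm_iteratedDeriv]
  exact Complex.conjLIE.norm_iteratedFDeriv_comp_left f r i

theorem ZS.pow {N : ℕ} {s : ℝ} {f : ℝ → ℂ} (hf : ZS N s f) (k : ℕ) :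
    ZS N (k * s) fun r => f r ^ k := by
  induction k with
  | zero => simpa using ZS.const N 1
  | succ k ih =>
    simp only [pow_succ]
    exact (ih.mul hf).mono (le_of_eq (by push_cast; ring))

theorem ZS.succ {N : ℕ} {s : ℝ} {f : ℝ → ℂ} (hf : ContDiff ℝ (N + 1 : ℕ) f) (h0 : ZB s f)
    (h : ZS N (s - 1) (deriv f)) : ZS (N + 1) s f := by
  refine ⟨hf, fun i hi => ?_⟩
  rcases i with _ | i
  · simpa using h0
  · rw [iteratedDeriv_succ']
    exact (h.bd i (by omega)).mono (le_of_eq (by push_cast; ring))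

theorem ZS.deriv {N : ℕ} {s : ℝ} {f : ℝ → ℂ} (h : ZS (N + 1) s f) : ZS N (s - 1) (deriv f) := by
  refine ⟨?_, fun i hi => ?_⟩
  · have := h.sm
    push_cast at this
    exact (contDiff_succ_iff_deriv.1 this).2.2
  · rw [← iteratedDeriv_succ']
    exact (h.bd (i + 1) (by omega)).mono (le_of_eq (by push_cast; ring))

theorem Zhalf_deriv (r : ℝ) : HasDerivAt (fun r : ℝ => (r : ℂ) / 2) (1 / 2) r := by
  simpa using (Complex.ofRealCLM.hasDerivAt (x := r)).div_const 2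

theorem ZS.half (N : ℕ) : ZS N 1 fun r : ℝ => (r : ℂ) / 2 := by
  have h0 : ZB 1 fun r : ℝ => (r : ℂ) / 2 := ZB.of (C := 1) fun r hr => by
    rw [norm_div, Complex.norm_real, Real.norm_of_nonneg hr, Real.rpow_one]
    simp only [Complex.norm_ofNat]
    linarith
  have hs : ∀ M : ℕ, ContDiff ℝ M fun r : ℝ => (r : ℂ) / 2 := fun M =>
    Complex.ofRealCLM.contDiff.div_const 2
  rcases N with _ | N
  · refine ⟨hs 0, fun i hi => ?_⟩
    obtain rfl : i = 0 := by omega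
    simpa using h0
  · refine ZS.succ (hs _) h0 ?_
    have : _root_.deriv (fun r : ℝ => (r : ℂ) / 2) = fun _ => 1 / 2 :=
      funext fun r => (Zhalf_deriv r).deriv
    rw [this]
    simpa using ZS.const N (1 / 2)

theorem radAdm_iff_ZS : RadAdm f ↔ ZS 24 0 f := by
  constructor
  · rintro ⟨hs, C, hC⟩
    exact ⟨hs, fun i hi => ZB.of (C := C) fun r hr => by simpa using hC i hi r hr⟩
  · rintro ⟨hs, hb⟩
    refine ⟨hs, ?_⟩
    choose! C h0 hC using hb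
    refine ⟨∑ i ∈ Finset.range 25, C i, fun i hi r hr => ?_⟩
    have h1 := hC i hi r hr
    rw [zero_sub] at h1
    refine h1.trans (mul_le_mul_of_nonneg_right ?_ (by positivity))
    exact Finset.single_le_sum (f := C) (fun j hj => h0 j (by
      have := Finset.mem_range.1 hj
      omega)) (Finset.mem_range.2 (by omega))

theorem Zsq_deriv (r : ℝ) : HasDerivAt (fun r : ℝ => r ^ 2 / 4) (r / 2) r := by
  refine ((hasDerivAt_pow 2 r).div_const 4).congr_deriv ?_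
  norm_num
  ring

theorem Zcomp_deriv {p : ℝ → ℂ} (hp : Differentiable ℝ p) (r : ℝ) :
    HasDerivAt (Qr p) ((r : ℂ) / 2 * deriv p (r ^ 2 / 4)) r := by
  have := (hp (r ^ 2 / 4)).hasDerivAt.scomp r (Zsq_deriv r)
  refine HasDerivAt.congr_deriv this ?_
  simp

theorem Zcomp_smooth {p : ℝ → ℂ} (hp : ContDiff ℝ ∞ p) : ContDiff ℝ ∞ (Qr p) :=
  hp.comp ((contDiff_id.pow 2).div_const 4)

theorem Zaa_nonneg (n : ℕ) : 0 ≤ aa n := by
  unfold aa
  positivity

theorem Zit_smooth (hP : Prof n b q) (j : ℕ) : ContDiff ℝ ∞ (iteratedDeriv j q) := by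
  rw [iteratedDeriv_eq_iterate]
  exact hP.smooth.iterate_deriv j

theorem ZS_Qr (hP : Prof n b q) (N : ℕ) :
    ∀ j : ℕ, ZS N (-(2 * aa n) - 2 * j) (Qr (iteratedDeriv j q)) := by
  have hs : ∀ j M : ℕ, ContDiff ℝ M (Qr (iteratedDeriv j q)) := fun j M =>
    (Zcomp_smooth (Zit_smooth hP j)).of_le (by exact_mod_cast le_top)
  have h0 : ∀ j : ℕ, ZB (-(2 * aa n) - 2 * j) (Qr (iteratedDeriv j q)) := by
    intro j
    obtain ⟨C, h0, hC⟩ := ZB.of (hP.symb j).choose_spec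
    have hp : 0 ≤ aa n + j := add_nonneg (Zaa_nonneg n) (Nat.cast_nonneg j)
    refine ZB.of (C := C * 5 ^ (aa n + j)) fun r hr => ?_
    refine (hC (r ^ 2 / 4) (by positivity)).trans ?_
    rw [mul_assoc]
    refine mul_le_mul_of_nonneg_left ?_ h0
    have e1 : -(aa n) - j = -(aa n + j) := by ring
    have e2 : -(2 * aa n) - 2 * j = (2 : ℕ) * -(aa n + j) := by push_cast; ring
    rw [e1, e2, Real.rpow_natCast_mul (by positivity)]
    have h1 : (1 + r) ^ 2 / 5 ≤ 1 + r ^ 2 / 4 := by nlinarith [sq_nonneg (r - 4)]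
    refine (Real.rpow_le_rpow_of_nonpos (by positivity) h1 (by linarith)).trans (le_of_eq ?_)
    rw [Real.div_rpow (by positivity) (by norm_num), Real.rpow_neg (by norm_num : (0 : ℝ) ≤ 5),
      div_inv_eq_mul, mul_comm]
  induction N with
  | zero =>
    intro j
    refine ⟨hs j 0, fun i hi => ?_⟩
    obtain rfl : i = 0 := by omega
    simpa using h0 j
  | succ N ih =>
    intro j
    refine ZS.succ (hs j _) (h0 j) ?_
    have : deriv (Qr (iteratedDeriv j q)) =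
        fun r : ℝ => (r : ℂ) / 2 * Qr (iteratedDeriv (j + 1) q) r := by
      funext r
      rw [(Zcomp_deriv ((Zit_smooth hP j).differentiable (by simp)) r).deriv, iteratedDeriv_succ]
      rfl
    rw [this]
    exact ((ZS.half N).mul (ih (j + 1))).mono (le_of_eq (by push_cast; ring))

theorem ZS_Q (hP : Prof n b q) (N : ℕ) : ZS N (-(2 * aa n)) (Qr q) := by
  simpa using ZS_Qr hP N 0

theorem Zmul_conj (u : ℂ) : u * conj u = ((‖u‖ ^ 2 : ℝ) : ℂ) := by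
  rw [Complex.mul_conj, Complex.normSq_eq_norm_sq]

theorem Zpow_conj (n : ℕ) (u : ℂ) : u ^ n * conj u ^ n = ((‖u‖ ^ (2 * n) : ℝ) : ℂ) := by
  rw [← mul_pow, Zmul_conj, pow_mul]
  push_cast
  rfl

theorem contDiff_Qr (hP : Prof n b q) : ContDiff ℝ ∞ (Qr q) := by
  exact Zcomp_smooth hP.smooth

theorem deriv_Qr (hP : Prof n b q) (r : ℝ) : deriv (Qr q) r = (r : ℂ) / 2 * deriv q (r ^ 2 / 4) := by
  exact (Zcomp_deriv (hP.smooth.differentiable (by simp)) r).deriv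

theorem Qr_neg (q : ℝ → ℂ) (r : ℝ) : Qr q (-r) = Qr q r := by
  simp [Qr]

/-- the profile equation in r -/
theorem Qr_ode (hP : Prof n b q) {r : ℝ} (hr : 0 < r) :
    deriv (deriv (Qr q)) r = -(11 / (r : ℂ) + Complex.I * r / 2) * deriv (Qr q) r
      - ((b : ℂ) + Complex.I * (aa n : ℂ)) * Qr q r + NL n (Qr q r) := by
  have h1 : deriv (Qr q) = fun r : ℝ => (r : ℂ) / 2 * Qr (deriv q) r := funext (deriv_Qr hP)
  have hd : Differentiable ℝ (deriv q) := by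
    have := (Zit_smooth hP 1).differentiable (by simp)
    rwa [iteratedDeriv_one] at this
  have h2 := ((Zhalf_deriv r).mul (Zcomp_deriv hd r)).deriv
  have h3 := hP.ode (r ^ 2 / 4) (by positivity)
  have hr' : (r : ℂ) ≠ 0 := by exact_mod_cast hr.ne'
  rw [h1]
  refine h2.trans ?_
  simp only [Qr]
  rw [← h3]
  push_cast
  field_simp
  ring

theorem NL_eq_norm (n : ℕ) (u : ℂ) : NL n u = ((‖u‖ ^ (2 * n) : ℝ) : ℂ) * u := by
  rw [NL, ← Zpow_conj]
  ring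

theorem V1_eq_norm (n : ℕ) (u : ℂ) : V1 n u = (((n + 1) * ‖u‖ ^ (2 * n) : ℝ) : ℂ) := by
  rw [V1, Zpow_conj]
  push_cast
  rfl

theorem V2_mul_conj (hn : 1 ≤ n) (u : ℂ) : V2 n u * conj u = ((n * ‖u‖ ^ (2 * n) : ℝ) : ℂ) * u := by
  obtain ⟨k, rfl⟩ : ∃ k, n = k + 1 := ⟨n - 1, by omega⟩
  rw [V2, Complex.ofReal_mul, ← Zpow_conj, Nat.add_sub_cancel]
  push_cast
  ring

/-- symbol bounds in r: every r-derivative of g(r²/4) is a sum of terms r^l g^{(j)}(r²/4) with 2j - l = i, l ≤ j (induction on i for the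
class of finite sums, or `norm_iteratedFDeriv_comp_le`-type estimate after scaling) -/
theorem Qr_symb (hP : Prof n b q) (i : ℕ) : ∃ C : ℝ, ∀ r : ℝ, 0 ≤ r →
    ‖iteratedDeriv i (Qr q) r‖ ≤ C * (1 + r) ^ (-(2 * aa n) - i) := by
  obtain ⟨C, -, hC⟩ := (ZS_Q hP i).bd i le_rfl
  exact ⟨C, hC⟩

/-- the potentials are symbols of order -2 (product of 2n symbols of order -2a, 2n·2a = 2) -/
theorem V_symb (hP : Prof n b q) (i : ℕ) : ∃ C : ℝ, ∀ r : ℝ, 0 ≤ r →
    ‖iteratedDeriv i (fun s => V1 n (Qr q s)) r‖ ≤ C * (1 + r) ^ (-(2 : ℝ) - i) ∧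
    ‖iteratedDeriv i (fun s => V2 n (Qr q s)) r‖ ≤ C * (1 + r) ^ (-(2 : ℝ) - i) := by
  have hQ := ZS_Q hP i
  have hn : (n : ℝ) ≠ 0 := by exact_mod_cast (Nat.one_le_iff_ne_zero.1 hP.npos)
  have h1 : ZS i (-2) fun s => V1 n (Qr q s) := by
    refine (((hQ.pow n).mul (hQ.conj.pow n)).const_mul ((n : ℂ) + 1)).mono (le_of_eq ?_)
    unfold aa
    field_simp
    ring
  have h2 : ZS i (-2) fun s => V2 n (Qr q s) := by
    refine (((hQ.pow (n + 1)).mul (hQ.conj.pow (n - 1))).const_mul (n : ℂ)).mono (le_of_eq ?_)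
    rw [Nat.cast_sub hP.npos]
    unfold aa
    push_cast
    field_simp
    ring
  obtain ⟨C, hC0, hC⟩ := h1.bd i le_rfl
  obtain ⟨D, hD0, hD⟩ := h2.bd i le_rfl
  refine ⟨C + D, fun r hr => ⟨(hC r hr).trans ?_, (hD r hr).trans ?_⟩⟩
  · exact mul_le_mul_of_nonneg_right (by linarith) (by positivity)
  · exact mul_le_mul_of_nonneg_right (by linarith) (by positivity)

theorem radAdm_add (hf : RadAdm f) (hg : RadAdm g) : RadAdm (fun r => f r + g r) := by
  exact radAdm_iff_ZS.2 ((radAdm_iff_ZS.1 hf).add (radAdm_iff_ZS.1 hg))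

theorem radAdm_const_mul (c : ℂ) (hf : RadAdm f) : RadAdm (fun r => c * f r) := by
  exact radAdm_iff_ZS.2 ((radAdm_iff_ZS.1 hf).const_mul c)

theorem radAdm_conj (hf : RadAdm f) : RadAdm (fun r => conj (f r)) := by
  exact radAdm_iff_ZS.2 (radAdm_iff_ZS.1 hf).conj

theorem radAdm_Q (hP : Prof n b q) : RadAdm (Qr q) := by
  exact radAdm_iff_ZS.2 ((ZS_Q hP 24).mono (by linarith [Zaa_nonneg n]))

theorem radAdm_ph0 (hP : Prof n b q) : RadAdm (ph0 (Qr q)) := by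
  exact radAdm_const_mul Complex.I (radAdm_Q hP)

theorem radAdm_ph1 (hP : Prof n b q) : RadAdm (ph1 (aa n) b (Qr q)) := by
  have h : RadAdm fun r : ℝ => (r : ℂ) / 2 * deriv (Qr q) r :=
    radAdm_iff_ZS.2 (((ZS.half 24).mul (ZS_Q hP 25).deriv).mono (by linarith [Zaa_nonneg n]))
  have := radAdm_add (radAdm_const_mul (-(aa n : ℂ) + Complex.I * b) (radAdm_Q hP))
    (radAdm_const_mul (-1) h)
  convert this using 2 with r
  simp only [ph1]
  ring

theorem radAdm_ph2 (hP : Prof n b q) : RadAdm (ph2 (Qr q)) := by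
  exact radAdm_iff_ZS.2 ((ZS_Q hP 25).deriv.mono (by linarith [Zaa_nonneg n]))

theorem radAdm_phc (hP : Prof n b q) (c₀ c₁ c₂ : ℂ) : RadAdm (phc (aa n) b (Qr q) c₀ c₁ c₂) := by
  exact radAdm_add (radAdm_add (radAdm_const_mul c₀ (radAdm_ph0 hP))
    (radAdm_const_mul c₁ (radAdm_ph1 hP))) (radAdm_const_mul c₂ (radAdm_ph2 hP))

end

end Crest.Agent.R086.M
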