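import Crest.Agent.R086.M.OdeLim
import Crest.Agent.R086.M.Zero

/-! # Row 86, part M-a: existence of the limits n → ∞ (task) -/

open MeasureTheory Set Filter Topology
open scoped ContDiff ComplexConjugate

namespace Crest.Agent.R086.M

noncomputable section

variable {b R : ℕ → ℝ} {q : ℕ → ℝ → ℂ}

/-- locally uniform convergence to a continuous limit on (R, ∞) -/
structure Lims_T {E : Type} [NormedAddCommGroup E] (R : ℝ) (c : ℕ → ℝ → E) (c' : ℝ → E) : Prop where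
  cont : ContinuousOn c' (Ioi R)
  lim : TendstoLocallyUniformlyOn c c' atTop (Ioi R)

namespace Lims_T

variable {E E' : Type} [NormedAddCommGroup E] [NormedAddCommGroup E'] {T : ℝ}
  {c d : ℕ → ℝ → E} {c' d' : ℝ → E}

theorem icc (h : Lims_T T c c') (s S : ℝ) (hs : T < s) : TendstoUniformlyOn c c' atTop (Icc s S) :=
  (tendstoLocallyUniformlyOn_iff_forall_isCompact isOpen_Ioi).1 h.lim _
    (fun _ hr => hs.trans_le hr.1) isCompact_Icc

theorem of_icc (hc : ContinuousOn c' (Ioi T))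
    (h : ∀ s S : ℝ, T < s → TendstoUniformlyOn c c' atTop (Icc s S)) : Lims_T T c c' :=
  ⟨hc, tendstoLocallyUniformlyOn_of_forall_exists_nhds fun x hx =>
    ⟨Icc ((T + x) / 2) (x + 1), mem_nhdsWithin_of_mem_nhds
      (Icc_mem_nhds (by linarith [mem_Ioi.1 hx]) (by linarith)), h _ _ (by linarith [mem_Ioi.1 hx])⟩⟩

theorem const {a : ℕ → E} {a' : E} (h : Tendsto a atTop (𝓝 a')) :
    Lims_T T (fun k _ => a k) fun _ => a' :=
  ⟨continuousOn_const, (h.tendstoUniformlyOn_const _).tendstoLocallyUniformlyOn⟩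

theorem fixed (h : ContinuousOn c' (Ioi T)) : Lims_T T (fun _ => c') c' :=
  of_icc h fun _ _ _ _ hu => Eventually.of_forall fun _ _ _ => refl_mem_uniformity hu

theorem cst (a : E) : Lims_T T (fun _ _ => a) fun _ => a := fixed continuousOn_const

theorem add (h : Lims_T T c c') (h' : Lims_T T d d') :
    Lims_T T (fun k r => c k r + d k r) fun r => c' r + d' r :=
  ⟨h.cont.add h'.cont, h.lim.add h'.lim⟩

theorem sub (h : Lims_T T c c') (h' : Lims_T T d d') :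
    Lims_T T (fun k r => c k r - d k r) fun r => c' r - d' r :=
  ⟨h.cont.sub h'.cont, h.lim.sub h'.lim⟩

theorem smul [NormedSpace ℂ E] {a : ℕ → ℝ → ℂ} {a' : ℝ → ℂ} (h : Lims_T T a a')
    (h' : Lims_T T d d') : Lims_T T (fun k r => a k r • d k r) fun r => a' r • d' r :=
  ⟨h.cont.smul h'.cont, h.lim.smul₀ h'.lim h.cont h'.cont⟩

theorem mul {a d : ℕ → ℝ → ℂ} {a' d' : ℝ → ℂ} (h : Lims_T T a a') (h' : Lims_T T d d') :
    Lims_T T (fun k r => a k r * d k r) fun r => a' r * d' r := h.smul h'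

theorem prodMk {d : ℕ → ℝ → E'} {d' : ℝ → E'} (h : Lims_T T c c') (h' : Lims_T T d d') :
    Lims_T T (fun k r => (c k r, d k r)) fun r => (c' r, d' r) :=
  ⟨h.cont.prodMk h'.cont, h.lim.prodMk h'.lim⟩

theorem map (h : Lims_T T c c') {φ : E → E'} (hφ : UniformContinuous φ) :
    Lims_T T (fun k r => φ (c k r)) fun r => φ (c' r) :=
  ⟨hφ.continuous.comp_continuousOn h.cont, hφ.comp_tendstoLocallyUniformlyOn h.lim⟩

theorem cj {a : ℕ → ℝ → ℂ} {a' : ℝ → ℂ} (h : Lims_T T a a') :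
    Lims_T T (fun k r => conj (a k r)) fun r => conj (a' r) :=
  h.map Complex.isometry_conj.uniformContinuous

theorem prod {E'' : Type} [NormedAddCommGroup E''] [NormedSpace ℝ E] [NormedSpace ℝ E']
    [NormedSpace ℝ E''] {A : ℕ → ℝ → E →L[ℝ] E'} {A' : ℝ → E →L[ℝ] E'} {B : ℕ → ℝ → E →L[ℝ] E''}
    {B' : ℝ → E →L[ℝ] E''} (h : Lims_T T A A') (h' : Lims_T T B B') :
    Lims_T T (fun k r => (A k r).prod (B k r)) fun r => (A' r).prod (B' r) :=
  (h.prodMk h').map (ContinuousLinearMap.prodₗᵢ ℝ).isometry.uniformContinuous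

theorem zero (h : ∀ s ε : ℝ, T < s → 0 < ε → ∀ᶠ k in atTop, ∀ r, s ≤ r → ‖c k r‖ ≤ ε) :
    Lims_T T c fun _ => 0 :=
  of_icc continuousOn_const fun s _ hs => Metric.tendstoUniformlyOn_iff.2 fun ε hε =>
    (h s (ε / 2) hs (half_pos hε)).mono fun k hk r hr => by
      rw [dist_comm, dist_zero_right]
      exact (hk r hr.1).trans_lt (half_lt_self hε)

theorem pt (h : Lims_T T c c') {r : ℝ} (hr : T < r) : Tendsto (fun k => c k r) atTop (𝓝 (c' r)) :=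
  h.lim.tendsto_at hr

end Lims_T

/-- the coefficient matrix of the first order system -/
def Lims_A (α₁ β₁ γ₁ α₂ β₂ γ₂ : ℂ) : (ℂ × ℂ × ℂ × ℂ) →L[ℝ] ℂ × ℂ × ℂ × ℂ :=
  let p₁ : (ℂ × ℂ × ℂ × ℂ) →L[ℝ] ℂ := .fst ℝ _ _
  let p₂ : (ℂ × ℂ × ℂ × ℂ) →L[ℝ] ℂ := (ContinuousLinearMap.fst ℝ _ _).comp (.snd ℝ _ _)
  let p₃ : (ℂ × ℂ × ℂ × ℂ) →L[ℝ] ℂ :=
    (ContinuousLinearMap.fst ℝ _ _).comp ((ContinuousLinearMap.snd ℝ _ _).comp (.snd ℝ _ _))
  let p₄ : (ℂ × ℂ × ℂ × ℂ) →L[ℝ] ℂ :=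
    (ContinuousLinearMap.snd ℝ _ _).comp ((ContinuousLinearMap.snd ℝ _ _).comp (.snd ℝ _ _))
  p₂.prod ((α₁ • p₂ + β₁ • p₁ + γ₁ • p₃).prod (p₄.prod (α₂ • p₄ + β₂ • p₃ + γ₂ • p₁)))

theorem Lims_A_apply (α₁ β₁ γ₁ α₂ β₂ γ₂ : ℂ) (x : ℂ × ℂ × ℂ × ℂ) : Lims_A α₁ β₁ γ₁ α₂ β₂ γ₂ x =
    (x.2.1, α₁ * x.2.1 + β₁ * x.1 + γ₁ * x.2.2.1, x.2.2.2,
      α₂ * x.2.2.2 + β₂ * x.2.2.1 + γ₂ * x.1) := rfl

theorem Lims_sys {T r₁ : ℝ} (hr₁ : T < r₁) {f g α₁ β₁ γ₁ e₁ α₂ β₂ γ₂ e₂ : ℕ → ℝ → ℂ}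
    {α₁' β₁' e₁' α₂' β₂' e₂' : ℝ → ℂ} (a1 : Lims_T T α₁ α₁') (b1 : Lims_T T β₁ β₁')
    (c1 : Lims_T T γ₁ fun _ => 0) (d1 : Lims_T T e₁ e₁') (a2 : Lims_T T α₂ α₂')
    (b2 : Lims_T T β₂ β₂') (c2 : Lims_T T γ₂ fun _ => 0) (d2 : Lims_T T e₂ e₂')
    (h : ∀ᶠ k in atTop, ContDiff ℝ 2 (f k) ∧ ContDiff ℝ 2 (g k) ∧ ∀ r, T < r →
      deriv (deriv (f k)) r = α₁ k r * deriv (f k) r + β₁ k r * f k r + γ₁ k r * g k r + e₁ k r ∧
      deriv (deriv (g k)) r = α₂ k r * deriv (g k) r + β₂ k r * g k r + γ₂ k r * f k r + e₂ k r)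
    {d : ℂ × ℂ × ℂ × ℂ} (hd : Tendsto (fun k => dat (f k) (g k) r₁) atTop (𝓝 d)) :
    ∃ F F₁ G G₁ : ℝ → ℂ, (∀ r, T < r → HasDerivAt F (F₁ r) r) ∧
      (∀ r, T < r → HasDerivAt F₁ (α₁' r * F₁ r + β₁' r * F r + e₁' r) r) ∧
      (∀ r, T < r → HasDerivAt G (G₁ r) r) ∧
      (∀ r, T < r → HasDerivAt G₁ (α₂' r * G₁ r + β₂' r * G r + e₂' r) r) ∧
      Lims_T T f F ∧ Lims_T T (fun k => deriv (f k)) F₁ ∧ Lims_T T g G ∧
      Lims_T T (fun k => deriv (g k)) G₁ := by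
  have hA : Lims_T T (fun k r => Lims_A (α₁ k r) (β₁ k r) (γ₁ k r) (α₂ k r) (β₂ k r) (γ₂ k r))
      fun r => Lims_A (α₁' r) (β₁' r) 0 (α₂' r) (β₂' r) 0 :=
    (Lims_T.cst _).prod ((((a1.smul (.cst _)).add (b1.smul (.cst _))).add (c1.smul (.cst _))).prod
      ((Lims_T.cst _).prod (((a2.smul (.cst _)).add (b2.smul (.cst _))).add (c2.smul (.cst _)))))
  have hF := (Lims_T.cst (0 : ℂ)).prodMk (d1.prodMk ((Lims_T.cst (0 : ℂ)).prodMk d2))
  have D : ∀ {f : ℝ → ℂ}, ContDiff ℝ 2 f → ∀ r, HasDerivAt f (deriv f r) r ∧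
      HasDerivAt (deriv f) (deriv (deriv f) r) r := fun hf r =>
    ⟨(hf.differentiable (by norm_num) r).hasDerivAt,
      ((hf.deriv' (n := 1)).differentiable (by norm_num) r).hasDerivAt⟩
  obtain ⟨U, hU, hl⟩ := ode_lim T r₁ hr₁ (fun k => dat (f k) (g k)) _ _ _ _ d hA.cont hF.cont
    (fun s S hs => h.mono fun k hk r hr => by
      obtain ⟨e1, e2⟩ := hk.2.2 r (hs.trans_le hr.1)
      refine ((D hk.1 r).1.prodMk ((D hk.1 r).2.prodMk
        ((D hk.2.1 r).1.prodMk (D hk.2.1 r).2))).congr_deriv ?_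
      simp only [Lims_A_apply, dat, Prod.mk_add_mk, add_zero, e1, e2]) hA.icc hF.icc hd
  have hT := Lims_T.of_icc (fun r hr => (hU r hr).continuousAt.continuousWithinAt) hl
  simp only [Lims_A_apply, Prod.mk_add_mk, add_zero, zero_mul] at hU
  exact ⟨fun r => (U r).1, fun r => (U r).2.1, fun r => (U r).2.2.1, fun r => (U r).2.2.2,
    fun r hr => (hU r hr).fst, fun r hr => (hU r hr).snd.fst, fun r hr => (hU r hr).snd.snd.fst,
    fun r hr => (hU r hr).snd.snd.snd, hT.map uniformContinuous_fst,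
    (hT.map uniformContinuous_snd).map uniformContinuous_fst,
    ((hT.map uniformContinuous_snd).map uniformContinuous_snd).map uniformContinuous_fst,
    ((hT.map uniformContinuous_snd).map uniformContinuous_snd).map uniformContinuous_snd⟩

theorem Lims_V (hF : Fam b R q) {ν : ℕ → ℕ} (hν : Tendsto ν atTop atTop) {R' : ℝ} (h1 : 1 ≤ R')
    (hR : Tendsto (fun k => R (ν k)) atTop (𝓝 R')) (s ε : ℝ) (hs : R' < s) (hε : 0 < ε) :
    ∀ᶠ k in atTop, ∀ r, s ≤ r →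
      ‖V1 (ν k) (Qr (q (ν k)) r)‖ ≤ ε ∧ ‖V2 (ν k) (Qr (q (ν k)) r)‖ ≤ ε := by
  filter_upwards [hν.eventually (hF.tiny ((s - R') / 2) (by linarith) ε hε),
    hR.eventually (gt_mem_nhds (by linarith : R' < (s + R') / 2))] with k hk hk' r hr
  have h2 := hk 0 (Nat.zero_le _) r (by linarith)
  have h3 : ε * r ^ (-(2 : ℝ) - (0 : ℕ)) ≤ ε := mul_le_of_le_one_right hε.le
    (Real.rpow_le_one_of_one_le_of_nonpos (by linarith) (by norm_num))
  exact ⟨h2.1.trans h3, h2.2.trans h3⟩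

theorem Lims_aa {ν : ℕ → ℕ} (hν : Tendsto ν atTop atTop) :
    Tendsto (fun k => aa (ν k)) atTop (𝓝 0) := by
  have := ((tendsto_natCast_atTop_atTop (R := ℝ)).const_mul_atTop two_pos).inv_tendsto_atTop.comp hν
  exact this.congr fun k => (one_div _).symm

theorem Lims_re {T : ℝ} {a : ℕ → ℝ} {a' : ℝ} (h : Tendsto a atTop (𝓝 a')) :
    Lims_T T (fun k _ => (a k : ℂ)) fun _ => (a' : ℂ) :=
  .const ((Complex.continuous_ofReal.tendsto _).comp h)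

theorem Lims_id (T : ℝ) (k : ℕ) : ContDiffOn ℝ k (fun r : ℝ => (r : ℂ)) (Ioi T) :=
  Complex.ofRealCLM.contDiff.contDiffOn

theorem Lims_div {T : ℝ} (hT : 0 ≤ T) (k j : ℕ) (a : ℂ) :
    ContDiffOn ℝ k (fun r : ℝ => a / (r : ℂ) ^ j) (Ioi T) := by
  simp only [div_eq_mul_inv]
  exact contDiffOn_const.mul (((Lims_id T k).pow j).inv fun r hr =>
    pow_ne_zero _ (Complex.ofReal_ne_zero.2 (hT.trans_lt hr).ne'))

theorem Lims_al {T : ℝ} (hT : 0 ≤ T) (k : ℕ) (a : ℂ) :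
    ContDiffOn ℝ k (fun r : ℝ => -(11 / (r : ℂ) + a * r / 2)) (Ioi T) := by
  have := Lims_div hT k 1 11
  simp only [pow_one] at this
  exact (this.add ((contDiffOn_const.mul (Lims_id T k)).div_const 2)).neg

theorem Lims_edge {h : ℕ → ℝ → ℂ} {T : ℕ → ℝ} {T' C : ℝ} {z : ℂ} {H : ℝ → ℂ}
    (hT : Tendsto T atTop (𝓝 T')) (h0 : ∀ ε, 0 < ε → ∀ᶠ k in atTop, ‖h k (T k) - z‖ ≤ ε)
    (h1 : ∀ᶠ k in atTop, Differentiable ℝ (h k) ∧ ∀ r ∈ Icc (T k) (T k + 1), ‖deriv (h k) r‖ ≤ C)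
    (h2 : ∀ r, T' < r → Tendsto (fun k => h k r) atTop (𝓝 (H r))) :
    Tendsto H (𝓝[>] T') (𝓝 z) := by
  rw [tendsto_iff_norm_sub_tendsto_zero]
  refine squeeze_zero' (g := fun r => C * (r - T')) (Eventually.of_forall fun _ => norm_nonneg _) ?_ ?_
  · filter_upwards [Ioo_mem_nhdsGT (lt_add_one T')] with r hr
    refine le_of_forall_pos_le_add fun ε hε => le_of_tendsto_of_tendsto
      ((h2 r hr.1).sub_const z).norm (((hT.const_sub r).const_mul C).add_const ε) ?_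
    filter_upwards [h0 ε hε, h1, hT.eventually (gt_mem_nhds hr.1),
      hT.eventually (lt_mem_nhds (sub_lt_iff_lt_add.2 hr.2))] with k k0 k1 k2 k3
    have := (convex_Icc _ _).norm_image_sub_le_of_norm_deriv_le (fun x _ => k1.1 x) k1.2
      (left_mem_Icc.2 (by linarith)) (⟨k2.le, by linarith⟩ : r ∈ Icc (T k) (T k + 1))
    rw [Real.norm_of_nonneg (by linarith)] at this
    exact (norm_sub_le_norm_sub_add_norm_sub _ (h k (T k)) _).trans (add_le_add this k0)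
  · refine tendsto_nhdsWithin_of_tendsto_nhds ?_
    have : Continuous fun r : ℝ => C * (r - T') := by fun_prop
    simpa using this.tendsto T'

theorem Lims_phc {T : ℝ} {Q : ℕ → ℝ → ℂ} {Φ : ℝ → ℂ} (hQ : Lims_T T Q Φ)
    (hQ' : Lims_T T (fun k => deriv (Q k)) (deriv Φ)) {a b : ℕ → ℝ} {a' b' : ℝ}
    (ha : Tendsto a atTop (𝓝 a')) (hb : Tendsto b atTop (𝓝 b')) {c₀ c₁ c₂ : ℕ → ℂ}
    {c₀' c₁' c₂' : ℂ} (h0 : Tendsto c₀ atTop (𝓝 c₀')) (h1 : Tendsto c₁ atTop (𝓝 c₁'))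
    (h2 : Tendsto c₂ atTop (𝓝 c₂')) :
    Lims_T T (fun k => phc (a k) (b k) (Q k) (c₀ k) (c₁ k) (c₂ k)) (phc a' b' Φ c₀' c₁' c₂') :=
  (((Lims_T.const h0).mul ((Lims_T.cst _).mul hQ)).add ((Lims_T.const h1).mul
    ((((((Lims_re ha).map uniformContinuous_neg).add ((Lims_T.cst _).mul (Lims_re hb))).mul hQ).sub
      ((Lims_T.fixed ((Lims_id T 0).continuousOn.div_const 2)).mul hQ'))))).add
    ((Lims_T.const h2).mul hQ')

theorem Lims_phc_smooth {T : ℝ} {Φ : ℝ → ℂ} (hΦ : ContDiffOn ℝ 14 Φ (Ioi T)) (a b : ℝ)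
    (c₀ c₁ c₂ : ℂ) : ContDiffOn ℝ (10 : ℕ) (phc a b Φ c₀ c₁ c₂) (Ioi T) := by
  have h0 : ContDiffOn ℝ (10 : ℕ) Φ (Ioi T) := hΦ.of_le (by norm_num)
  have h1 : ContDiffOn ℝ (10 : ℕ) (deriv Φ) (Ioi T) := hΦ.deriv_of_isOpen isOpen_Ioi (by norm_num)
  exact ((contDiffOn_const.mul (contDiffOn_const.mul h0)).add (contDiffOn_const.mul
    ((contDiffOn_const.mul h0).sub (((Lims_id T 10).div_const 2).mul h1)))).add
    (contDiffOn_const.mul h1)

/-- the free equation -/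
theorem Lims_free {T : ℝ} (hT : 0 ≤ T) (k m : ℕ) (α : ℂ) {F F₁ e : ℝ → ℂ}
    (he : ContDiffOn ℝ k e (Ioi T)) (h0 : ∀ r, T < r → HasDerivAt F (F₁ r) r)
    (h1 : ∀ r, T < r → HasDerivAt F₁ (-(11 / (r : ℂ) + Complex.I * r / 2) * F₁ r +
      ((m : ℂ) * (m + 10) / (r : ℂ) ^ 2 - Complex.I * α) * F r + -Complex.I * e r) r) :
    ContDiffOn ℝ (k + 2 : ℕ) F (Ioi T) ∧ (∀ r, T < r → deriv F r = F₁ r) ∧
      ∀ r, T < r → Complex.I * DD m F r = α * F r + (r : ℂ) / 2 * deriv F r + e r := by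
  obtain ⟨a1, a2, a3⟩ := smooth_of_ode T k (Lims_al hT k _)
    ((Lims_div hT k 2 _).sub contDiffOn_const) (contDiffOn_const.mul he) h0 h1
  refine ⟨a1, a2, fun r hr => ?_⟩
  rw [DD, a3 r hr, a2 r hr]
  linear_combination (-(r : ℂ) / 2 * F₁ r - α * F r - e r) * Complex.I_mul_I

/-- the limit profile: `ode_lim` in ℂ × ℂ for (Q,Q') (`Qr_ode`, NL Q = V Q with |V| ≤ |V1| → 0 uniformly on [s,S] by `Fam.tiny` with η = (s-R')/2;
a_n → 0, b_n → b'), `smooth_of_ode`; value and derivative at R': |Q(r) - 1| ≤ ε + C(r - R_n), |Q'(r)| ≤ ε + C(r - R_n) on [R_n,R_n+1] (`Fam.flat`, `Fam.bdd`) -/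
theorem lim_profile (hF : Fam b R q) (ν : ℕ → ℕ) (hν : Tendsto ν atTop atTop) (b' R' r₁ : ℝ)
    (hb : Tendsto (fun k => b (ν k)) atTop (𝓝 b')) (hR : Tendsto (fun k => R (ν k)) atTop (𝓝 R'))
    (hr₁ : R' < r₁) (z₀ z₁ : ℂ) (h0 : Tendsto (fun k => Qr (q (ν k)) r₁) atTop (𝓝 z₀))
    (h1 : Tendsto (fun k => deriv (Qr (q (ν k))) r₁) atTop (𝓝 z₁)) :
    ∃ Φ : ℝ → ℂ, InBox b' R' ∧ ContDiffOn ℝ 14 Φ (Ioi R') ∧
      (∀ r, R' < r → Complex.I * DD 0 Φ r = (-Complex.I * b') * Φ r + (r : ℂ) / 2 * deriv Φ r) ∧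
      (∀ s S : ℝ, R' < s → TendstoUniformlyOn (fun k => Qr (q (ν k))) Φ atTop (Icc s S) ∧
        TendstoUniformlyOn (fun k => deriv (Qr (q (ν k)))) (deriv Φ) atTop (Icc s S)) ∧
      Tendsto Φ (𝓝[>] R') (𝓝 1) ∧ Tendsto (deriv Φ) (𝓝[>] R') (𝓝 0) ∧
      (∀ r, R' < r → r < R' + 1 → Φ r ≠ 0) := by
  have hbox : InBox b' R' :=
    ⟨isClosed_Icc.mem_of_tendsto hb (hν.eventually (hF.box.mono fun n h => h.1)),
      isClosed_Icc.mem_of_tendsto hR (hν.eventually (hF.box.mono fun n h => h.2))⟩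
  have hR1 : 1 ≤ R' := le_trans (by norm_num) hbox.2.1
  have hR0 : 0 ≤ R' := by linarith
  have hW : Lims_T R' (fun k r => ((‖Qr (q (ν k)) r‖ ^ (2 * ν k) : ℝ) : ℂ)) fun _ => 0 :=
    .zero fun s ε hs hε => (Lims_V hF hν hR1 hR s ε hs hε).mono fun k hk r hr => by
      refine le_trans ?_ (hk r hr).1
      rw [V1_eq_norm, Complex.norm_real, Complex.norm_real, Real.norm_of_nonneg (by positivity),
        Real.norm_of_nonneg (by positivity)]
      exact le_mul_of_one_le_left (by positivity) (le_add_of_nonneg_left (Nat.cast_nonneg _))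
  obtain ⟨Φ, Φ₁, -, -, d0, d1, -, -, l0, l1, -⟩ := Lims_sys hr₁ (f := fun k => Qr (q (ν k)))
    (g := fun _ _ => 0) (.fixed (Lims_al hR0 0 Complex.I).continuousOn)
    (hW.sub ((Lims_re hb).add ((Lims_T.cst Complex.I).mul (Lims_re (Lims_aa hν))))) (.cst 0) (.cst 0)
    (.cst 0) (.cst 0) (.cst 0) (.cst 0) ((hν.eventually hF.prof).mono fun n hP =>
      ⟨contDiff_infty.1 (contDiff_Qr hP) 2, contDiff_const, fun r hr => by
        refine ⟨?_, by simp⟩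
        rw [Qr_ode hP (hR0.trans_lt hr), NL_eq_norm]
        ring⟩) (d := (z₀, z₁, 0, 0))
    (h0.prodMk_nhds (h1.prodMk_nhds (by simp)))
  obtain ⟨a1, a2, a3⟩ := Lims_free hR0 12 0 (-Complex.I * b') (e := fun _ => 0) contDiffOn_const d0
    fun r hr => (d1 r hr).congr_deriv (by
      push_cast
      linear_combination (-(b' : ℂ) * Φ r) * Complex.I_mul_I)
  obtain ⟨C, C0, hC⟩ := hF.bdd
  have hs : ∀ᶠ n in atTop, ContDiff ℝ 2 (Qr (q n)) ∧ 0 ≤ R n := by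
    filter_upwards [hF.prof, hF.box] with n hP hB
    exact ⟨contDiff_infty.1 (contDiff_Qr hP) 2, le_trans (by norm_num) hB.2.1⟩
  refine ⟨Φ, hbox, a1, fun r hr => by simpa using a3 r hr, fun s S hs => ⟨l0.icc s S hs,
    (l1.icc s S hs).congr_right fun r hr => (a2 r (hs.trans_le hr.1)).symm⟩,
    Lims_edge (h := fun k => Qr (q (ν k))) (C := C) hR (fun ε hε => ?_) ?_
      fun r hr => l0.pt hr,
    Lims_edge (h := fun k => deriv (Qr (q (ν k)))) (C := C) hR (fun ε hε => ?_) ?_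
      fun r hr => (a2 r hr).symm ▸ l1.pt hr, fun r hr hr' => ?_⟩
  · filter_upwards [hν.eventually (hF.flat ε hε), hν.eventually hs] with n h h'
    exact (h _ (right_mem_Icc.2 h'.2)).1
  · filter_upwards [hν.eventually hC, hν.eventually hs] with n h h'
    exact ⟨h'.1.differentiable (by norm_num), fun r hr => (h r ⟨h'.2.trans hr.1, hr.2⟩).2.2.1⟩
  · filter_upwards [hν.eventually (hF.flat ε hε), hν.eventually hs] with n h h'
    rw [sub_zero]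
    exact (h _ (right_mem_Icc.2 h'.2)).2
  · filter_upwards [hν.eventually hC, hν.eventually hs] with n h h'
    exact ⟨(h'.1.deriv' (n := 1)).differentiable (by norm_num),
      fun r hr => (h r ⟨h'.2.trans hr.1, hr.2⟩).2.2.2⟩
  · refine norm_pos_iff.1 ((one_div_pos.2 C0).trans_le (ge_of_tendsto (l0.pt hr).norm ?_))
    filter_upwards [hν.eventually hC, hR.eventually (lt_mem_nhds (sub_lt_iff_lt_add.2 hr'))]
      with k h h'
    exact (h r ⟨by linarith, by linarith⟩).1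

/-- the limit of the modes: `ode_lim` in ℂ⁴ (as a real space) for (f, f', ḡ, ḡ'), forcing -i·phc converging locally uniformly, V1, V2 → 0; `smooth_of_ode` -/
theorem lim_modes (hF : Fam b R q) {ν : ℕ → ℕ} {m : ℕ} {lam c₀ c₁ c₂ : ℕ → ℂ} {f g : ℕ → ℝ → ℂ}
    {b' R' : ℝ} {lam' c₀' c₁' c₂' : ℂ} (hS : LimSeq b R q ν m lam c₀ c₁ c₂ f g b' R' lam' c₀' c₁' c₂')
    (hbox : InBox b' R') {Φ : ℝ → ℂ} (hΦ : ContDiffOn ℝ 14 Φ (Ioi R'))
    (hode : ∀ r, R' < r → Complex.I * DD 0 Φ r = (-Complex.I * b') * Φ r + (r : ℂ) / 2 * deriv Φ r)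
    (hc : ∀ s S : ℝ, R' < s → TendstoUniformlyOn (fun k => Qr (q (ν k))) Φ atTop (Icc s S) ∧
        TendstoUniformlyOn (fun k => deriv (Qr (q (ν k)))) (deriv Φ) atTop (Icc s S))
    {r₁ : ℝ} (hr₁ : R' < r₁) (d : ℂ × ℂ × ℂ × ℂ) (hd : Tendsto (fun k => dat (f k) (g k) r₁) atTop (𝓝 d)) :
    ∃ F G : ℝ → ℂ, Lims q ν m f g b' R' lam' c₀' c₁' c₂' Φ F G := by
  have hR1 : 1 ≤ R' := le_trans (by norm_num) hbox.2.1
  have hR0 : 0 ≤ R' := by linarith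
  have hQ := Lims_T.of_icc hΦ.continuousOn fun s S hs => (hc s S hs).1
  have hQ' := Lims_T.of_icc (hΦ.continuousOn_deriv_of_isOpen isOpen_Ioi (by norm_num))
    fun s S hs => (hc s S hs).2
  have hV := Lims_V hF hS.hν hR1 hS.hR
  have v1 := Lims_T.zero fun s ε hs hε => (hV s ε hs hε).mono fun k hk r hr => (hk r hr).1
  have v2 := Lims_T.zero fun s ε hs hε => (hV s ε hs hε).mono fun k hk r hr => (hk r hr).2
  have v3 : Lims_T R' (fun k r => conj (V2 (ν k) (Qr (q (ν k)) r))) fun _ => 0 := by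
    simpa using v2.cj
  have ha := Lims_aa hS.hν
  have cj : ∀ {c : ℕ → ℂ} {c' : ℂ}, Tendsto c atTop (𝓝 c') →
      Tendsto (fun k => conj (c k)) atTop (𝓝 (conj c')) := fun h =>
    (Complex.continuous_conj.tendsto _).comp h
  have hM := Lims_T.fixed (Lims_div hR0 0 2 ((m : ℂ) * (m + 10))).continuousOn
  have hI := Lims_T.cst (T := R') Complex.I
  have hb := hI.mul (Lims_re hS.hb)
  have hl := (Lims_T.const (T := R') hS.hlam).add (Lims_re ha)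
  obtain ⟨F, F₁, G, G₁, d0, d1, d2, d3, l0, l1, l2, l3⟩ := Lims_sys hr₁ (f := f) (g := g)
    (.fixed (Lims_al hR0 0 Complex.I).continuousOn) ((hM.sub (hI.mul (hl.sub hb))).add v1) v2
    ((Lims_T.cst (-Complex.I)).mul (Lims_phc hQ hQ' ha hS.hb hS.hc₀ hS.hc₁ hS.hc₂))
    (.fixed (Lims_al hR0 0 (-Complex.I)).continuousOn) ((hM.add (hI.mul (hl.add hb))).add v1) v3
    (hI.mul (Lims_phc hQ hQ' ha hS.hb (cj hS.hc₀) (cj hS.hc₁) (cj hS.hc₂)).cj)
    (Eventually.of_forall fun k => ⟨(hS.admf k).smooth.of_le (by norm_num),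
      (hS.admg k).smooth.of_le (by norm_num), fun r hr => by
        obtain ⟨e1, e2⟩ := hS.eqn k r (hR0.trans_lt hr)
        rw [← e1, ← e2]
        unfold L1 L2 DD
        constructor
        · linear_combination (deriv (deriv (f k)) r + 11 / (r : ℂ) * deriv (f k) r -
            (m : ℂ) * (m + 10) / (r : ℂ) ^ 2 * f k r - V1 (ν k) (Qr (q (ν k)) r) * f k r -
            V2 (ν k) (Qr (q (ν k)) r) * g k r) * Complex.I_mul_I
        · linear_combination (deriv (deriv (g k)) r + 11 / (r : ℂ) * deriv (g k) r -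
            (m : ℂ) * (m + 10) / (r : ℂ) ^ 2 * g k r - V1 (ν k) (Qr (q (ν k)) r) * g k r -
            conj (V2 (ν k) (Qr (q (ν k)) r)) * f k r) * Complex.I_mul_I⟩) hd
  obtain ⟨a1, a2, a3⟩ := Lims_free hR0 10 m (lam' - Complex.I * b')
    (Lims_phc_smooth hΦ 0 b' c₀' c₁' c₂') d0 fun r hr => (d1 r hr).congr_deriv (by
      push_cast
      ring)
  obtain ⟨b1, b2, b3⟩ := Lims_free hR0 10 m (conj lam' - Complex.I * b')
    (F := fun r => conj (G r)) (F₁ := fun r => conj (G₁ r))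
    (Lims_phc_smooth hΦ 0 b' (conj c₀') (conj c₁') (conj c₂')) (fun r hr => (d2 r hr).star)
    fun r hr => (d3 r hr).star.congr_deriv (by
      simp only [Complex.star_def, map_add, map_mul, map_neg, map_div₀, map_pow, map_natCast,
        map_ofNat, Complex.conj_I, Complex.conj_ofReal, Complex.conj_conj, map_zero]
      push_cast
      ring)
  exact ⟨F, fun r => conj (G r), hΦ.of_le (by norm_num), a1, b1, hode, a3, b3, fun r hr => hQ.pt hr,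
    fun r hr => hQ'.pt hr, fun r hr => l0.pt hr, fun r hr => (a2 r hr).symm ▸ l1.pt hr,
    fun r hr => l2.cj.pt hr, fun r hr => (b2 r hr).symm ▸ l3.cj.pt hr⟩

end

end Crest.Agent.R086.M
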