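import Crest.Agent.R086.M.Lims
import Crest.Agent.R086.M.BC
import Crest.Agent.R086.M.Zero2

/-! # Row 86, part M-a: low frequencies (task) -/

open MeasureTheory Set Filter Topology
open scoped ContDiff ComplexConjugate

namespace Crest.Agent.R086.M

noncomputable section

variable {b R : ℕ → ℝ} {q : ℕ → ℝ → ℂ}

/-- a counterexample to `MS` of frequency ≤ B -/
def Bad (n : ℕ) (b : ℝ) (q : ℝ → ℂ) (B : ℝ) : Prop :=
  ∃ (m : ℕ) (lam c₀ c₁ c₂ : ℂ) (f g : ℝ → ℂ), 0 ≤ lam.re ∧ lam.re ≤ 33 / 10 ∧ bet m lam ≤ B ∧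
    RadAdm f ∧ RadAdm g ∧ Allowed m c₀ c₁ c₂ ∧ Eqn n b q m lam c₀ c₁ c₂ f g ∧ ¬ InE (aa n) b (Qr q) 0 m f g

/-- Extraction: choose counterexamples for n ≥ N; m ≤ B takes one value infinitely often, (λ, b, R) lie in a compact set (`tendsto_subseq_of_bounded`);
put r₁ = R' + η/2, so eventually R(ν k) ≤ r₁ ≤ R(ν k) + η; `normalise` at r₁; then (dat, e₀, e₁, e₂, Q(r₁), Q'(r₁)) are bounded (`Fam.bdd`), extract again. -/
theorem extract (hF : Fam b R q) (B : ℝ) (η : ℕ → ℝ) (hη : ∀ m, 0 < η m ∧ η m ≤ 1 / 2)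
    (h : ∀ᶠ n in atTop, Bad n (b n) (q n) B) :
    ∃ (ν : ℕ → ℕ) (m : ℕ) (lam c₀ c₁ c₂ : ℕ → ℂ) (f g : ℕ → ℝ → ℂ) (b' R' : ℝ) (lam' c₀' c₁' c₂' z₀ z₁ : ℂ)
      (d : ℂ × ℂ × ℂ × ℂ), LimSeq b R q ν m lam c₀ c₁ c₂ f g b' R' lam' c₀' c₁' c₂' ∧
      (∀ k, ‖lam k‖ ≤ B + 4) ∧
      Tendsto (fun k => Qr (q (ν k)) (R' + η m / 2)) atTop (𝓝 z₀) ∧
      Tendsto (fun k => deriv (Qr (q (ν k))) (R' + η m / 2)) atTop (𝓝 z₁) ∧
      Tendsto (fun k => dat (f k) (g k) (R' + η m / 2)) atTop (𝓝 d) ∧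
      (∀ k, ‖dat (f k) (g k) (R' + η m / 2)‖ + ‖c₀ k‖ + ‖c₁ k‖ + ‖c₂ k‖ = 1) ∧
      ∀ k, ∀ d₀ d₁ d₂ : ℂ, Allowed m d₀ d₁ d₂ → ‖dat (f k) (g k) (R' + η m / 2)‖ ≤
        ‖dat (f k) (g k) (R' + η m / 2) - dat (phc (aa (ν k)) (b (ν k)) (Qr (q (ν k))) d₀ d₁ d₂)
          (fun r => conj (phc (aa (ν k)) (b (ν k)) (Qr (q (ν k))) (conj d₀) (conj d₁) (conj d₂) r))
          (R' + η m / 2)‖ := by
  classical
  obtain ⟨CQ, hCQ, hbdd⟩ := hF.bdd
  obtain ⟨N, hN⟩ := eventually_atTop.1 (h.and (hF.prof.and (hF.box.and hbdd)))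
  have hbad : ∀ k, Bad (k + N) (b (k + N)) (q (k + N)) B := fun k => (hN _ (Nat.le_add_left _ _)).1
  choose mm lam c₀ c₁ c₂ f g h0 h1 hB hf hg hc hEq hE using hbad
  -- m takes one value infinitely often
  have hmB : ∀ k, (mm k : ℝ) ≤ B := by
    intro k
    have := hB k
    unfold bet MM at this
    have h2 : (0 : ℝ) ≤ mm k := Nat.cast_nonneg _
    nlinarith [abs_nonneg (lam k).im]
  obtain ⟨m, hm⟩ : ∃ m, ∃ᶠ k in atTop, mm k = m := by
    by_contra hcon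
    push Not at hcon
    have hall : ∀ᶠ k in atTop, ∀ m ∈ Finset.range (⌈B⌉₊ + 1), mm k ≠ m :=
      (Finset.eventually_all _).2 fun m _ => hcon m
    obtain ⟨k, hk⟩ := hall.exists
    refine hk (mm k) (Finset.mem_range.2 (Nat.lt_succ_of_le ?_)) rfl
    exact_mod_cast (hmB k).trans (Nat.le_ceil B)
  obtain ⟨φ₁, hφ₁, hmφ⟩ := extraction_of_frequently_atTop hm
  have hlam : ∀ k, ‖lam k‖ ≤ B + 4 := by
    intro k
    have h2 := Complex.norm_le_abs_re_add_abs_im (lam k)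
    have h3 := hB k
    unfold bet MM at h3
    have h4 : (0 : ℝ) ≤ (mm k : ℝ) * (mm k + 10) := by positivity
    rw [abs_of_nonneg (h0 k)] at h2
    linarith [h1 k]
  have hbox : ∀ k, InBox (b (k + N)) (R (k + N)) := fun k => (hN _ (Nat.le_add_left _ _)).2.2.1
  have hprof : ∀ k, Prof (k + N) (b (k + N)) (q (k + N)) := fun k => (hN _ (Nat.le_add_left _ _)).2.1
  -- first extraction
  obtain ⟨⟨lam', b', R'⟩, -, φ₂, hφ₂, hlim⟩ := tendsto_subseq_of_bounded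
    (Metric.isBounded_closedBall (x := (0 : ℂ × ℝ × ℝ)) (r := |B| + 4))
    (x := fun k => (lam (φ₁ k), b (φ₁ k + N), R (φ₁ k + N))) (fun k => by
      rw [mem_closedBall_zero_iff, Prod.norm_def, Prod.norm_def]
      obtain ⟨⟨hb1, hb2⟩, hR1, hR2⟩ := hbox (φ₁ k)
      refine max_le ((hlam _).trans (by linarith [le_abs_self B])) (max_le ?_ ?_)
      · simp only [Real.norm_eq_abs]; rw [abs_of_nonneg (by linarith)]; linarith [abs_nonneg B]
      · simp only [Real.norm_eq_abs]; rw [abs_of_nonneg (by linarith)]; linarith [abs_nonneg B])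
  set ψ : ℕ → ℕ := fun k => φ₁ (φ₂ k) with hψ
  have hlamψ : Tendsto (fun k => lam (ψ k)) atTop (𝓝 lam') := (continuous_fst.tendsto _).comp hlim
  have hbψ : Tendsto (fun k => b (ψ k + N)) atTop (𝓝 b') :=
    (continuous_fst.tendsto _).comp ((continuous_snd.tendsto _).comp hlim)
  have hRψ : Tendsto (fun k => R (ψ k + N)) atTop (𝓝 R') :=
    (continuous_snd.tendsto _).comp ((continuous_snd.tendsto _).comp hlim)
  have hR1 : 3.28936 ≤ R' := ge_of_tendsto' hRψ fun k => (hbox _).2.1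
  have hR2 : R' ≤ 3.28948 := le_of_tendsto' hRψ fun k => (hbox _).2.2
  have hmψ : ∀ k, mm (ψ k) = m := fun k => hmφ _
  set r₁ : ℝ := R' + η m / 2 with hr₁
  have hr₁0 : 0 < r₁ := by have := (hη m).1; linarith
  have hnorm : ∀ k, ∃ (f' g' : ℝ → ℂ) (e₀ e₁ e₂ : ℂ), RadAdm f' ∧ RadAdm g' ∧ Allowed m e₀ e₁ e₂ ∧
      Eqn (ψ k + N) (b (ψ k + N)) (q (ψ k + N)) m (lam (ψ k)) e₀ e₁ e₂ f' g' ∧
      ‖dat f' g' r₁‖ + ‖e₀‖ + ‖e₁‖ + ‖e₂‖ = 1 ∧
      ∀ d₀ d₁ d₂ : ℂ, Allowed m d₀ d₁ d₂ → ‖dat f' g' r₁‖ ≤ ‖dat f' g' r₁ -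
        dat (phc (aa (ψ k + N)) (b (ψ k + N)) (Qr (q (ψ k + N))) d₀ d₁ d₂)
          (fun r => conj (phc (aa (ψ k + N)) (b (ψ k + N)) (Qr (q (ψ k + N))) (conj d₀) (conj d₁)
            (conj d₂) r)) r₁‖ := by
    intro k
    have e1 := hc (ψ k); have e2 := hEq (ψ k); have e3 := hE (ψ k)
    rw [hmψ k] at e1 e2 e3
    exact normalise (hprof _) (hf _) (hg _) e1 e2 e3 hr₁0
  choose f' g' e₀ e₁ e₂ hf' hg' he hEq' hone hmin using hnorm
  have hQb : ∀ k, ‖Qr (q (ψ k + N)) r₁‖ ≤ CQ ∧ ‖deriv (Qr (q (ψ k + N))) r₁‖ ≤ CQ := by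
    intro k
    have := (hN _ (Nat.le_add_left N (ψ k))).2.2.2 r₁ ⟨hr₁0.le, by
      have := (hbox (ψ k)).2.1; have := (hη m).2; linarith⟩
    exact ⟨this.2.1, this.2.2.1⟩
  obtain ⟨⟨d, c₀', c₁', c₂', z₀, z₁⟩, -, φ₃, hφ₃, hlim₃⟩ := tendsto_subseq_of_bounded
    (Metric.isBounded_closedBall (x := (0 : (ℂ × ℂ × ℂ × ℂ) × ℂ × ℂ × ℂ × ℂ × ℂ)) (r := CQ + 1))
    (x := fun k => (dat (f' k) (g' k) r₁, e₀ k, e₁ k, e₂ k, Qr (q (ψ k + N)) r₁,
      deriv (Qr (q (ψ k + N))) r₁)) (fun k => by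
      rw [mem_closedBall_zero_iff]
      have h1 := hone k
      have n0 := norm_nonneg (dat (f' k) (g' k) r₁)
      have n1 := norm_nonneg (e₀ k); have n2 := norm_nonneg (e₁ k); have n3 := norm_nonneg (e₂ k)
      obtain ⟨q1, q2⟩ := hQb k
      rw [Prod.norm_def]
      refine max_le (by simp only; linarith) ?_
      rw [Prod.norm_def]
      refine max_le (by simp only; linarith) ?_
      rw [Prod.norm_def]
      refine max_le (by simp only; linarith) ?_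
      rw [Prod.norm_def]
      refine max_le (by simp only; linarith) ?_
      rw [Prod.norm_def]
      exact max_le (by simp only; linarith) (by simp only; linarith))
  have t1 := (continuous_fst.tendsto _).comp hlim₃
  have s1 := (continuous_snd.tendsto _).comp hlim₃
  have t2 := (continuous_fst.tendsto _).comp s1
  have s2 := (continuous_snd.tendsto _).comp s1
  have t3 := (continuous_fst.tendsto _).comp s2
  have s3 := (continuous_snd.tendsto _).comp s2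
  have t4 := (continuous_fst.tendsto _).comp s3
  have s4 := (continuous_snd.tendsto _).comp s3
  have t5 := (continuous_fst.tendsto _).comp s4
  have t6 := (continuous_snd.tendsto _).comp s4
  have hφ₃' := hφ₃.tendsto_atTop
  refine ⟨fun k => ψ (φ₃ k) + N, m, fun k => lam (ψ (φ₃ k)), fun k => e₀ (φ₃ k), fun k => e₁ (φ₃ k),
    fun k => e₂ (φ₃ k), fun k => f' (φ₃ k), fun k => g' (φ₃ k), b', R', lam', c₀', c₁', c₂', z₀, z₁, d,
    ⟨?_, hbψ.comp hφ₃', hRψ.comp hφ₃', hlamψ.comp hφ₃', t2, t3, t4, fun k => ⟨h0 _, h1 _⟩,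
      fun k => he _, fun k => hf' _, fun k => hg' _, fun k => hEq' _⟩,
    fun k => hlam _, t5, t6, t1, fun k => hone _, fun k => hmin _⟩
  exact (tendsto_add_atTop_nat N).comp (((hφ₁.comp hφ₂).comp hφ₃).tendsto_atTop)

/-- η m from `inner_bc` (Λ = B+4); `extract`, `lim_profile`, `lim_modes`, `AdmStmt` ⇒ LimProf and Free; `bc_lim`; LimitStmt ⇒ (F, Ḡ) = Σ dφ on (R',∞), hence (eventual equality near r₁)
d = dat(F,Ḡ)(r₁) = dat(Σ dφ); the minimality passes to the limit (`dat_phc_lim`) ⇒ this vector is 0 ⇒ d₀=d₁=d₂=0 (`indep`) ⇒ F = G = 0 on (R',∞) ⇒ the forcing terms vanish on (R',∞)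
(`Lims.oF`, `oG`) ⇒ c' = 0 (`indep`), contradicting ‖d‖+‖c'‖ = 1. -/
theorem low (hL : LimitStmt) (hA : AdmStmt) (hF : Fam b R q) (B : ℝ) :
    ¬ ∀ᶠ n in atTop, Bad n (b n) (q n) B := by
  intro h
  choose η₂ C hη0 hη1 hC hin using fun m => inner_bc hF m (B + 4)
  obtain ⟨ν, m, lam, c₀, c₁, c₂, f, g, b', R', lam', c₀', c₁', c₂', z₀, z₁, d, hS, hlam, hz₀, hz₁, hd,
    hone, hmin⟩ := extract hF B η₂ (fun m => ⟨hη0 m, hη1 m⟩) h
  set r₁ : ℝ := R' + η₂ m / 2 with hr₁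
  have hr₁R : R' < r₁ := by have := hη0 m; linarith
  have hr₁1 : r₁ < R' + 1 := by have := hη1 m; linarith
  obtain ⟨Φ, hbox, hΦ, hode, hconv, hv, hdv, hne⟩ :=
    lim_profile hF ν hS.hν b' R' r₁ hS.hb hS.hR hr₁R z₀ z₁ hz₀ hz₁
  obtain ⟨F, G, hLi⟩ := lim_modes hF hS hbox hΦ hode hconv hr₁R d hd
  obtain ⟨a1, a2, a3⟩ := hA b R q hF ν m lam c₀ c₁ c₂ f g b' R' lam' c₀' c₁' c₂' Φ F G hS hLi
  have hR0 : 0 < R' := by have := hbox.2.1; linarith
  have hb0 : b' ≠ 0 := by have := hbox.1.1; intro h0; rw [h0] at this; norm_num at this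
  have hLP : LimProf b' R' Φ :=
    ⟨hbox, ⟨hLi.sΦ, fun r hr => by rw [hLi.oΦ r hr]; simp, a1⟩, hv, hdv⟩
  have hre0 : 0 ≤ lam'.re :=
    ge_of_tendsto' ((Complex.continuous_re.tendsto _).comp hS.hlam) fun k => (hS.re0 k).1
  have hre1 : lam'.re ≤ 33 / 10 :=
    le_of_tendsto' ((Complex.continuous_re.tendsto _).comp hS.hlam) fun k => (hS.re0 k).2
  have hall : Allowed m c₀' c₁' c₂' := by
    refine ⟨fun hm => ⟨?_, ?_⟩, fun hm => ?_⟩
    · exact tendsto_nhds_unique hS.hc₀ (tendsto_const_nhds.congr fun k => ((hS.allowed k).1 hm).1.symm)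
    · exact tendsto_nhds_unique hS.hc₁ (tendsto_const_nhds.congr fun k => ((hS.allowed k).1 hm).2.symm)
    · exact tendsto_nhds_unique hS.hc₂ (tendsto_const_nhds.congr fun k => ((hS.allowed k).2 hm).symm)
  have hbc := bc_lim (b := b) (R := R) (C := C m) (hS.hν.eventually (hF.prof.and hF.ne)) hS.admf hS.admg
    hS.hR hR0 hLi hv hdv hr₁R (fun r h1 h2 => hne r h1 (h2.trans_lt hr₁1)) (by
      intro δ hδ
      have e1 : ∀ᶠ k in atTop, R (ν k) < r₁ := hS.hR.eventually (gt_mem_nhds hr₁R)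
      have e2 : ∀ᶠ k in atTop, R' - η₂ m / 2 < R (ν k) :=
        hS.hR.eventually (lt_mem_nhds (by have := hη0 m; linarith))
      filter_upwards [hS.hν.eventually (hin m δ hδ), e1, e2] with k hk h1 h2
      exact hk (lam k) (c₀ k) (c₁ k) (c₂ k) (f k) (g k) r₁ (hS.re0 k).1 (hS.re0 k).2 (hlam k)
        (hS.admf k) (hS.admg k) (hS.eqn k) h1.le (by linarith) (hone k).le)
  obtain ⟨d₀, d₁, d₂, hdA, hdE⟩ := hL b' R' Φ hLP m lam' c₀' c₁' c₂' F G hre0 hre1 hall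
    ⟨hLi.sF, hLi.oF, a2⟩ ⟨hLi.sG, hLi.oG, a3⟩ hbc.1 hbc.2
  have hmem : ∀ r, R' < r → Ioi R' ∈ 𝓝 r := fun r hr => Ioi_mem_nhds hr
  -- d is the Cauchy data of Σ dφ
  have hdG : ∀ r, R' < r → deriv (fun s => conj (G s)) r = conj (deriv G r) := by
    intro r hr
    have hG : DifferentiableAt ℝ G r :=
      (hLi.sG.contDiffAt (hmem r hr)).differentiableAt (by norm_num)
    exact (hG.hasDerivAt.star).deriv
  have hdd : d = dat (phc 0 b' Φ d₀ d₁ d₂)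
      (fun r => conj (phc 0 b' Φ (conj d₀) (conj d₁) (conj d₂) r)) r₁ := by
    have e1 : F =ᶠ[𝓝 r₁] phc 0 b' Φ d₀ d₁ d₂ := by
      filter_upwards [hmem r₁ hr₁R] with r hr using (hdE r hr).1
    have e2 : (fun s => conj (G s)) =ᶠ[𝓝 r₁]
        fun r => conj (phc 0 b' Φ (conj d₀) (conj d₁) (conj d₂) r) := by
      filter_upwards [hmem r₁ hr₁R] with r hr using (hdE r hr).2
    have t : Tendsto (fun k => dat (f k) (g k) r₁) atTop
        (𝓝 (F r₁, deriv F r₁, conj (G r₁), conj (deriv G r₁))) := by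
      refine (hLi.tf r₁ hr₁R).prodMk_nhds ((hLi.tf' r₁ hr₁R).prodMk_nhds (Tendsto.prodMk_nhds ?_ ?_))
      · have := (Complex.continuous_conj.tendsto _).comp (hLi.tg r₁ hr₁R)
        simpa [Function.comp_def] using this
      · have := (Complex.continuous_conj.tendsto _).comp (hLi.tg' r₁ hr₁R)
        simpa [Function.comp_def] using this
    rw [tendsto_nhds_unique hd t]
    simp only [dat]
    rw [← e1.deriv_eq, ← e2.deriv_eq, ← e1.eq_of_nhds, ← e2.eq_of_nhds, hdG r₁ hr₁R]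
  have hd0 : d = 0 := by
    have t := dat_phc_lim hF hS.hν hS.hb hS.hR hR0 hr₁R hLi.sΦ hode (hLi.tQ r₁ hr₁R) (hLi.tQ' r₁ hr₁R)
      d₀ d₁ d₂
    have t2 := (hd.sub t).norm
    rw [← hdd, sub_self, norm_zero] at t2
    have := le_of_tendsto_of_tendsto' hd.norm t2 fun k => hmin k d₀ d₁ d₂ hdA
    exact norm_le_zero_iff.1 this
  obtain ⟨rfl, rfl, rfl⟩ := indep hb0 hR0 hr₁R hLi.sΦ hode (hne r₁ hr₁R hr₁1) hdA (hdd ▸ hd0)
  have hF0 : ∀ r, R' < r → F r = 0 := fun r hr => by simpa [phc] using (hdE r hr).1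
  have hG0 : ∀ r, R' < r → G r = 0 := fun r hr => by simpa [phc] using (hdE r hr).2
  have zero_DD : ∀ U : ℝ → ℂ, (∀ r, R' < r → U r = 0) → ∀ r, R' < r →
      deriv U r = 0 ∧ DD m U r = 0 := by
    intro U hU
    have h1 : ∀ r, R' < r → deriv U r = 0 := by
      intro r hr
      have e : U =ᶠ[𝓝 r] fun _ => 0 := by filter_upwards [hmem r hr] with s hs using hU s hs
      rw [e.deriv_eq]; simp
    intro r hr
    refine ⟨h1 r hr, ?_⟩
    have e : deriv U =ᶠ[𝓝 r] fun _ => 0 := by filter_upwards [hmem r hr] with s hs using h1 s hs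
    unfold DD
    rw [e.deriv_eq, h1 r hr, hU r hr]; simp
  have p1 : ∀ r, R' < r → phc 0 b' Φ c₀' c₁' c₂' r = 0 := by
    intro r hr
    have := hLi.oF r hr
    rw [(zero_DD F hF0 r hr).2, (zero_DD F hF0 r hr).1, hF0 r hr] at this
    simpa using this.symm
  have p2 : ∀ r, R' < r → conj (phc 0 b' Φ (conj c₀') (conj c₁') (conj c₂') r) = 0 := by
    intro r hr
    have := hLi.oG r hr
    rw [(zero_DD G hG0 r hr).2, (zero_DD G hG0 r hr).1, hG0 r hr] at this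
    have h3 : phc 0 b' Φ (conj c₀') (conj c₁') (conj c₂') r = 0 := by simpa using this.symm
    rw [h3, map_zero]
  obtain ⟨rfl, rfl, rfl⟩ := indep hb0 hR0 hr₁R hLi.sΦ hode (hne r₁ hr₁R hr₁1) hall (by
    simp only [dat]
    rw [p1 r₁ hr₁R, p2 r₁ hr₁R, (zero_DD _ p1 r₁ hr₁R).1, (zero_DD _ p2 r₁ hr₁R).1]; rfl)
  have t := ((hd.norm.add hS.hc₀.norm).add hS.hc₁.norm).add hS.hc₂.norm
  have := tendsto_nhds_unique t (tendsto_const_nhds.congr fun k => (hone k).symm)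
  rw [hd0] at this
  simp at this

end

end Crest.Agent.R086.M
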