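import Crest.Agent.R086.M.Ident

/-! # Row 86, part M-a: trace, Poincaré and Morawetz inequalities for the hydrodynamic system (task).
All proofs: exhibit φ, ψ with φ' ≤ ψ' pointwise (Young's inequality) and use `le_of_deriv_le`; `En` has derivative `den` ≥ 0. -/

open MeasureTheory Set Filter Topology
open scoped ContDiff ComplexConjugate

namespace Crest.Agent.R086.M.HD

noncomputable section

variable {D : HD} {C₀ nn R R' Φ : ℝ}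

/-- ∫_0^r μ|η|² and ∫_0^r μ|ϑ|² -/
def Lη (D : HD) (r : ℝ) : ℝ := ∫ s in (0 : ℝ)..r, D.mu s * ‖D.η s‖ ^ 2
def Lϑ (D : HD) (r : ℝ) : ℝ := ∫ s in (0 : ℝ)..r, D.mu s * ‖D.ϑ s‖ ^ 2

theorem MI_cont {E : Type*} [NormedAddCommGroup E] [NormedSpace ℝ E] {f f' : ℝ → E}
    (h : ∀ r, HasDerivAt f (f' r) r) : Continuous f :=
  continuous_iff_continuousAt.2 fun r => (h r).continuousAt

theorem MI_re (z w : ℂ) : |(z * conj w).re| ≤ ‖z‖ * ‖w‖ := by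
  refine (Complex.abs_re_le_norm _).trans (le_of_eq ?_)
  rw [norm_mul, Complex.norm_conj]

theorem MI_mul {c p C P : ℝ} (h1 : |c| ≤ C) (h2 : |p| ≤ P) : |c * p| ≤ C * P := by
  rw [abs_mul]
  exact mul_le_mul h1 h2 (abs_nonneg _) ((abs_nonneg _).trans h1)

theorem MI_mu (h : D.Ok) {r : ℝ} (hr : 0 ≤ r) : 0 ≤ D.mu r :=
  mul_nonneg (pow_nonneg hr _) (h.Npos r).le

theorem MI_mu_le (hn : D.Near C₀ nn R R' Φ) (h : D.Ok) {r : ℝ} (hr : r ∈ Icc 0 R') :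
    D.mu r ≤ 4 ^ 11 * C₀ :=
  mul_le_mul (pow_le_pow_left₀ hr.1 (hr.2.trans hn.hR4) _) (hn.hN r hr).2 (h.Npos r).le
    (by positivity)

theorem MI_rx (hn : D.Near C₀ nn R R' Φ) {r : ℝ} (hr : r ∈ Icc 0 R') : |r * D.x r| ≤ 1 / 25 := by
  have h1 : |r| ≤ 4 := by rw [abs_of_nonneg hr.1]; exact hr.2.trans hn.hR4
  exact (MI_mul h1 (hn.hx r hr)).trans (by norm_num)

/-- the five nonnegative terms of the energy density -/
theorem MI_den (h : D.Ok) (hn : D.Near C₀ nn R R' Φ) {r : ℝ} (hr : r ∈ Icc 0 R') :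
    0 ≤ D.mu r * ‖D.η' r‖ ^ 2 ∧ 0 ≤ D.mu r * ‖D.ϑ' r‖ ^ 2 ∧
      0 ≤ D.M * r ^ 9 * D.N r * ‖D.η r‖ ^ 2 ∧ 0 ≤ D.M * r ^ 9 * D.N r * ‖D.ϑ r‖ ^ 2 ∧
      0 ≤ D.mu r * D.W r * ‖D.η r‖ ^ 2 := by
  have h1 := MI_mu h hr.1
  have h2 := hn.M0
  have h3 := h.Npos r
  have h4 := (hn.hW r hr).1
  have h5 := hr.1
  refine ⟨?_, ?_, ?_, ?_, ?_⟩ <;> positivity

theorem MI_Lη0 : D.Lη 0 = 0 := intervalIntegral.integral_same
theorem MI_Lϑ0 : D.Lϑ 0 = 0 := intervalIntegral.integral_same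

theorem Ok.hasDerivAt_Lη (h : D.Ok) (r : ℝ) : HasDerivAt D.Lη (D.mu r * ‖D.η r‖ ^ 2) r := by
  exact ((h.cont_mu.mul ((MI_cont h.dη).norm.pow 2)).integral_hasStrictDerivAt 0 r).hasDerivAt

theorem Ok.hasDerivAt_Lϑ (h : D.Ok) (r : ℝ) : HasDerivAt D.Lϑ (D.mu r * ‖D.ϑ r‖ ^ 2) r := by
  exact ((h.cont_mu.mul ((MI_cont h.dϑ).norm.pow 2)).integral_hasStrictDerivAt 0 r).hasDerivAt

theorem En_mono (h : D.Ok) (hn : D.Near C₀ nn R R' Φ) {s t : ℝ} (hs : 0 ≤ s) (hst : s ≤ t) (ht : t ≤ R') :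
    D.En s ≤ D.En t := by
  have := le_of_deriv_le (φ := fun _ => 0) (φ' := fun _ => 0) hst continuousOn_const
    (MI_cont h.hasDerivAt_En).continuousOn (fun r _ => hasDerivAt_const r 0)
    (fun r _ => h.hasDerivAt_En r) fun r hr => by
      obtain ⟨h1, h2, h3, h4, h5⟩ := MI_den h hn ⟨hs.trans hr.1.le, hr.2.le.trans ht⟩
      rw [den]; linarith
  linarith

theorem En_nonneg (h : D.Ok) (hn : D.Near C₀ nn R R' Φ) {t : ℝ} (hs : 0 ≤ t) (ht : t ≤ R') :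
    0 ≤ D.En t := by
  have := En_mono h hn le_rfl hs ht
  rwa [En_zero] at this

/-- (rμ|ϑ|²)' = (12+2rx)μ|ϑ|² + 2rμRe(ϑ'ϑ̄) ≥ 10μ|ϑ|² - 16μ|ϑ'|² -/
theorem poincare (h : D.Ok) (hn : D.Near C₀ nn R R' Φ) {t : ℝ} (hs : 0 ≤ t) (ht : t ≤ R') :
    10 * D.Lϑ t ≤ t * D.mu t * ‖D.ϑ t‖ ^ 2 + 16 * D.En t := by
  have cE := MI_cont h.hasDerivAt_En
  have cL := MI_cont h.hasDerivAt_Lϑ
  have cm := h.cont_mu
  have cu := MI_cont h.dϑ
  have := le_of_deriv_le (φ := fun r => 10 * D.Lϑ r)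
    (ψ := fun r => r * D.mu r * ‖D.ϑ r‖ ^ 2 + 16 * D.En r) hs (by fun_prop) (by fun_prop)
    (fun r _ => (h.hasDerivAt_Lϑ r).const_mul 10)
    (fun r hr => (h.hasDerivAt_w hr.1 (h.dϑ r) (hasDerivAt_id' r)).add
      ((h.hasDerivAt_En r).const_mul 16)) fun r hr => by
      have hr' : r ∈ Icc 0 R' := ⟨hr.1.le, hr.2.le.trans ht⟩
      obtain ⟨h1, h2, h3, h4, h5⟩ := MI_den h hn hr'
      have hm := MI_mu h hr'.1
      have hx := abs_le.1 (MI_rx hn hr')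
      have h6 : |r| ≤ 4 := by rw [abs_of_nonneg hr'.1]; exact hr'.2.trans hn.hR4
      have h7 := abs_le.1 (MI_mul h6 (MI_re (D.ϑ' r) (D.ϑ r)))
      have e : r * (11 / r + 2 * D.x r) = 11 + 2 * (r * D.x r) := by
        have := hr.1.ne'
        field_simp
      have h8 : 10 * ‖D.ϑ r‖ ^ 2 ≤ (1 + (11 + 2 * (r * D.x r))) * ‖D.ϑ r‖ ^ 2
          + 2 * (r * (D.ϑ' r * conj (D.ϑ r)).re) + 16 * ‖D.ϑ' r‖ ^ 2 := by
        have := mul_le_mul_of_nonneg_right hx.1 (sq_nonneg ‖D.ϑ r‖)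
        linarith [sq_nonneg (‖D.ϑ r‖ - 4 * ‖D.ϑ' r‖), sq_nonneg ‖D.ϑ r‖]
      have h9 := mul_le_mul_of_nonneg_left h8 hm
      rw [e, den]
      linarith
  simp only [MI_Lϑ0, En_zero] at this
  linarith

/-- on [0,R]: μ|η|² ≤ den/nn, and (rμ|η|²)' ≤ (13 + 16√nn)μ|η|² + μ|η'|²/√nn ≤ 30 den/√nn  (nn ≥ 1) -/
theorem trace (h : D.Ok) (hn : D.Near C₀ nn R R' Φ) (h1 : 1 ≤ nn) :
    D.Lη R ≤ D.En R / nn ∧ R * D.mu R * ‖D.η R‖ ^ 2 ≤ 30 * D.En R / Real.sqrt nn := by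
  have cE := MI_cont h.hasDerivAt_En
  have cL := MI_cont h.hasDerivAt_Lη
  have cm := h.cont_mu
  have cu := MI_cont h.dη
  have hR : 0 ≤ R := by linarith [hn.hR]
  have hn0 : 0 < nn := by linarith
  have key : ∀ r ∈ Ioo 0 R, nn * (D.mu r * ‖D.η r‖ ^ 2) ≤ D.den r := by
    intro r hr
    have hr' : r ∈ Icc 0 R' := ⟨hr.1.le, hr.2.le.trans hn.hRR⟩
    obtain ⟨h1, h2, h3, h4, h5⟩ := MI_den h hn hr'
    have := mul_le_mul_of_nonneg_right (hn.hWn r ⟨hr.1.le, hr.2.le⟩)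
      (mul_nonneg (MI_mu h hr'.1) (sq_nonneg ‖D.η r‖))
    rw [den]
    linarith
  constructor
  · have := le_of_deriv_le (φ := fun r => nn * D.Lη r) (ψ := D.En) hR (by fun_prop) (by fun_prop)
      (fun r _ => (h.hasDerivAt_Lη r).const_mul nn) (fun r _ => h.hasDerivAt_En r) key
    simp only [MI_Lη0, En_zero] at this
    rw [le_div_iff₀ hn0]
    linarith
  · obtain ⟨s, hs1, hs2, hs3⟩ : ∃ s, 1 ≤ s ∧ s ^ 2 = nn ∧ Real.sqrt nn = s :=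
      ⟨_, Real.one_le_sqrt.2 h1, Real.sq_sqrt hn0.le, rfl⟩
    have := le_of_deriv_le (φ := fun r => s ^ 2 * (r * D.mu r * ‖D.η r‖ ^ 2))
      (ψ := fun r => 30 * s * D.En r) hR (by fun_prop) (by fun_prop)
      (fun r hr => (h.hasDerivAt_w hr.1 (h.dη r) (hasDerivAt_id' r)).const_mul (s ^ 2))
      (fun r _ => (h.hasDerivAt_En r).const_mul (30 * s)) fun r hr => by
        have hr' : r ∈ Icc 0 R' := ⟨hr.1.le, hr.2.le.trans hn.hRR⟩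
        obtain ⟨h1, h2, h3, h4, h5⟩ := MI_den h hn hr'
        have hm := MI_mu h hr'.1
        have hx := abs_le.1 (MI_rx hn hr')
        have h6 : |r| ≤ 4 := by rw [abs_of_nonneg hr'.1]; exact hr'.2.trans hn.hR4
        have h7 := abs_le.1 (MI_mul h6 (MI_re (D.η' r) (D.η r)))
        have e : r * (11 / r + 2 * D.x r) = 11 + 2 * (r * D.x r) := by
          have := hr.1.ne'
          field_simp
        have hk := key r hr
        have hd : D.mu r * ‖D.η' r‖ ^ 2 ≤ D.den r := by rw [den]; linarith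
        have h8 : s * ((1 + (11 + 2 * (r * D.x r))) * ‖D.η r‖ ^ 2
            + 2 * (r * (D.η' r * conj (D.η r)).re)) ≤ 29 * (s ^ 2 * ‖D.η r‖ ^ 2) + ‖D.η' r‖ ^ 2 := by
          have a1 := mul_le_mul_of_nonneg_right hx.2 (sq_nonneg ‖D.η r‖)
          have a2 : (1 + (11 + 2 * (r * D.x r))) * ‖D.η r‖ ^ 2
            + 2 * (r * (D.η' r * conj (D.η r)).re) ≤
              13 * ‖D.η r‖ ^ 2 + 8 * (‖D.η' r‖ * ‖D.η r‖) := by
            linarith [sq_nonneg ‖D.η r‖]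
          have a3 := mul_le_mul_of_nonneg_left a2 (by linarith : 0 ≤ s)
          have a4 := mul_le_mul_of_nonneg_right (by nlinarith : s ≤ s ^ 2) (sq_nonneg ‖D.η r‖)
          linarith [sq_nonneg (4 * s * ‖D.η r‖ - ‖D.η' r‖)]
        have h9 := mul_le_mul_of_nonneg_left h8 hm
        rw [← hs2] at hk
        have h10 : s * ((1 + (11 + 2 * (r * D.x r))) * D.mu r * ‖D.η r‖ ^ 2
            + 2 * r * D.mu r * (D.η' r * conj (D.η r)).re) ≤ 30 * D.den r := by linarith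
        have h11 := mul_le_mul_of_nonneg_left h10 (by linarith : 0 ≤ s)
        rw [e]
        linarith
    simp only [En_zero] at this
    rw [hs3, le_div_iff₀ (by linarith)]
    refine le_of_mul_le_mul_left ?_ (by linarith : 0 < s)
    linarith

/-- on [R,t], ℓ = t - R ≤ 1/100: ((r-t)μ|η|²)' ≥ ½μ|η|² - 4ℓ²μ|η'|² -/
theorem layer (h : D.Ok) (hn : D.Near C₀ nn R R' Φ) (h1 : 1 ≤ nn) {t : ℝ} (hs : R ≤ t) (ht : t ≤ R')
    (hl : t - R ≤ 1 / 100) : D.Lη t ≤ (2 / Real.sqrt nn + 8 * (t - R) ^ 2) * D.En t := by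
  have cE := MI_cont h.hasDerivAt_En
  have cL := MI_cont h.hasDerivAt_Lη
  have cm := h.cont_mu
  have cu := MI_cont h.dη
  have hR := hn.hR
  have hn0 : 0 < nn := by linarith
  have key := le_of_deriv_le (φ := fun r => D.Lη r)
    (ψ := fun r => 2 * ((r - t) * D.mu r * ‖D.η r‖ ^ 2) + 8 * (t - R) ^ 2 * D.En r) hs
    (by fun_prop) (by fun_prop) (fun r _ => h.hasDerivAt_Lη r)
    (fun r hr => ((h.hasDerivAt_w (by linarith [hr.1]) (h.dη r)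
      ((hasDerivAt_id' r).sub_const t)).const_mul 2).add
      ((h.hasDerivAt_En r).const_mul (8 * (t - R) ^ 2))) fun r hr => by
      have hr3 : 3 ≤ r := hR.trans hr.1.le
      have hr' : r ∈ Icc 0 R' := ⟨by linarith, hr.2.le.trans ht⟩
      obtain ⟨h1, h2, h3, h4, h5⟩ := MI_den h hn hr'
      have hm := MI_mu h hr'.1
      have hx := abs_le.1 (hn.hx r hr')
      have h6 : |r - t| ≤ t - R := by
        rw [abs_of_nonpos (by linarith [hr.2])]; linarith [hr.1]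
      have h7 := abs_le.1 (MI_mul h6 (MI_re (D.η' r) (D.η r)))
      have h0 : |11 / r + 2 * D.x r| ≤ 4 := by
        have a1 : 0 ≤ 11 / r := by positivity
        have a2 : 11 / r ≤ 11 / 3 := by gcongr
        rw [abs_le]; constructor <;> linarith
      have h10 := abs_le.1 (MI_mul (h6.trans hl) h0)
      have hd : D.mu r * ‖D.η' r‖ ^ 2 ≤ D.den r := by rw [den]; linarith
      have h8 : ‖D.η r‖ ^ 2 ≤ 2 * ((1 + (r - t) * (11 / r + 2 * D.x r)) * ‖D.η r‖ ^ 2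
          + 2 * ((r - t) * (D.η' r * conj (D.η r)).re)) + 8 * (t - R) ^ 2 * ‖D.η' r‖ ^ 2 := by
        have := mul_le_mul_of_nonneg_right h10.1 (sq_nonneg ‖D.η r‖)
        linarith [sq_nonneg (‖D.η r‖ - 4 * (t - R) * ‖D.η' r‖), sq_nonneg ‖D.η r‖]
      have h9 := mul_le_mul_of_nonneg_left h8 hm
      have h11 := mul_le_mul_of_nonneg_left hd (by positivity : 0 ≤ 8 * (t - R) ^ 2)
      linarith
  obtain ⟨t1, t2⟩ := trace h hn h1
  have e0 := En_nonneg h hn (by linarith : 0 ≤ R) hn.hRR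
  have e1 := En_mono h hn (by linarith : 0 ≤ R) hs ht
  have hs1 : 1 ≤ Real.sqrt nn := Real.one_le_sqrt.2 h1
  have t3 : D.En R / nn ≤ D.En R / Real.sqrt nn := by
    refine div_le_div_of_nonneg_left e0 (by linarith) ?_
    nlinarith [Real.sq_sqrt hn0.le]
  have t4 : D.En R / Real.sqrt nn ≤ D.En t / Real.sqrt nn := by gcongr
  have t5 : 0 ≤ D.En R / Real.sqrt nn := by positivity
  have hX : 0 ≤ D.mu R * ‖D.η R‖ ^ 2 := mul_nonneg (MI_mu h (by linarith)) (sq_nonneg _)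
  have t6 := mul_le_mul_of_nonneg_right hR hX
  have t7 := mul_le_mul_of_nonneg_right hl hX
  have t8 : 0 ≤ 8 * (t - R) ^ 2 * D.En R := by positivity
  rw [mul_div_assoc] at t2
  have e : (2 / Real.sqrt nn + 8 * (t - R) ^ 2) * D.En t =
      2 * (D.En t / Real.sqrt nn) + 8 * (t - R) ^ 2 * D.En t := by ring
  rw [e]
  simp only [sub_self] at key
  linarith

theorem MI_E {c1 c2 c3 L a b a' b' Φ p1 p2 p3 p4 p5 : ℝ} (h1 : |c1| ≤ 33) (h2 : |c2| ≤ 29)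
    (h3 : |c3| ≤ L) (k1 : |p1| ≤ a * b) (k2 : |p2| ≤ a * b') (k3 : |p3| ≤ a' * a)
    (k4 : |p4| ≤ Φ * (4 * b' + 11 / 2 * b)) (k5 : |p5| ≤ Φ * (4 * a' + 7 * a)) :
    -((a' ^ 2 + b' ^ 2) / 20 + b ^ 2 / 100 + (63000 + 10 * L ^ 2) * a ^ 2 + 2000 * Φ ^ 2) ≤
      c1 * p1 + c2 * p2 + c3 * p3 + (p4 - p5) := by
  have l1 := (abs_le.1 (MI_mul h1 k1)).1
  have l2 := (abs_le.1 (MI_mul h2 k2)).1
  have l3 := (abs_le.1 (MI_mul h3 k3)).1
  have l4 := (abs_le.1 k4).1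
  have l5 := (abs_le.1 k5).2
  linarith [sq_nonneg (b - 3300 * a), sq_nonneg (b - 550 * Φ), sq_nonneg (b' - 580 * a),
    sq_nonneg (b' - 80 * Φ), sq_nonneg (a' - 20 * L * a), sq_nonneg (a' - 80 * Φ),
    sq_nonneg (a - Φ), sq_nonneg a, sq_nonneg Φ]

theorem MI_lin {F u u' : ℂ} {Φ r c C : ℝ} (hF : ‖F‖ ≤ Φ) (hr : |r| ≤ 4) (hc : |c| ≤ C) :
    |(F * conj ((r : ℂ) * u' + (c : ℂ) * u)).re| ≤ Φ * (4 * ‖u'‖ + C * ‖u‖) := by
  refine (MI_re _ _).trans (mul_le_mul hF ((norm_add_le _ _).trans ?_) (norm_nonneg _)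
    ((norm_nonneg _).trans hF))
  rw [norm_mul, norm_mul, Complex.norm_real, Complex.norm_real, Real.norm_eq_abs, Real.norm_eq_abs]
  gcongr

theorem MI_dM (h : D.Ok) (hn : D.Near C₀ nn R R' Φ) {r : ℝ} (hr : r ∈ Icc 0 R') :
    1 / 5 * D.den r ≤ D.dM r + 1 / 100 * (D.mu r * ‖D.ϑ r‖ ^ 2)
      + (63000 + 10 * (1 + 8 * C₀) ^ 2) * (D.mu r * ‖D.η r‖ ^ 2) + 2000 * (4 ^ 11 * C₀) * Φ ^ 2 := by
  obtain ⟨h1, h2, h3, h4, h5⟩ := MI_den h hn hr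
  have hm := MI_mu h hr.1
  have hm' := MI_mu_le hn h hr
  have hy := abs_le.1 (MI_rx hn hr)
  have hr4 := hr.2.trans hn.hR4
  have h6 : |r| ≤ 4 := by rw [abs_of_nonneg hr.1]; exact hr4
  obtain ⟨v0, v1⟩ := hn.hv r hr
  obtain ⟨w0, w1⟩ := hn.hW r hr
  have c1 : |11 / 2 * (6 - 2 * D.a) - 11 * D.lam.re| ≤ 33 := by
    rw [abs_le]; constructor <;> linarith [hn.a0, hn.a1, hn.s0, hn.s1]
  have c2 : |(12 + 2 * r * D.x r) * D.v r - 2 * D.lam.re * r| ≤ 29 := by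
    have a1 := mul_le_mul_of_nonneg_right hy.1 v0
    have a2 := mul_le_mul_of_nonneg_right hy.2 v0
    have a3 := mul_nonneg hn.s0 hr.1
    have a4 := mul_le_mul_of_nonneg_right hn.s1 hr.1
    rw [abs_le]; constructor <;> linarith
  have c3 : |2 * D.x r + 2 * r * D.x' r| ≤ 1 + 8 * C₀ := by
    have a1 := abs_le.1 (hn.hx r hr)
    have a2 := abs_le.1 (MI_mul h6 (hn.hx' r hr))
    rw [abs_le]; constructor <;> linarith
  have k4 := MI_lin (u := D.ϑ r) (u' := D.ϑ' r) (c := 11 / 2) (C := 11 / 2) (hn.hF r hr).1 h6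
    (by rw [abs_of_pos] <;> norm_num)
  have k5 := MI_lin (u := D.η r) (u' := D.η' r) (c := 13 / 2 + 2 * r * D.x r) (C := 7)
    (hn.hF r hr).2 h6 (by rw [abs_le]; constructor <;> linarith)
  have e : ((11 / 2 : ℝ) : ℂ) = 11 / 2 := by push_cast; rfl
  rw [e] at k4
  have hE := mul_le_mul_of_nonneg_left (MI_E c1 c2 c3 (MI_re (D.η r) (D.ϑ r))
    (MI_re (D.η r) (D.ϑ' r)) (MI_re (D.η' r) (D.η r)) k4 k5) hm
  have g1 := mul_le_mul_of_nonneg_right hy.2 (add_nonneg h2 h4)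
  have g2 := mul_le_mul_of_nonneg_right hy.1 (add_nonneg h1 h3)
  have g3 := mul_le_mul_of_nonneg_right hy.1 h5
  have g4 := mul_le_mul_of_nonneg_right w1 (mul_nonneg hm (sq_nonneg ‖D.η r‖))
  have g5 := mul_le_mul_of_nonneg_right hm' (sq_nonneg Φ)
  rw [den, dM, Complex.sub_re]
  linarith

theorem MI_bM (h : D.Ok) (hn : D.Near C₀ nn R R' Φ) {r : ℝ} (hr : r ∈ Icc 0 R') :
    D.bM r ≤ 20 * (D.mu r * D.eb r) := by
  obtain ⟨h1, h2, h3, h4, h5⟩ := MI_den h hn hr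
  have hm := MI_mu h hr.1
  have hy := abs_le.1 (MI_rx hn hr)
  have hr4 := hr.2.trans hn.hR4
  have h6 : |r| ≤ 4 := by rw [abs_of_nonneg hr.1]; exact hr4
  obtain ⟨v0, v1⟩ := hn.hv r hr
  obtain ⟨β, hβ⟩ : ∃ β, β = 1 + |D.lam.im| + D.M := ⟨_, rfl⟩
  have hβ1 : 1 ≤ β := by linarith [abs_nonneg D.lam.im, hn.M0]
  have hl : ‖D.lam‖ ≤ 4 * β := by
    have := Complex.norm_le_abs_re_add_abs_im D.lam
    rw [abs_of_nonneg hn.s0] at this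
    linarith [abs_nonneg D.lam.im, hn.M0, hn.s1]
  have k1 := (abs_le.1 (MI_re (D.η' r) (D.η r))).2
  have k2 := (abs_le.1 (MI_re (D.ϑ' r) (D.ϑ r))).2
  have k3 := (abs_le.1 (MI_mul (c := D.v r) (C := 12 / 5)
    (by rw [abs_of_nonneg v0]; linarith) (MI_re (D.η r) (D.ϑ r)))).2
  have k4 : |(D.lam * D.ϑ r * conj (D.η r)).re| ≤ 4 * β * ‖D.ϑ r‖ * ‖D.η r‖ := by
    refine (MI_re _ _).trans ?_
    rw [norm_mul]; gcongr
  have k5 := (abs_le.1 (MI_mul h6 k4)).1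
  have k6 := (abs_le.1 (MI_mul (c := 1 + 2 * r * D.x r) (C := 2)
    (by rw [abs_le]; constructor <;> linarith) (MI_re (D.η' r) (D.η r)))).2
  have k7 := mul_le_mul_of_nonneg_right hr4
    (add_nonneg (sq_nonneg ‖D.η' r‖) (sq_nonneg ‖D.ϑ' r‖))
  have k8 := mul_le_mul_of_nonneg_right hβ1 (add_nonneg (sq_nonneg ‖D.η r‖) (sq_nonneg ‖D.ϑ r‖))
  have k9 := mul_nonneg (by linarith : 0 ≤ β) (sq_nonneg (‖D.η r‖ - ‖D.ϑ r‖))
  have key : r * (‖D.η' r‖ ^ 2 + ‖D.ϑ' r‖ ^ 2) / 2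
      + 11 / 2 * ((D.η' r * conj (D.η r)).re + (D.ϑ' r * conj (D.ϑ r)).re)
      + 11 / 2 * (D.v r * (D.η r * conj (D.ϑ r)).re) - r * (D.lam * D.ϑ r * conj (D.η r)).re
      + (1 + 2 * r * D.x r) * (D.η' r * conj (D.η r)).re ≤ 20 * D.eb r := by
    rw [eb, ← hβ]
    linarith [sq_nonneg (‖D.η r‖ - ‖D.η' r‖), sq_nonneg (‖D.ϑ r‖ - ‖D.ϑ' r‖),
      sq_nonneg (‖D.η r‖ - ‖D.ϑ r‖), sq_nonneg ‖D.η r‖, sq_nonneg ‖D.ϑ r‖, sq_nonneg ‖D.η' r‖,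
      sq_nonneg ‖D.ϑ' r‖]
  have g1 := mul_le_mul_of_nonneg_left key hm
  have g2 := mul_nonneg hr.1 (add_nonneg h3 h4)
  have g3 := mul_nonneg hr.1 h5
  rw [bM, Complex.add_re]
  linarith

/-- **Morawetz inequality.**  dM ≥ (1/4) den - (errors); on [0,R'] |r x| ≤ 1/25, W-coefficient ≥ 1/2 - 1/25 - 1/5; by Young the errors are
≤ (1/20) den + δ μ|ϑ|² + K μ|η|² + K μ Φ² with δ = 1/100 and K = K(C₀); `poincare`, `layer` with K(2/√nn + 8η₀²) ≤ 1/20;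
bM(R') ≤ C eb(R') because the W-term has a sign (‖λ‖ ≤ 4(1+|Im λ|)); μ ≤ 4¹¹C₀. -/
theorem morawetz (C₀ : ℝ) (hC₀ : 0 < C₀) : ∃ η₀ n₀ C : ℝ, 0 < η₀ ∧ η₀ ≤ 1 / 100 ∧ 1 ≤ n₀ ∧ 0 < C ∧
    ∀ (D : HD) (nn R R' Φ : ℝ), D.Ok → D.Near C₀ nn R R' Φ → R' ≤ R + η₀ → n₀ ≤ nn →
      D.En R' ≤ C * (D.eb R' + Φ ^ 2) := by
  obtain ⟨K, hK⟩ : ∃ K : ℝ, K = 63000 + 10 * (1 + 8 * C₀) ^ 2 := ⟨_, rfl⟩
  have hK1 : 1 ≤ K := by rw [hK]; nlinarith [sq_nonneg (1 + 8 * C₀)]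
  refine ⟨1 / (100 * K), (80 * K) ^ 2, 64000 * (4 ^ 11 * C₀), by positivity, ?_, by nlinarith,
    by positivity, fun D nn R R' Φ h hn hη hnn => ?_⟩
  · exact one_div_le_one_div_of_le (by norm_num) (by linarith)
  have hη1 : 1 / (100 * K) ≤ 1 / 100 := one_div_le_one_div_of_le (by norm_num) (by linarith)
  have hn1 : 1 ≤ nn := by nlinarith
  have hR' : 0 ≤ R' := by linarith [hn.hR, hn.hRR]
  have cE := MI_cont h.hasDerivAt_En
  have cL := MI_cont h.hasDerivAt_Lη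
  have cL' := MI_cont h.hasDerivAt_Lϑ
  have cb := h.cont_bM
  have key := le_of_deriv_le (φ := fun r => 1 / 5 * D.En r)
    (ψ := fun r => D.bM r + 1 / 100 * D.Lϑ r + K * D.Lη r + 2000 * (4 ^ 11 * C₀) * Φ ^ 2 * r) hR'
    (by fun_prop) (by fun_prop) (fun r _ => (h.hasDerivAt_En r).const_mul (1 / 5))
    (fun r hr => (((h.hasDerivAt_bM hr.1).add ((h.hasDerivAt_Lϑ r).const_mul (1 / 100))).add
      ((h.hasDerivAt_Lη r).const_mul K)).add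
      ((hasDerivAt_id' r).const_mul (2000 * (4 ^ 11 * C₀) * Φ ^ 2))) fun r hr => by
      have := MI_dM h hn ⟨hr.1.le, hr.2.le⟩
      rw [← hK] at this
      linarith
  simp only [En_zero, MI_Lη0, MI_Lϑ0, bM_zero] at key
  have hI : R' ∈ Icc 0 R' := ⟨hR', le_rfl⟩
  have p1 := poincare h hn hR' le_rfl
  have p2 := layer h hn hn1 hn.hRR le_rfl (by linarith)
  have p3 := MI_bM h hn hI
  have e0 := En_nonneg h hn hR' le_rfl
  have hm := MI_mu h hR'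
  have hm' := MI_mu_le hn h hI
  have q1 : K * (2 / Real.sqrt nn + 8 * (R' - R) ^ 2) ≤ 1 / 20 := by
    have a1 : 80 * K ≤ Real.sqrt nn := Real.le_sqrt_of_sq_le hnn
    have a2 : 2 / Real.sqrt nn ≤ 2 / (80 * K) := by gcongr
    have a3 : (R' - R) ^ 2 ≤ (1 / (100 * K)) ^ 2 :=
      pow_le_pow_left₀ (by linarith [hn.hRR]) (by linarith) 2
    have a4 : K * (2 / (80 * K)) = 1 / 40 := by field_simp; norm_num
    have a5 : K * (1 / (100 * K)) ^ 2 = 1 / 100 * (1 / (100 * K)) := by field_simp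
    have a6 := mul_le_mul_of_nonneg_left a2 (by linarith : 0 ≤ K)
    have a7 := mul_le_mul_of_nonneg_left a3 (by linarith : 0 ≤ K)
    linarith
  have q2 := mul_le_mul_of_nonneg_left p2 (by linarith : 0 ≤ K)
  have q3 := mul_le_mul_of_nonneg_right q1 e0
  have b1 : ‖D.ϑ R'‖ ^ 2 ≤ D.eb R' := by
    have a1 := mul_nonneg (add_nonneg (abs_nonneg D.lam.im) hn.M0)
      (add_nonneg (sq_nonneg ‖D.η R'‖) (sq_nonneg ‖D.ϑ R'‖))
    rw [eb]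
    linarith [sq_nonneg ‖D.η R'‖, sq_nonneg ‖D.η' R'‖, sq_nonneg ‖D.ϑ' R'‖]
  have b0 : 0 ≤ D.eb R' := (sq_nonneg _).trans b1
  have b2 : R' * D.mu R' * ‖D.ϑ R'‖ ^ 2 ≤ 4 * (4 ^ 11 * C₀) * D.eb R' :=
    mul_le_mul (mul_le_mul hn.hR4 hm' hm (by norm_num)) b1 (sq_nonneg _) (by positivity)
  have b3 := mul_le_mul_of_nonneg_right hm' b0
  have b4 : 2000 * (4 ^ 11 * C₀) * Φ ^ 2 * R' ≤ 2000 * (4 ^ 11 * C₀) * Φ ^ 2 * 4 :=
    mul_le_mul_of_nonneg_left hn.hR4 (by positivity)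
  have b5 : 0 ≤ 4 ^ 11 * C₀ * D.eb R' := by positivity
  generalize 4 ^ 11 * C₀ = m at *
  linarith

end

end Crest.Agent.R086.M.HD
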