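import Crest.Agent.R086.M.Defs

/-! # Row 86, part M-a: limits of linear ODEs (task) -/

open MeasureTheory Set Filter Topology
open scoped ContDiff ComplexConjugate

namespace Crest.Agent.R086.M

noncomputable section

private theorem gb_le {δ L ε x T : ℝ} (hL : 1 ≤ L) (hδ : 0 ≤ δ) (hε : 0 ≤ ε) (hx : x ≤ T) :
    gronwallBound δ L ε x ≤ (δ + ε) * Real.exp (L * T) := by
  have hL0 : L ≠ 0 := by positivity
  rw [gronwallBound_of_K_ne_0 hL0]
  have h1 : Real.exp (L * x) ≤ Real.exp (L * T) :=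
    Real.exp_le_exp.2 (mul_le_mul_of_nonneg_left hx (by linarith))
  have h2 : ε / L ≤ ε := div_le_self hε hL
  have h3 : 0 ≤ ε / L := div_nonneg hε (by linarith)
  have h4 := Real.exp_pos (L * x)
  have h5 : ε / L * (Real.exp (L * x) - 1) ≤ ε * Real.exp (L * T) := by
    calc ε / L * (Real.exp (L * x) - 1) ≤ ε / L * Real.exp (L * T) :=
          mul_le_mul_of_nonneg_left (by linarith) h3
      _ ≤ ε * Real.exp (L * T) := mul_le_mul_of_nonneg_right h2 (Real.exp_pos _).le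
  have h6 : δ * Real.exp (L * x) ≤ δ * Real.exp (L * T) := mul_le_mul_of_nonneg_left h1 hδ
  show δ * Real.exp (L * x) + ε / L * (Real.exp (L * x) - 1) ≤ _
  nlinarith

/-- two-sided Gronwall inequality -/
theorem gron2 {E : Type} [NormedAddCommGroup E] [NormedSpace ℝ E] {s S r₁ L δ ε : ℝ} (hL : 1 ≤ L) (hε : 0 ≤ ε)
    {w w' : ℝ → E} (hr₁ : r₁ ∈ Icc s S) (hw : ∀ r ∈ Icc s S, HasDerivAt w (w' r) r)
    (hb : ∀ r ∈ Icc s S, ‖w' r‖ ≤ L * ‖w r‖ + ε) (h1 : ‖w r₁‖ ≤ δ) :
    ∀ r ∈ Icc s S, ‖w r‖ ≤ (δ + ε) * Real.exp (L * (S - s)) := by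
  intro r hr
  have hδ : 0 ≤ δ := (norm_nonneg _).trans h1
  rcases le_total r₁ r with h | h
  · have hsub : Icc r₁ S ⊆ Icc s S := Icc_subset_Icc hr₁.1 le_rfl
    have := norm_le_gronwallBound_of_norm_deriv_right_le (f := w) (f' := w') (δ := δ) (K := L) (ε := ε)
      (a := r₁) (b := S) (fun x hx => (hw x (hsub hx)).continuousAt.continuousWithinAt)
      (fun x hx => (hw x (hsub (Ico_subset_Icc_self hx))).hasDerivWithinAt) h1
      (fun x hx => hb x (hsub (Ico_subset_Icc_self hx))) r ⟨h, hr.2⟩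
    exact this.trans (gb_le hL hδ hε (by linarith [hr.2, hr₁.1]))
  · have hmem : ∀ x ∈ Icc (-r₁) (-s), -x ∈ Icc s S := fun x hx =>
      ⟨by linarith [hx.2], by linarith [hx.1, hr₁.2]⟩
    have hd : ∀ x ∈ Icc (-r₁) (-s), HasDerivAt (fun x => w (-x)) (-(w' (-x))) x := fun x hx => by
      have := (hw (-x) (hmem x hx)).scomp x (hasDerivAt_neg x)
      simpa [Function.comp_def] using this
    have := norm_le_gronwallBound_of_norm_deriv_right_le (f := fun x => w (-x)) (f' := fun x => -(w' (-x)))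
      (δ := δ) (K := L) (ε := ε)
      (a := -r₁) (b := -s) (fun x hx => (hd x hx).continuousAt.continuousWithinAt)
      (fun x hx => (hd x (Ico_subset_Icc_self hx)).hasDerivWithinAt) (by simpa using h1)
      (fun x hx => by simpa using hb (-x) (hmem x (Ico_subset_Icc_self hx))) (-r)
      ⟨by linarith, by linarith [hr.1]⟩
    simp only [neg_neg] at this
    exact this.trans (gb_le hL hδ hε (by linarith [hr.1, hr₁.2]))

/-- Proof: on [s,S] ∋ r₁, ‖A k r‖ ≤ L eventually, u k is bounded (Gronwall forwards from r₁ and backwards via r ↦ u k (-r):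
`norm_le_gronwallBound_of_norm_deriv_right_le`), u k - u l solves w' = A k w + (A k - A l) u l + F k - F l, so the sequence is uniformly Cauchy on [s,S];
U r = limUnder; the derivatives converge uniformly on the open interval (s,S) (`hasDerivAt_of_tendstoUniformlyOn`). -/
theorem ode_lim {E : Type} [NormedAddCommGroup E] [NormedSpace ℝ E] [CompleteSpace E] (R r₁ : ℝ) (hr₁ : R < r₁)
    (u F : ℕ → ℝ → E) (A : ℕ → ℝ → E →L[ℝ] E) (A' : ℝ → E →L[ℝ] E) (F' : ℝ → E) (u₀ : E)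
    (hA' : ContinuousOn A' (Ioi R)) (hF' : ContinuousOn F' (Ioi R))
    (hu : ∀ s S : ℝ, R < s → ∀ᶠ k in atTop, ∀ r ∈ Icc s S, HasDerivAt (u k) (A k r (u k r) + F k r) r)
    (hA : ∀ s S : ℝ, R < s → TendstoUniformlyOn A A' atTop (Icc s S))
    (hF : ∀ s S : ℝ, R < s → TendstoUniformlyOn F F' atTop (Icc s S))
    (h0 : Tendsto (fun k => u k r₁) atTop (𝓝 u₀)) :
    ∃ U : ℝ → E, (∀ r, R < r → HasDerivAt U (A' r (U r) + F' r) r) ∧
      ∀ s S : ℝ, R < s → TendstoUniformlyOn u U atTop (Icc s S) := by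
  -- bounds of the limits on compact intervals
  have hsubI : ∀ s S : ℝ, R < s → Icc s S ⊆ Ioi R := fun s S hs x hx => lt_of_lt_of_le hs hx.1
  have hAb : ∀ s S : ℝ, R < s → ∃ L, 1 ≤ L ∧ (∀ r ∈ Icc s S, ‖A' r‖ ≤ L) ∧
      ∀ᶠ k in atTop, ∀ r ∈ Icc s S, ‖A k r‖ ≤ L := by
    intro s S hs
    obtain ⟨C, hC⟩ := isCompact_Icc.exists_bound_of_continuousOn (hA'.mono (hsubI s S hs))
    refine ⟨|C| + 1, by linarith [abs_nonneg C], fun r hr => by linarith [hC r hr, le_abs_self C], ?_⟩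
    filter_upwards [Metric.tendstoUniformlyOn_iff.1 (hA s S hs) 1 one_pos] with k hk r hr
    have h1 := hk r hr
    rw [dist_eq_norm] at h1
    have h2 : ‖A k r‖ ≤ ‖A' r‖ + ‖A' r - A k r‖ := by
      calc ‖A k r‖ = ‖A' r - (A' r - A k r)‖ := by congr 1; abel
        _ ≤ _ := norm_sub_le _ _
    linarith [hC r hr, le_abs_self C]
  have hFb : ∀ s S : ℝ, R < s → ∃ L, 0 ≤ L ∧ ∀ᶠ k in atTop, ∀ r ∈ Icc s S, ‖F k r‖ ≤ L := by
    intro s S hs
    obtain ⟨C, hC⟩ := isCompact_Icc.exists_bound_of_continuousOn (hF'.mono (hsubI s S hs))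
    refine ⟨|C| + 1, by linarith [abs_nonneg C], ?_⟩
    filter_upwards [Metric.tendstoUniformlyOn_iff.1 (hF s S hs) 1 one_pos] with k hk r hr
    have h1 := hk r hr
    rw [dist_eq_norm] at h1
    have h2 : ‖F k r‖ ≤ ‖F' r‖ + ‖F' r - F k r‖ := by
      calc ‖F k r‖ = ‖F' r - (F' r - F k r)‖ := by congr 1; abel
        _ ≤ _ := norm_sub_le _ _
    linarith [hC r hr, le_abs_self C]
  -- uniform bound of u k
  have hub : ∀ s S : ℝ, R < s → r₁ ∈ Icc s S → ∃ K, 0 ≤ K ∧ ∀ᶠ k in atTop, ∀ r ∈ Icc s S, ‖u k r‖ ≤ K := by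
    intro s S hs hr
    obtain ⟨L, hL, -, hLk⟩ := hAb s S hs
    obtain ⟨M, hM, hMk⟩ := hFb s S hs
    have h1 : ∀ᶠ k in atTop, ‖u k r₁‖ ≤ ‖u₀‖ + 1 :=
      h0.norm.eventually (ge_mem_nhds (by linarith))
    refine ⟨(‖u₀‖ + 1 + M) * Real.exp (L * (S - s)), by positivity, ?_⟩
    filter_upwards [hLk, hMk, h1, hu s S hs] with k h2 h3 h4 h5
    refine gron2 hL hM hr h5 (fun r hr => ?_) h4
    calc ‖A k r (u k r) + F k r‖ ≤ ‖A k r (u k r)‖ + ‖F k r‖ := norm_add_le _ _
      _ ≤ L * ‖u k r‖ + M := add_le_add (((A k r).le_opNorm _).trans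
          (mul_le_mul_of_nonneg_right (h2 r hr) (norm_nonneg _))) (h3 r hr)
  -- uniformly Cauchy
  have hC : ∀ s S : ℝ, R < s → r₁ ∈ Icc s S → UniformCauchySeqOn u atTop (Icc s S) := by
    intro s S hs hr
    obtain ⟨L, hL, -, hLk⟩ := hAb s S hs
    obtain ⟨K, hK, hKk⟩ := hub s S hs hr
    rw [Metric.uniformCauchySeqOn_iff]
    intro ε hε
    set G := Real.exp (L * (S - s)) with hG
    have hG0 : 0 < G := Real.exp_pos _
    set η := ε / (2 * (K + 2) * G) with hη
    have hη0 : 0 < η := by positivity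
    obtain ⟨N1, hN1⟩ := Metric.uniformCauchySeqOn_iff.1 (hA s S hs).uniformCauchySeqOn η hη0
    obtain ⟨N2, hN2⟩ := Metric.uniformCauchySeqOn_iff.1 (hF s S hs).uniformCauchySeqOn η hη0
    obtain ⟨N3, hN3⟩ := Metric.cauchySeq_iff.1 h0.cauchySeq η hη0
    obtain ⟨N4, hN4⟩ := eventually_atTop.1 ((hLk.and hKk).and (hu s S hs))
    refine ⟨max (max N1 N2) (max N3 N4), fun m hm n hn x hx => ?_⟩
    simp only [ge_iff_le, max_le_iff] at hm hn
    obtain ⟨⟨hm1, hm2⟩, hm3, hm4⟩ := hm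
    obtain ⟨⟨hn1, hn2⟩, hn3, hn4⟩ := hn
    obtain ⟨⟨ham, -⟩, hdm⟩ := hN4 m hm4
    obtain ⟨⟨-, hkn⟩, hdn⟩ := hN4 n hn4
    have key := gron2 (w := fun r => u m r - u n r)
      (w' := fun r => (A m r (u m r) + F m r) - (A n r (u n r) + F n r)) (δ := η) (ε := η * K + η) hL
      (by positivity) hr (fun r hr => (hdm r hr).sub (hdn r hr)) (fun r hr => ?_)
      (by have := hN3 m hm3 n hn3; rw [dist_eq_norm] at this; exact this.le) x hx
    · rw [dist_eq_norm]
      refine key.trans_lt ?_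
      have : (η + (η * K + η)) * G = ε / 2 := by
        rw [hη]; field_simp; ring
      rw [← hG, this]; linarith
    · have e : (A m r (u m r) + F m r) - (A n r (u n r) + F n r) =
          A m r (u m r - u n r) + ((A m r - A n r) (u n r) + (F m r - F n r)) := by
        simp only [map_sub, ContinuousLinearMap.sub_apply]; abel
      have h1 := hN1 m hm1 n hn1 r hr
      have h2 := hN2 m hm2 n hn2 r hr
      rw [dist_eq_norm] at h1 h2
      show ‖(A m r (u m r) + F m r) - (A n r (u n r) + F n r)‖ ≤ L * ‖u m r - u n r‖ + (η * K + η)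
      rw [e]
      refine (norm_add_le _ _).trans (add_le_add (((A m r).le_opNorm _).trans
          (mul_le_mul_of_nonneg_right (ham r hr) (norm_nonneg _))) ((norm_add_le _ _).trans
          (add_le_add (((A m r - A n r).le_opNorm _).trans
            (mul_le_mul h1.le (hkn r hr) (norm_nonneg _) hη0.le)) h2.le)))
  let U : ℝ → E := fun r => limUnder atTop (fun k => u k r)
  have hT0 : ∀ s S : ℝ, R < s → r₁ ∈ Icc s S → TendstoUniformlyOn u U atTop (Icc s S) := by
    intro s S hs hr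
    refine (hC s S hs hr).tendstoUniformlyOn_of_tendsto fun x hx => ?_
    exact ((hC s S hs hr).cauchySeq hx).tendsto_limUnder
  have hT : ∀ s S : ℝ, R < s → TendstoUniformlyOn u U atTop (Icc s S) := by
    intro s S hs
    exact (hT0 (min s r₁) (max S r₁) (lt_min hs hr₁) ⟨min_le_right _ _, le_max_right _ _⟩).mono
      (Icc_subset_Icc (min_le_left _ _) (le_max_left _ _))
  refine ⟨U, fun r hr => ?_, hT⟩
  set s := min ((R + r) / 2) r₁ with hs
  set S := max (r + 1) r₁ with hS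
  have hs0 : R < s := lt_min (by linarith) hr₁
  have hr1 : r₁ ∈ Icc s S := ⟨min_le_right _ _, le_max_right _ _⟩
  have hrI : r ∈ Ioo s S := ⟨(min_le_left _ _).trans_lt (by linarith), lt_of_lt_of_le (by linarith) (le_max_left _ _)⟩
  obtain ⟨L, hL, hLA, -⟩ := hAb s S hs0
  obtain ⟨K, hK, hKk⟩ := hub s S hs0 hr1
  refine hasDerivAt_of_tendstoUniformlyOn (l := atTop) (f := u) (f' := fun k r => A k r (u k r) + F k r)
    (g' := fun r => A' r (U r) + F' r) isOpen_Ioo ?_ ?_ ?_ hrI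
  · refine TendstoUniformlyOn.mono ?_ (Ioo_subset_Icc_self (a := s) (b := S))
    rw [Metric.tendstoUniformlyOn_iff]
    intro ε hε
    set η := ε / (2 * (K + L + 1)) with hη
    have hη0 : 0 < η := by positivity
    filter_upwards [Metric.tendstoUniformlyOn_iff.1 (hA s S hs0) η hη0,
      Metric.tendstoUniformlyOn_iff.1 (hF s S hs0) η hη0,
      Metric.tendstoUniformlyOn_iff.1 (hT s S hs0) η hη0, hKk] with k h1 h2 h3 h4 x hx
    have e : (A' x (U x) + F' x) - (A k x (u k x) + F k x) =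
        A' x (U x - u k x) + ((A' x - A k x) (u k x) + (F' x - F k x)) := by
      simp only [map_sub, ContinuousLinearMap.sub_apply]; abel
    have h1 := h1 x hx
    have h2 := h2 x hx
    have h3 := h3 x hx
    rw [dist_eq_norm] at h1 h2 h3 ⊢
    rw [e]
    have h5 : ‖A' x (U x - u k x) + ((A' x - A k x) (u k x) + (F' x - F k x))‖ ≤ L * η + (η * K + η) :=
      (norm_add_le _ _).trans (add_le_add (((A' x).le_opNorm _).trans
          (mul_le_mul (hLA x hx) h3.le (norm_nonneg _) (by linarith))) ((norm_add_le _ _).trans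
          (add_le_add (((A' x - A k x).le_opNorm _).trans
            (mul_le_mul h1.le (h4 x hx) (norm_nonneg _) hη0.le)) h2.le)))
    refine h5.trans_lt ?_
    have : L * η + (η * K + η) = ε / 2 := by
      rw [hη]; field_simp; ring
    rw [this]; linarith
  · filter_upwards [hu s S hs0] with k hk x hx using hk x (Ioo_subset_Icc_self hx)
  · exact fun x hx => (hT s S hs0).tendsto_at (Ioo_subset_Icc_self hx)

/-- boundedness up to the left end point (Gronwall backwards from r₁ on [s,r₁], uniformly in s) -/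
theorem ode_bdd {E : Type} [NormedAddCommGroup E] [NormedSpace ℝ E] (R r₁ L : ℝ) (hr₁ : R < r₁)
    (U U' : ℝ → E) (hU : ∀ r ∈ Ioc R r₁, HasDerivAt U (U' r) r)
    (hb : ∀ r ∈ Ioc R r₁, ‖U' r‖ ≤ L * ‖U r‖ + L) : ∃ K : ℝ, ∀ r ∈ Ioc R r₁, ‖U r‖ ≤ K := by
  refine ⟨(‖U r₁‖ + (|L| + 1)) * Real.exp ((|L| + 1) * (r₁ - R)), fun r hr => ?_⟩
  have hsub : Icc r r₁ ⊆ Ioc R r₁ := fun x hx => ⟨hr.1.trans_le hx.1, hx.2⟩
  have h1 := gron2 (s := r) (S := r₁) (r₁ := r₁) (L := |L| + 1) (δ := ‖U r₁‖) (ε := |L| + 1) (w := U) (w' := U')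
    (by linarith [abs_nonneg L]) (by positivity) ⟨hr.2, le_rfl⟩ (fun x hx => hU x (hsub hx))
    (fun x hx => by
      have := hb x (hsub hx)
      nlinarith [le_abs_self L, norm_nonneg (U x)]) le_rfl r ⟨le_rfl, hr.2⟩
  refine h1.trans (mul_le_mul_of_nonneg_left (Real.exp_le_exp.2 ?_) (by positivity))
  exact mul_le_mul_of_nonneg_left (by linarith [hr.1]) (by positivity)

/-- bootstrap: f' = f₁, f₁' = α f₁ + β f + e on (R,∞) with C^k coefficients ⇒ f is C^{k+2}, deriv f = f₁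
(induction with `contDiffOn_succ_iff_deriv_of_isOpen`) -/
theorem smooth_of_ode (R : ℝ) (k : ℕ) {f f₁ α β e : ℝ → ℂ} (hα : ContDiffOn ℝ k α (Ioi R))
    (hβ : ContDiffOn ℝ k β (Ioi R)) (he : ContDiffOn ℝ k e (Ioi R))
    (h0 : ∀ r, R < r → HasDerivAt f (f₁ r) r)
    (h1 : ∀ r, R < r → HasDerivAt f₁ (α r * f₁ r + β r * f r + e r) r) :
    ContDiffOn ℝ (k + 2 : ℕ) f (Ioi R) ∧ (∀ r, R < r → deriv f r = f₁ r) ∧
      ∀ r, R < r → deriv (deriv f) r = α r * f₁ r + β r * f r + e r := by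
  have hd0 : ∀ r, R < r → deriv f r = f₁ r := fun r hr => (h0 r hr).deriv
  have hd1 : ∀ r, R < r → deriv f₁ r = α r * f₁ r + β r * f r + e r := fun r hr => (h1 r hr).deriv
  have hdf : DifferentiableOn ℝ f (Ioi R) := fun r hr => (h0 r hr).differentiableAt.differentiableWithinAt
  have hdf1 : DifferentiableOn ℝ f₁ (Ioi R) := fun r hr => (h1 r hr).differentiableAt.differentiableWithinAt
  have key : ∀ j : ℕ, j ≤ k + 1 → ContDiffOn ℝ j f (Ioi R) ∧ ContDiffOn ℝ j f₁ (Ioi R) := by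
    intro j
    induction j with
    | zero => exact fun _ => ⟨contDiffOn_zero.2 hdf.continuousOn, contDiffOn_zero.2 hdf1.continuousOn⟩
    | succ j ih =>
      intro hj
      obtain ⟨i1, i2⟩ := ih (by omega)
      have hjk : (j : WithTop ℕ∞) ≤ k := by exact_mod_cast (by omega : j ≤ k)
      constructor
      · rw [Nat.cast_succ, contDiffOn_succ_iff_deriv_of_isOpen isOpen_Ioi]
        exact ⟨hdf, by simp, i2.congr fun r hr => hd0 r hr⟩
      · rw [Nat.cast_succ, contDiffOn_succ_iff_deriv_of_isOpen isOpen_Ioi]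
        refine ⟨hdf1, by simp, ContDiffOn.congr ?_ fun r hr => hd1 r hr⟩
        exact (((hα.of_le hjk).mul i2).add ((hβ.of_le hjk).mul i1)).add (he.of_le hjk)
  refine ⟨?_, hd0, fun r hr => ?_⟩
  · rw [show k + 2 = (k + 1) + 1 from rfl, Nat.cast_succ, contDiffOn_succ_iff_deriv_of_isOpen isOpen_Ioi]
    exact ⟨hdf, by simp, (key (k + 1) le_rfl).2.congr fun r hr => hd0 r hr⟩
  · have : deriv f =ᶠ[𝓝 r] f₁ := by
      filter_upwards [Ioi_mem_nhds hr] with x hx using hd0 x hx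
    rw [this.deriv_eq, hd1 r hr]

end

end Crest.Agent.R086.M
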